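import Vale.Agent.P015.Stage

/-! One batch of primes lowers the conditional entropy of the pattern. -/

namespace Vale.Agent.P015

open Finset

noncomputable section

variable {z : ℕ → ℤ × ℤ}

/-- No point of the path is divisible by a Gaussian prime of norm a prime up to `Q`. -/
def Avoid (z : ℕ → ℤ × ℤ) (Q : ℕ) : Prop :=
  ∀ p ≤ Q, p.Prime → ∀ r : ℤ, (p : ℤ) ∣ r ^ 2 + 1 → ∀ t, ¬ (p : ℤ) ∣ (z t).1 + r * (z t).2

theorem cov_num {n L u X S N1 N2 la lb lc eG δ ed : ℝ} (n0 : 0 ≤ n) (L1 : 1 ≤ L) (u1 : 1 ≤ u)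
    (hX : u * 2 ^ 50 ≤ X) (hS : S ≤ n * (L + 1 / 2048)) (hN2 : N2 * X ^ 2 ≤ n * (64 * u))
    (hN1 : N1 * X ^ 8 ≤ n * (64 * u)) (N10 : 0 ≤ N1) (N20 : 0 ≤ N2)
    (hla : la ≤ X + 2) (hlb : lb ≤ X ^ 3 + 3) (lc0 : 0 ≤ lc) (hlc : lc ≤ 2 * X + 3)
    (eG0 : 0 ≤ eG) (heG : eG ≤ 2 * X ^ 4) (hδ : δ ≤ 1 / X ^ 15)
    (hn : X ^ 16 ≤ n * u * 2 ^ 22) (hed : ed ≤ 1 / X ^ 16) :
    S - n * (L / 8) + 32 * (L / 8) * (2 * S - n * (L - 1 / 2048)
        - (n * (L - 1 / 2048) - N2 * (2 * la)))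
      + eG * (7 * (N1 * (2 * lb)) + 16 * X ^ 10 * (n * δ + lc / L) + n * ed)
      ≤ n * L * (1 - 1 / 8 + 1 / 128 + 1 / 256) := by
  have X1 : 2 ^ 50 ≤ X := by linarith
  have X0 : 0 < X := by linarith
  have X2 : 1 ≤ X := by linarith
  have nu : n * u * 2 ^ 50 ≤ n * X := by rw [mul_assoc]; gcongr
  have nu0 : 0 ≤ n * u := by positivity
  have A : N2 * (2 * la) ≤ n / 2 ^ 20 := by
    have a1 : N2 * (2 * la) ≤ N2 * (4 * X) := mul_le_mul_of_nonneg_left (by linarith) N20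
    refine a1.trans (le_of_mul_le_mul_right ?_ X0)
    linarith
  have B : eG * (7 * (N1 * (2 * lb))) ≤ n / 2 ^ 20 := by
    have x3 : X ≤ X ^ 3 := le_self_pow₀ X2 (by norm_num)
    have a1 : 7 * (N1 * (2 * lb)) ≤ 7 * (N1 * (4 * X ^ 3)) :=
      mul_le_mul_of_nonneg_left (mul_le_mul_of_nonneg_left (by linarith) N10) (by norm_num)
    have a2 : eG * (7 * (N1 * (2 * lb))) ≤ 2 * X ^ 4 * (7 * (N1 * (4 * X ^ 3))) :=
      (mul_le_mul_of_nonneg_left a1 eG0).trans (by gcongr)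
    refine a2.trans (le_of_mul_le_mul_right ?_ X0)
    linarith
  have C1 : eG * (16 * X ^ 10 * (n * δ)) ≤ n / 2 ^ 20 := by
    have a1 : 16 * X ^ 10 * (n * δ) ≤ 16 * X ^ 10 * (n * (1 / X ^ 15)) := by gcongr
    have a2 : eG * (16 * X ^ 10 * (n * δ)) ≤ 2 * X ^ 4 * (16 * X ^ 10 * (n * (1 / X ^ 15))) :=
      (mul_le_mul_of_nonneg_left a1 eG0).trans (by gcongr)
    refine a2.trans (le_of_mul_le_mul_right ?_ X0)
    have : 2 * X ^ 4 * (16 * X ^ 10 * (n * (1 / X ^ 15))) * X = 32 * n := by field_simp; ring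
    rw [this]
    have := mul_le_mul_of_nonneg_left X1 n0
    linarith
  have C2 : eG * (16 * X ^ 10 * (lc / L)) ≤ n / 2 ^ 20 := by
    have a0 : lc / L ≤ 4 * X := (div_le_self lc0 L1).trans (by linarith)
    have a1 : 16 * X ^ 10 * (lc / L) ≤ 16 * X ^ 10 * (4 * X) := by gcongr
    have a2 : eG * (16 * X ^ 10 * (lc / L)) ≤ 2 * X ^ 4 * (16 * X ^ 10 * (4 * X)) :=
      (mul_le_mul_of_nonneg_left a1 eG0).trans (by gcongr)
    refine a2.trans (le_of_mul_le_mul_right ?_ X0)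
    linarith
  have D : eG * (n * ed) ≤ n / 2 ^ 20 := by
    have a1 : n * ed ≤ n * (1 / X ^ 16) := by gcongr
    have a2 : eG * (n * ed) ≤ 2 * X ^ 4 * (n * (1 / X ^ 16)) :=
      (mul_le_mul_of_nonneg_left a1 eG0).trans (by gcongr)
    refine a2.trans (le_of_mul_le_mul_right ?_ (pow_pos X0 12))
    have : 2 * X ^ 4 * (n * (1 / X ^ 16)) * X ^ 12 = 2 * n := by field_simp
    rw [this]
    have x3 : X ≤ X ^ 12 := le_self_pow₀ X2 (by norm_num)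
    have := mul_le_mul_of_nonneg_left (X1.trans x3) n0
    linarith
  have E : 32 * (L / 8) * (2 * S - n * (L - 1 / 2048) - (n * (L - 1 / 2048) - N2 * (2 * la)))
      ≤ 32 * (L / 8) * (n / 512 + n / 2 ^ 20) := by
    apply mul_le_mul_of_nonneg_left _ (by positivity)
    linarith
  have F : n ≤ n * L := le_mul_of_one_le_right n0 L1
  linarith

theorem choose_n {Q c : ℕ} (h0 : 0 < Q) (h : 2 * Q ≤ 2 ^ c) :
    ∃ q, Q * q ≤ 2 ^ c ∧ 2 ^ c ≤ 2 * (Q * q) := by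
  have := Nat.div_add_mod (2 ^ c) Q
  have := Nat.mod_lt (2 ^ c) h0
  exact ⟨2 ^ c / Q, by omega, by omega⟩

theorem Q_le {s u c k1 k2 : ℕ} (h : (s + 21) * (s + 17) + 50 ≤ u) (hc : 11 * u + 1 ≤ c)
    (k1u : k1 ≤ 2 ^ (8 * u)) (k2u : k2 ≤ 2 ^ (2 * u)) :
    2 * (2 ^ 50 * (k1 * k2 * (2 ^ (s + 21)) ^ (s + 17))) ≤ 2 ^ c :=
  calc _ ≤ 2 * (2 ^ 50 * (2 ^ (8 * u) * 2 ^ (2 * u) * (2 ^ (s + 21)) ^ (s + 17))) := by gcongr
    _ = 2 ^ (1 + (50 + (8 * u + 2 * u + (s + 21) * (s + 17)))) := by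
      rw [pow_add 2 1, pow_add 2 50, pow_add 2 (8 * u + 2 * u), pow_add 2 (8 * u),
        pow_mul 2 (s + 21), pow_one]
    _ ≤ 2 ^ c := Nat.pow_le_pow_right (by norm_num) (by omega)

theorem log_ge_of_pow_le {u y : ℕ} (h : 2 ^ (16 * u) ≤ y) : 8 * (u : ℝ) ≤ Real.log y := by
  have f : (2 : ℝ) ^ (16 * u) ≤ y := by exact_mod_cast h
  have := Real.log_le_log (by positivity) f
  rw [Real.log_pow] at this
  push_cast at this
  have u0 : (0 : ℝ) ≤ u := Nat.cast_nonneg u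
  nlinarith [Real.log_two_gt_d9]

theorem div_mul_le {n k a b : ℕ} (h : a ≤ k * b) : n / k * a ≤ n * b := by
  refine (Nat.mul_le_mul_left _ h).trans ?_
  rw [← mul_assoc]
  exact Nat.mul_le_mul_right _ (Nat.div_mul_le_self n k)

theorem cov_batch (hz : Function.Injective z) {s u j c y n k1 k2 N : ℕ} (hu : u = 2 ^ s)
    (h1 : (s + 21) ^ 2 + 100 ≤ u) (hj1 : 16 * u ≤ j) (hj2 : j ≤ 32 * u) (hc : j = c + s + 21)
    (hy1 : 2 ^ j ≤ y) (hy2 : y ≤ 2 ^ (j + 4)) (hn : 2 ^ c ≤ 2 * n)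
    (P : PS (Fin n)) (hP1 : ∀ i, y ≤ P.p i) (hP2 : ∀ i, 2048 * P.p i ≤ 2049 * y)
    (hP3 : ∀ i, P.p i ≤ 2 ^ (j + 4)) (hav : Avoid z (2 ^ (32 * u + 4)))
    (k10 : 0 < k1) (k1n : k1 ∣ n) (k1l : 2 ^ (8 * u) ≤ k1 * (64 * u))
    (k20 : 0 < k2) (k2n : k2 ∣ n) (k2l : 2 ^ (2 * u) ≤ k2 * (64 * u))
    (P1 P2 : Ker) (E2 E : Exp) (d2 : P2.Disp z (2 ^ 2 ^ (2 * u + u)))
    (sp2 : E2.Span z (2 ^ 2 ^ u)) {δ : ℝ} (δ0 : 0 ≤ δ) (hδ : δ ≤ 1 / (2 ^ u) ^ 15)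
    (co2 : E2.Coll δ) (c2 : Fintype.card E2.ι = 2 ^ (10 * u)) (hE : E.Valid z)
    (hN : N * 2 ^ (10 * u) = 2 ^ (j + s + 12))
    (hm : ∀ τ A, E.miss τ A = ((E2.pre z P2).pre z P1).miss τ A ^ N)
    (g1 : ∀ τ : ℕ, n * (Real.log y - 1 / 2048) ≤ P.Gam k1 (fun ξ => z (P1.κ τ ξ)))
    (g2 : ∀ τ : ℕ, n * (Real.log y - 1 / 2048) ≤ P.Gam k2 (fun ξ => z (P2.κ τ ξ)))
    (Ω : Type) [Fintype Ω] [Nonempty Ω] (τ : Ω → ℕ) :
    ex (fun ε => ∑ i, E.unc z P ε i τ)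
      ≤ n * Real.log y * (1 - 1 / 8 + 1 / 128 + 1 / 256) := by
  have hs0 : s + 50 ≤ u := by nlinarith [Nat.zero_le s]
  have y4 : 4 ≤ y := le_trans (Nat.pow_le_pow_right (n := 2) (i := 2) (by norm_num) (by omega)) hy1
  have y0 : (0 : ℝ) < y := by exact_mod_cast (by omega : 0 < y)
  have L1 : 1 ≤ Real.log y := by
    have f : (2 : ℝ) ^ 2 ≤ y := by exact_mod_cast y4
    have := Real.log_le_log (by positivity) f
    rw [Real.log_pow] at this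
    push_cast at this
    linarith [Real.log_two_gt_d9]
  have b := cov P (y := y) (Y := 2 ^ (j + 4)) (by omega) hP1 hP3 hz
    (fun ε i t x => hav (P.p i) ((hP3 i).trans (Nat.pow_le_pow_right (by norm_num) (by omega)))
      (P.prime i) _ (P.sr_root ε i) t ((P.X_eq_zero ε i _).mp x))
    k10 k1n k20 k2n P1 P2 E2 E d2 sp2 δ0 co2 hE hm g1 g2 (Real.log y / 8) (by positivity) Ω τ
  refine b.trans ?_
  have m1 : ((Fintype.card E2.ι : ℕ) : ℝ) = (2 ^ u) ^ 10 := by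
    rw [c2, ← pow_mul, mul_comm u 10]; push_cast; rfl
  have m2 : (N : ℝ) * (Fintype.card E2.ι : ℕ) / (16 * (2 ^ (j + 4) : ℕ)) = 16 * u := by
    rw [c2, ← Nat.cast_mul, hN, hu]
    push_cast
    field_simp
    ring
  rw [m2, m1]
  apply cov_num (u := u) (Nat.cast_nonneg _) L1 (by exact_mod_cast (by omega : 1 ≤ u))
  · have : u * 2 ^ 50 ≤ 2 ^ u := by
      conv_lhs => rw [hu, ← pow_add]
      exact Nat.pow_le_pow_right (by norm_num) hs0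
    exact_mod_cast this
  · have : ∀ i ∈ (Finset.univ : Finset (Fin n)), Real.log (P.p i) ≤ Real.log y + 1 / 2048 := by
      intro i _
      have f1 : (2048 : ℝ) * P.p i ≤ 2049 * y := by exact_mod_cast hP2 i
      have f2 : (0 : ℝ) < P.p i := by exact_mod_cast (P.prime i).pos
      have f3 := Real.log_le_sub_one_of_pos (div_pos f2 y0)
      rw [Real.log_div f2.ne' y0.ne'] at f3
      have f4 : (P.p i : ℝ) / y ≤ 2049 / 2048 := by
        rw [div_le_div_iff₀ y0 (by norm_num)]; linarith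
      linarith
    have := Finset.sum_le_card_nsmul _ _ _ this
    rwa [Finset.card_univ, Fintype.card_fin, nsmul_eq_mul] at this
  · have := div_mul_le (n := n) k2l
    rw [mul_comm 2 u, pow_mul] at this
    exact_mod_cast this
  · have := div_mul_le (n := n) k1l
    rw [mul_comm 8 u, pow_mul] at this
    exact_mod_cast this
  · exact Nat.cast_nonneg _
  · exact Nat.cast_nonneg _
  · have := log_disp (l := 2 ^ 2 ^ u) (x := 2 ^ u) le_rfl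
    exact this.trans (by push_cast; rfl)
  · have f : 2 ^ 2 ^ (2 * u + u) + 2 ^ 2 ^ u ≤ 2 ^ (2 ^ (2 * u + u) + 1) := by
      have : 2 ^ 2 ^ u ≤ 2 ^ 2 ^ (2 * u + u) :=
        Nat.pow_le_pow_right (by norm_num) (Nat.pow_le_pow_right (by norm_num) (by omega))
      rw [pow_succ]; omega
    refine (log_disp f).trans (le_of_eq ?_)
    push_cast; ring
  · have := Real.log_natCast_nonneg (2 * (2 * 2 ^ 2 ^ u) ^ 2)
    rw [Nat.cast_mul, Nat.cast_pow] at this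
    exact this
  · have := log_le_of_le_pow (a := 2 * ((2 * 2 ^ 2 ^ u : ℕ) : ℝ) ^ 2) (x := 2 * 2 ^ u + 3)
      (by positivity) (by push_cast; apply le_of_eq; ring)
    exact this.trans (by push_cast; rfl)
  · exact (Real.exp_pos _).le
  · have f : (y : ℝ) ≤ 2 ^ (j + 4) := by exact_mod_cast hy2
    have f2 := Real.log_le_log y0 f
    rw [Real.log_pow] at f2
    have f3 : ((j + 4 : ℕ) : ℝ) ≤ 8 * (4 * u + 1 : ℕ) := by exact_mod_cast (by omega)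
    have f4 : Real.log y / 8 ≤ Real.log (2 ^ (4 * u + 1)) := by
      rw [Real.log_pow]
      have := mul_le_mul_of_nonneg_right f3 (Real.log_nonneg (show (1 : ℝ) ≤ 2 by norm_num))
      linarith
    have f5 := Real.exp_le_exp.mpr f4
    rw [Real.exp_log (x := 2 ^ (4 * u + 1)) (by positivity)] at f5
    exact f5.trans (le_of_eq (by ring))
  · exact hδ
  · have f : (2 ^ u) ^ 16 ≤ n * u * 2 ^ 22 := by
      rw [← pow_mul]
      have f1 : 2 ^ (u * 16) ≤ 2 ^ j := Nat.pow_le_pow_right (by norm_num) (by omega)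
      have f2 : 2 ^ j = 2 ^ c * u * 2 ^ 21 := by rw [hc, hu, pow_add, pow_add]
      have f3 := Nat.mul_le_mul_right (u * 2 ^ 21) hn
      rw [f2] at f1
      calc 2 ^ (u * 16) ≤ 2 ^ c * (u * 2 ^ 21) := by rw [← mul_assoc]; exact f1
        _ ≤ 2 * n * (u * 2 ^ 21) := f3
        _ = n * u * 2 ^ 22 := by ring
    exact_mod_cast f
  · rw [Real.exp_neg, one_div]
    apply inv_anti₀ (by positivity)
    have f : (2 : ℝ) ≤ Real.exp 1 := by linarith [Real.add_one_le_exp 1]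
    rw [← pow_mul, show (16 : ℝ) * u = ((u * 16 : ℕ) : ℝ) * 1 by push_cast; ring,
      Real.exp_nat_mul]
    gcongr

theorem batch (D : ℕ) (hz : Function.Injective z) (hs : ∀ n, Bd D (z (n + 1) - z n))
    {s u j0 i N : ℕ} (hu : u = 2 ^ s) (h1 : (s + 21) ^ 2 + 100 ≤ u) (h2 : 16 * CD D ≤ 2 ^ u)
    (hav : Avoid z (2 ^ (32 * u + 4))) (hi : j0 + 128 = 2 * i) (hj1 : 16 * u ≤ j0 + 128)
    (hj2 : j0 + 128 ≤ 32 * u) (P1 P2 : Ker) (E2 E : Exp)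
    (p1 : P1.Prog z (CD D) (2 ^ 2 ^ (8 * u)) (2 ^ (s + 21)) (s + 17))
    (p2 : P2.Prog z (CD D) (2 ^ 2 ^ (2 * u)) (2 ^ (s + 21)) (s + 17))
    (d2 : P2.Disp z (2 ^ 2 ^ (2 * u + u)))
    (sp2 : E2.Span z (2 ^ 2 ^ u)) {δ : ℝ} (δ0 : 0 ≤ δ) (hδ : δ ≤ 1 / (2 ^ u) ^ 15)
    (co2 : E2.Coll δ) (c2 : Fintype.card E2.ι = 2 ^ (10 * u)) (hE : E.Valid z)
    (hN : N * 2 ^ (10 * u) = 2 ^ (j0 + 128 + s + 12))
    (hm : ∀ τ A, E.miss τ A = ((E2.pre z P2).pre z P1).miss τ A ^ N)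
    (hc : E.Cost (2 ^ (j0 + 61))) (K : Ker) (hK : K.Disp z (2 ^ 2 ^ j0)) {F0 : ℝ}
    (hP : E.PP z K (2 ^ j0) F0) :
    ∃ K' : Ker, K'.Disp z (2 ^ 2 ^ (j0 + 128)) ∧
      E.PP z K' (2 ^ (j0 + 128)) (F0 - 2 ^ (j0 + 63)) := by
  have hs0 : s + 100 ≤ u := by nlinarith [Nat.zero_le s]
  have hs1 : (s + 21) * (s + 17) + 50 ≤ u := by nlinarith [Nat.zero_le s]
  obtain ⟨c, hcj⟩ : ∃ c, j0 + 128 = c + s + 21 := ⟨j0 + 128 - s - 21, by omega⟩
  have e1 : 2 ^ c * (64 * u) = 2 ^ (j0 + 113) := by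
    rw [hu, show j0 + 113 = c + s + 6 by omega, pow_add, pow_add]; ring
  obtain ⟨y, y1, y2, T, hT, hT'⟩ := short_interval i c (by omega) (by
    rw [← hi, show j0 + 128 = j0 + 113 + 15 by omega, pow_add 2 (j0 + 113), ← e1,
      mul_right_comm]
    gcongr
    omega)
  have w1 : 2 ^ (2 * i) = 2048 * 2 ^ (2 * i - 11) := by
    rw [show (2048 : ℕ) = 2 ^ 11 by norm_num, ← pow_add]; congr 1; omega
  rw [← hi] at y1 y2 w1 hT'
  have y3 : y ≤ 2 ^ (j0 + 128 + 4) := by omega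
  obtain ⟨k1, k10, k1u, k1l, g1⟩ := stageA p1 hu h1 h2 (by omega) hj1 hj2 y1 y3
  obtain ⟨k2, k20, k2u, k2l, g2⟩ := stageA p2 hu h1 h2 (by omega) hj1 hj2 y1 y3
  obtain ⟨q, q1, q2⟩ := choose_n (Q := 2 ^ 50 * (k1 * k2 * (2 ^ (s + 21)) ^ (s + 17))) (c := c)
    (Nat.mul_pos (Nat.two_pow_pos _) (Nat.mul_pos (Nat.mul_pos k10 k20)
      (pow_pos (Nat.two_pow_pos _) _))) (Q_le hs1 (by omega) k1u k2u)
  rw [mul_assoc] at q1 q2
  obtain ⟨r0, hr0⟩ : ∃ r0, r0 = k1 * k2 * (2 ^ (s + 21)) ^ (s + 17) * q := ⟨_, rfl⟩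
  rw [← hr0] at q1 q2
  obtain ⟨P, hP'⟩ := exists_PS T (fun p hp => ⟨(hT' p hp).1, (hT' p hp).2.1⟩) (2 ^ 50 * r0)
    (q1.trans hT)
  have hP1 : ∀ i, y ≤ P.p i := fun i => (hT' _ (hP' i)).2.2.1
  have hP2 : ∀ i, 2048 * P.p i ≤ 2049 * y := fun i => by
    have := (hT' _ (hP' i)).2.2.2; omega
  have hP3 : ∀ i, P.p i ≤ 2 ^ (j0 + 128 + 4) := fun i => by
    have := (hT' _ (hP' i)).2.2.2; omega
  have n1 : k1 * (2 ^ (s + 21)) ^ (s + 17) ∣ 2 ^ 50 * r0 :=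
    Dvd.intro (2 ^ 50 * k2 * q) (by rw [hr0]; ring)
  have n2 : k2 * (2 ^ (s + 21)) ^ (s + 17) ∣ 2 ^ 50 * r0 :=
    Dvd.intro (2 ^ 50 * k1 * q) (by rw [hr0]; ring)
  have r1 : 2 ^ 20 ≤ r0 := by
    have : 2 ^ 71 ≤ 2 ^ c := Nat.pow_le_pow_right (by norm_num) (by omega)
    omega
  have e2 : (j0 + 128 + 4) * (2 ^ 50 * r0) ≤ 2 ^ (j0 + 113) := by
    rw [← e1, mul_comm]
    exact Nat.mul_le_mul q1 (by omega)
  obtain ⟨KB, kb1, kb2⟩ := stageB D hz hs (r0 := r0) (y := y) (x := 2 ^ (j0 + 113)) r1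
    (by
      have : 2 ^ u < 2 ^ (j0 + 128) := Nat.pow_lt_pow_right (by norm_num) (by omega)
      omega)
    (by
      refine (Nat.pow_le_pow_left y3 _).trans ?_
      rw [← pow_mul]
      exact Nat.pow_le_pow_right (by norm_num) e2)
    (by
      refine h2.trans (Nat.pow_le_pow_right (by norm_num) ?_)
      have := Nat.lt_two_pow_self (n := j0 + 113)
      omega)
  have b := Exp.PP.batch P (k := 1024 * r0) (Y := 2 ^ (j0 + 128 + 4)) (by omega)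
    (Dvd.intro_left (2 ^ 40) (by ring)) (by omega) hP3 KB hK hP hc (kb2 P hP1)
    (cov_batch hz hu h1 hj1 hj2 hcj y1 y3 q2 P hP1 hP2 hP3 hav k10 ((dvd_mul_right _ _).trans n1)
      k1l k20 ((dvd_mul_right _ _).trans n2) k2l P1 P2 E2 E d2 sp2 δ0 hδ co2 c2 hE hN hm
      (g1 _ P hP1 n1) (g2 _ P hP1 n2))
  refine ⟨KB.comp K, (kb1.comp hK).mono ?_, b.mono ?_ ?_⟩
  · rw [← pow_succ']
    exact tower_add (by omega) (by omega)
  · have f1 := log_le_of_le_pow (a := ((2 ^ (j0 + 128 + 4) : ℕ) : ℝ)) (x := j0 + 128 + 4)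
      (by positivity) (by push_cast; rfl)
    have f2 : 2 ^ j0 + 1024 * r0 * (j0 + 128 + 4) ≤ 2 ^ (j0 + 128) := by
      have f3 : 1024 * r0 * (j0 + 128 + 4) ≤ (j0 + 128 + 4) * (2 ^ 50 * r0) := by
        rw [mul_comm]; gcongr; norm_num
      rw [pow_add] at e2
      rw [pow_add 2 j0]
      omega
    have f4 : (2 : ℝ) ^ j0 + (1024 * r0 : ℕ) * ((j0 + 128 + 4 : ℕ) : ℝ) ≤ 2 ^ (j0 + 128) := by
      exact_mod_cast f2
    have f5 := mul_le_mul_of_nonneg_left f1 (Nat.cast_nonneg (α := ℝ) (1024 * r0))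
    linarith
  · have f1 : 2 ^ 50 * r0 / (1024 * r0) = 2 ^ 40 := by
      rw [show 2 ^ 50 * r0 = 2 ^ 40 * (1024 * r0) by ring, Nat.mul_div_cancel _ (by omega)]
    rw [f1]
    have f2 := log_disp (l := 2 ^ 2 ^ j0) (x := 2 ^ j0) le_rfl
    have f3 : 8 * (u : ℝ) ≤ Real.log y :=
      log_ge_of_pow_le (le_trans (Nat.pow_le_pow_right (by norm_num) hj1) y1)
    have f4 : 2 ^ (j0 + 109) ≤ 2 ^ 50 * r0 * (8 * u) := by
      have := Nat.mul_le_mul_right (64 * u) q2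
      rw [e1, show j0 + 113 = j0 + 109 + 4 by omega, pow_add 2 (j0 + 109)] at this
      have f : 2 * (2 ^ 50 * r0) * (64 * u) = 2 ^ 50 * r0 * (8 * u) * 2 ^ 4 := by ring
      rw [f] at this
      exact Nat.le_of_mul_le_mul_right this (by norm_num)
    have f5 : (2 : ℝ) ^ (j0 + 109) ≤ (2 ^ 50 * r0 : ℕ) * (8 * (u : ℝ)) := by exact_mod_cast f4
    have f6 := mul_le_mul_of_nonneg_left f3 (Nat.cast_nonneg (α := ℝ) (2 ^ 50 * r0))
    have f7 : (1 : ℝ) ≤ 2 ^ j0 := one_le_pow₀ (by norm_num)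
    generalize ((2 ^ 50 * r0 : ℕ) : ℝ) * Real.log y = a at *
    generalize Real.log (2 * ((2 ^ 2 ^ j0 : ℕ) : ℝ) + 1) = lg at *
    rw [pow_add] at f5
    rw [pow_add 2 j0, pow_add 2 j0]
    push_cast at f2 ⊢
    linarith

end

end Vale.Agent.P015
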