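import Vale.Agent.P015.Ent

/-! The sum of two nearly uniform, nearly independent variables is spread out pointwise. -/

namespace Vale.Agent.P015

open Finset

noncomputable section

variable {Ω : Type} [Fintype Ω] [Nonempty Ω] {γ : Type}

omit [Nonempty Ω] in
theorem ex_mass {G : Type} [Fintype G] (Y : Ω → G) (f : G → ℝ) :
    ex (fun ω => f (Y ω)) = ∑ u, mass Y u * f u := by
  rw [ex_congr (fun ω => (sum_ind_eq Finset.univ (Y ω) (Finset.mem_univ _) f).symm), ex_sum]
  apply Finset.sum_congr rfl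
  intro u _
  rw [ex_mul_right]
  rfl

theorem tv_le {G : Type} [Fintype G] [Nonempty G] (X : Ω → G) (Z : Ω → γ) :
    ex (fun ω => ex (fun a => 1 - min (Fintype.card G * cond X Z a (Z ω)) 1))
      ≤ 8 * (Real.log (Fintype.card G) - cH X Z) + 1 / 7 := by
  have hp := card_pos' (Ω := G)
  set p : ℝ := (Fintype.card G : ℝ) with hpdef
  let I : G → γ → ℝ := fun a z => ind (p * cond X Z a z < 1)
  have I0 : ∀ a z, 0 ≤ I a z := fun _ _ => ind_nonneg _
  have I1 : ∀ a z, I a z ≤ 1 := fun _ _ => ind_le_one _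
  have g := cH_le_gibbs X Z Finset.univ (fun _ => Finset.mem_univ _)
    (fun a z => (1 - I a z / 8) / p)
    (fun a z => div_nonneg (by linarith [I1 a z]) hp.le)
    (fun ω => div_pos (by linarith [I1 (X ω) (Z ω)]) hp)
  have e1 : ex (fun ω => - Real.log ((1 - I (X ω) (Z ω) / 8) / p))
      ≤ ex (fun ω => Real.log p + I (X ω) (Z ω) / 7) := by
    apply ex_mono
    intro ω
    rw [Real.log_div (by linarith [I1 (X ω) (Z ω)]) hp.ne']
    by_cases c : p * cond X Z (X ω) (Z ω) < 1
    · have : I (X ω) (Z ω) = 1 := ind_pos c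
      rw [this]
      have h := Real.log_le_sub_one_of_pos (show (0 : ℝ) < (1 - 1 / 8)⁻¹ by norm_num)
      rw [Real.log_inv] at h
      norm_num at h ⊢
      linarith
    · have : I (X ω) (Z ω) = 0 := ind_neg c
      rw [this]; simp
  rw [ex_add, ex_const, ex_div] at e1
  have e2 : ex (fun ω => ∑ a, (1 - I a (Z ω) / 8) / p)
      = 1 - ex (fun ω => ex (fun a => I a (Z ω))) / 8 := by
    rw [← ex_div, ← ex_const (Ω := Ω) (1 : ℝ), ← ex_sub]
    apply ex_congr
    intro ω
    rw [ex_const]
    unfold ex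
    rw [← Finset.sum_div, Finset.sum_sub_distrib, Finset.sum_const, Finset.card_univ,
      nsmul_eq_mul, ← Finset.sum_div, ← hpdef]
    field_simp
  have e3 := ex_cond X Z Finset.univ (fun _ => Finset.mem_univ _) I
  have e4 : ex (fun ω => I (X ω) (Z ω)) ≤ 1 := ex_le_const (fun ω => I1 _ _)
  have e5 : ex (fun ω => ex (fun a => 1 - min (p * cond X Z a (Z ω)) 1))
      = ex (fun ω => ex (fun a => I a (Z ω)))
        - ex (fun ω => ∑ a, cond X Z a (Z ω) * I a (Z ω)) := by
    rw [← ex_sub]
    apply ex_congr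
    intro ω
    have : ∑ a, cond X Z a (Z ω) * I a (Z ω) = ex (fun a => p * cond X Z a (Z ω) * I a (Z ω)) := by
      unfold ex
      rw [← hpdef, Finset.sum_div]
      apply Finset.sum_congr rfl
      intro a _
      field_simp
    rw [this, ← ex_sub]
    apply ex_congr
    intro a
    by_cases c : p * cond X Z a (Z ω) < 1
    · have : I a (Z ω) = 1 := ind_pos c
      rw [this, min_eq_left c.le]; ring
    · have : I a (Z ω) = 0 := ind_neg c
      rw [this, min_eq_right (not_lt.mp c)]; ring
  rw [e5, ← e3]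
  rw [e2] at g
  linarith

theorem conv {G : Type} [AddCommGroup G] [Fintype G] (X V : Ω → G) (Z : Ω → γ) (B : G → Prop) :
    pr B * (5 / 7 - 8 * ((Real.log (Fintype.card G) - cH X Z)
        + (Real.log (Fintype.card G) - cH V Z)))
      ≤ 2 * (cH X Z - cH X (fun ω => (V ω, Z ω)))
        + 2 * Real.log 2 * pr (fun ω => B (X ω + V ω)) := by
  have hp := card_pos' (Ω := G)
  have t1 := tv_le X Z
  have t2 := tv_le V Z
  set p : ℝ := (Fintype.card G : ℝ) with hpdef
  have g := cH_le_gibbs X (fun ω => (V ω, Z ω)) Finset.univ (fun _ => Finset.mem_univ _)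
    (fun a w => cond X Z a w.2 * (1 - ind (B (a + w.1)) / 2))
    (fun a w => mul_nonneg (cond_nonneg _ _ _ _) (by linarith [ind_le_one (B (a + w.1))]))
    (fun ω => mul_pos (cond_pos _ _ _) (by linarith [ind_le_one (B (X ω + V ω))]))
  dsimp only at g
  have e1 : ex (fun ω => - Real.log (cond X Z (X ω) (Z ω) * (1 - ind (B (X ω + V ω)) / 2)))
      = cH X Z + Real.log 2 * pr (fun ω => B (X ω + V ω)) := by
    rw [cH_eq]
    unfold pr
    rw [← ex_mul_left, ← ex_add]
    apply ex_congr
    intro ω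
    rw [Real.log_mul (cond_pos _ _ _).ne' (by linarith [ind_le_one (B (X ω + V ω))])]
    by_cases c : B (X ω + V ω)
    · rw [ind_pos c, show (1 : ℝ) - 1 / 2 = 2⁻¹ by norm_num, Real.log_inv]; ring
    · rw [ind_neg c]; simp
  have e2 : ex (fun ω => ∑ a, cond X Z a (Z ω) * (1 - ind (B (a + V ω)) / 2))
      = 1 - ex (fun ω => ∑ a, cond X Z a (Z ω) * ind (B (a + V ω))) / 2 := by
    rw [← ex_div, ← ex_const (Ω := Ω) (1 : ℝ), ← ex_sub]
    apply ex_congr
    intro ω
    rw [ex_const, ← sum_cond X Z Finset.univ (fun _ => Finset.mem_univ _) ω, Finset.sum_div,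
      ← Finset.sum_sub_distrib]
    apply Finset.sum_congr rfl
    intro a _
    rw [sum_cond X Z Finset.univ (fun _ => Finset.mem_univ _) ω]
    ring
  have e3 := ex_cond V Z Finset.univ (fun _ => Finset.mem_univ _)
    (fun v z => ∑ a, cond X Z a z * ind (B (a + v)))
  have e4 : ex (fun ω => pr B * (1 - ex (fun a => 1 - min (p * cond X Z a (Z ω)) 1)
        - ex (fun a => 1 - min (p * cond V Z a (Z ω)) 1)))
      ≤ ex (fun ω => ∑ v, cond V Z v (Z ω) * ∑ a, cond X Z a (Z ω) * ind (B (a + v))) := by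
    apply ex_mono
    intro ω
    set gX : G → ℝ := fun a => p * cond X Z a (Z ω) with hgX
    set gV : G → ℝ := fun a => p * cond V Z a (Z ω) with hgV
    have x0 : ∀ a, 0 ≤ gX a := fun a => mul_nonneg hp.le (cond_nonneg _ _ _ _)
    have v0 : ∀ a, 0 ≤ gV a := fun a => mul_nonneg hp.le (cond_nonneg _ _ _ _)
    have f1 : ∑ v, cond V Z v (Z ω) * ∑ a, cond X Z a (Z ω) * ind (B (a + v))
        = ex (fun v => ex (fun a => gV v * gX a * ind (B (a + v)))) := by
      unfold ex
      rw [← hpdef, Finset.sum_div]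
      apply Finset.sum_congr rfl
      intro v _
      rw [Finset.mul_sum, Finset.sum_div, Finset.sum_div]
      apply Finset.sum_congr rfl
      intro a _
      simp only [hgX, hgV]
      field_simp
    have f2 : ∀ v, ex (fun a => ind (B (a + v))) = pr B :=
      fun v => MP_equiv (Equiv.addRight v) (fun a => ind (B a))
    have f3 : ∀ a, ex (fun v => ind (B (a + v))) = pr B :=
      fun a => MP_equiv (Equiv.addLeft a) (fun a => ind (B a))
    have f4 : ex (fun v => ex (fun a => (min (gV v) 1 - 1) * ind (B (a + v))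
          + min (gX a) 1 * ind (B (a + v))))
        ≤ ex (fun v => ex (fun a => gV v * gX a * ind (B (a + v)))) := by
      apply ex_mono; intro v; apply ex_mono; intro a
      rw [← add_mul]
      apply mul_le_mul_of_nonneg_right _ (ind_nonneg _)
      have a1 : min (gV v) 1 ≤ gV v := min_le_left _ _
      have a2 : min (gV v) 1 ≤ 1 := min_le_right _ _
      have a3 : min (gX a) 1 ≤ gX a := min_le_left _ _
      have a4 : min (gX a) 1 ≤ 1 := min_le_right _ _
      have a5 : 0 ≤ min (gX a) 1 := le_min (x0 a) zero_le_one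
      have a6 : min (gV v) 1 * min (gX a) 1 ≤ gV v * gX a := mul_le_mul a1 a3 a5 (v0 v)
      nlinarith
    simp only [ex_add] at f4
    rw [ex_comm (fun v a => min (gX a) 1 * ind (B (a + v)))] at f4
    simp only [ex_mul_left, f2, f3, ex_mul_right, ex_sub, ex_const] at f4
    rw [f1, ex_sub, ex_sub, ex_const]
    linarith
  rw [ex_mul_left, ex_sub, ex_sub, ex_const] at e4
  have b0 := pr_nonneg B
  have e5 := mul_le_mul_of_nonneg_left (add_le_add t1 t2) b0
  rw [e1, e2, e3] at g
  linarith

theorem conv_bad {G : Type} [AddCommGroup G] [Fintype G] (X V : Ω → G) (Z : Ω → γ)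
    (hd : (Real.log (Fintype.card G) - cH X Z) + (Real.log (Fintype.card G) - cH V Z) ≤ 1 / 32) :
    pr (fun u => Fintype.card G * mass (fun ω => X ω + V ω) u ≤ 1 / 8)
      ≤ 7 * (cH X Z - cH X (fun ω => (V ω, Z ω))) := by
  have hp := card_pos' (Ω := G)
  set B : G → Prop := fun u => Fintype.card G * mass (fun ω => X ω + V ω) u ≤ 1 / 8 with hB
  have h := conv X V Z B
  have e1 : pr (fun ω => B (X ω + V ω)) ≤ pr B / 8 := by
    have := ex_mass (fun ω => X ω + V ω) (fun u => ind (B u))
    unfold pr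
    rw [this]
    unfold ex
    rw [Finset.sum_div, Finset.sum_div]
    apply Finset.sum_le_sum
    intro u _
    by_cases c : B u
    · rw [ind_pos c, mul_one, div_div, le_div_iff₀ (by positivity)]
      simp only [hB] at c
      linarith
    · rw [ind_neg c]; simp
  have l2 := Real.log_two_lt_d9
  have l0 : 0 ≤ Real.log 2 := Real.log_nonneg (by norm_num)
  have b0 := pr_nonneg B
  have e2 := mul_le_mul_of_nonneg_left e1 l0
  have e3 := mul_le_mul_of_nonneg_left hd b0
  nlinarith

end

end Vale.Agent.P015
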