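import Vale.Agent.P015.Batch

/-! Clusters of batches, and the final contradiction. -/

namespace Vale.Agent.P015

open Finset

noncomputable section

variable {z : ℕ → ℤ × ℤ}

/-- Bookkeeping for an experiment with `2 ^ ν` test points. -/
structure Good (E : Exp) (z : ℕ → ℤ × ℤ) (ν l : ℕ) (γ δ : ℝ) : Prop where
  valid : E.Valid z
  card : Fintype.card E.ι = 2 ^ ν
  span : E.Span z l
  cost : E.Cost (2 ^ ν * γ)
  atom : E.Atom δ
  coll : E.Coll δ

theorem Good.rep {E : Exp} {ν ν' l : ℕ} {γ δ : ℝ} (h : Good E z ν l γ δ) (e : ℕ)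
    (he : ν' = e + ν) : Good (E.rep e) z ν' l γ δ where
  valid := h.valid.rep e
  card := by rw [Exp.card_rep, h.card, he, pow_add]
  span := h.span.rep e
  cost := (h.cost.rep e).mono (by rw [he, pow_add, mul_assoc])
  atom := h.atom.rep e
  coll := h.coll.rep h.atom e

theorem Good.pre {E : Exp} {ν l l' x : ℕ} {γ γ' δ : ℝ} (h : Good E z ν l γ δ) {K : Ker}
    (hK : K.Disp z (2 ^ x)) (hl : 2 ^ x + l ≤ l') (hγ : 2 * ((x : ℝ) + 2) ≤ 2 ^ ν * (γ' - γ)) :
    Good (E.pre z K) z ν l' γ' δ where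
  valid := h.valid.pre K
  card := h.card
  span := (h.span.pre hK).mono hl
  cost := (h.cost.pre hK).mono (by
    have := log_disp (l := 2 ^ x) (x := x) le_rfl
    linarith)
  atom := h.atom.pre K
  coll := h.coll.pre K

/-- The state at the beginning of a cluster. -/
def Start (z : ℕ → ℤ × ℤ) (u : ℕ) (γ δ f : ℝ) : Prop :=
  ∃ E : Exp, Good E z (10 * u) (2 ^ 2 ^ u) γ δ ∧ E.PP0 z (2 ^ u) (2 ^ (10 * u) * f)

theorem Start.mono {u : ℕ} {γ γ' δ f f' : ℝ} (h : Start z u γ δ f) (hγ : γ ≤ γ') (hf : f ≤ f') :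
    Start z u γ' δ f' := by
  obtain ⟨E, g, p⟩ := h
  refine ⟨E, ⟨g.valid, g.card, g.span, g.cost.mono (by gcongr), g.atom, g.coll⟩, ?_⟩
  intro Ω _ _ τ
  obtain ⟨G, ψ, x1, x2, x3⟩ := p Ω τ
  exact ⟨G, ψ, x1, x2, x3.trans (by gcongr)⟩

theorem cost_num {a b u : ℕ} (h : a + u ≤ b) (ha : 1 ≤ a) (γ : ℝ) :
    2 * (((2 ^ a : ℕ) : ℝ) + 2) ≤ 2 ^ b * (γ + 4 / 2 ^ u - γ) := by
  have f1 : (2 : ℝ) ^ (a + u) ≤ 2 ^ b := pow_le_pow_right₀ (by norm_num) h
  have f2 : (2 : ℝ) ^ 1 ≤ 2 ^ a := pow_le_pow_right₀ (by norm_num) ha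
  rw [add_sub_cancel_left, ← mul_div_assoc, le_div_iff₀ (by positivity)]
  rw [pow_add] at f1
  push_cast
  have : (0 : ℝ) < 2 ^ u := by positivity
  nlinarith

theorem cluster (D : ℕ) (hz : Function.Injective z) (hs : ∀ n, Bd D (z (n + 1) - z n))
    {s u : ℕ} (hu : u = 2 ^ s) (h1 : (s + 21) ^ 2 + 100 ≤ u) (h2 : 16 * CD D ≤ 2 ^ u)
    (hav : Avoid z (2 ^ (32 * u + 4))) {γ δ f : ℝ} (δ0 : 0 ≤ δ) (hδ : δ ≤ 1 / (2 ^ u) ^ 15)
    (hγ : γ + 12 / 2 ^ u ≤ 1 / (u * 2 ^ 79)) (h : Start z u γ δ f) :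
    Start z (64 * u) (γ + 12 / 2 ^ u) δ (f - 1 / 2 ^ 80) := by
  have hs0 : s + 100 ≤ u := by nlinarith [Nat.zero_le s]
  obtain ⟨v, hv⟩ : ∃ v, u = 8 * v := by
    have : 3 ≤ s := by
      by_contra c
      have : 2 ^ s ≤ 2 ^ 3 := Nat.pow_le_pow_right (by norm_num) (by omega)
      omega
    exact ⟨2 ^ (s - 3), by rw [hu, show 8 = 2 ^ 3 by norm_num, ← pow_add]; congr 1; omega⟩
  obtain ⟨E2, g2, pp⟩ := h
  obtain ⟨P1, d1, p1⟩ := exists_progA D hz hs s u (8 * u) h1 h2 (by omega)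
  obtain ⟨P2, d2, p2⟩ := exists_progA D hz hs s u (2 * u) h1 h2 (by omega)
  have gU : Good ((E2.pre z P2).pre z P1) z (10 * u) (2 ^ 2 ^ (10 * u))
      (γ + 4 / 2 ^ u + 4 / 2 ^ u) δ :=
    (g2.pre d2 (l' := 2 ^ 2 ^ (4 * u)) (tower_add (by omega) (by omega))
      (cost_num (by omega) (by omega) γ)).pre d1 (tower_add (by omega) (by omega))
      (cost_num (by omega) (by omega) _)
  have pU : ((E2.pre z P2).pre z P1).PP0 z (2 ^ u) (2 ^ (10 * u) * f) :=
    ((pp.toPP P2).pre.toPP P1).pre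
  set U := (E2.pre z P2).pre z P1 with hU
  have u0 : (0 : ℝ) < u := by exact_mod_cast (by omega : 0 < u)
  have us : (2 : ℝ) ^ s = u := by rw [hu]; push_cast; rfl
  have main : ∀ b j0 : ℕ, b ≤ v → j0 + 128 = 16 * u + 128 * b → ∃ (E : Exp) (K : Ker) (N : ℕ),
      Good E z (j0 + s + 12) (2 ^ 2 ^ (10 * u)) (γ + 4 / 2 ^ u + 4 / 2 ^ u) δ ∧
      N * 2 ^ (10 * u) = 2 ^ (j0 + s + 12) ∧ (∀ τ A, E.miss τ A = U.miss τ A ^ N) ∧
      K.Disp z (2 ^ 2 ^ j0) ∧ E.PP z K (2 ^ j0) (2 ^ (j0 + s + 12) * (f - b / (u * 2 ^ 77))) := by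
    intro b
    induction b with
    | zero =>
      intro j0 _ hj
      obtain ⟨e, he⟩ : ∃ e, j0 + s + 12 = e + 10 * u := ⟨j0 + s + 12 - 10 * u, by omega⟩
      refine ⟨U.rep e, Ker.one, 2 ^ e, gU.rep e he, by rw [he, pow_add],
        fun τ A => Exp.miss_rep e τ A, Ker.disp_one z _, ((pU.toPP Ker.one).rep e).mono ?_ ?_⟩
      · exact pow_le_pow_right₀ (by norm_num) (by omega)
      · rw [he, pow_add]; simp [mul_assoc]
    | succ b ih =>
      intro j hb hj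
      obtain ⟨j0, rfl⟩ : ∃ j0, j = j0 + 128 := ⟨j - 128, by omega⟩
      obtain ⟨E, K, N, g, hN, hm, hK, hP⟩ := ih j0 (by omega) (by omega)
      have g' := g.rep (ν' := j0 + 128 + s + 12) 128 (by omega)
      have hN' : N * 2 ^ 128 * 2 ^ (10 * u) = 2 ^ (j0 + 128 + s + 12) := by
        rw [mul_right_comm, hN, ← pow_add]; congr 1; omega
      have hm' : ∀ τ A, (E.rep 128).miss τ A = U.miss τ A ^ (N * 2 ^ 128) := by
        intro τ A; rw [Exp.miss_rep, hm, pow_mul]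
      have q1 : (2 : ℝ) ^ (j0 + 128 + s + 12) = 2 ^ j0 * u * 2 ^ 140 := by
        rw [← us]; ring
      have q2 : (2 : ℝ) ^ (j0 + s + 12) = 2 ^ j0 * u * 2 ^ 12 := by
        rw [← us]; ring
      obtain ⟨K', k1, k2⟩ := batch D hz hs (i := 8 * u + 64 * b) hu h1 h2 hav (by omega)
        (by omega) (by omega) P1 P2 E2 (E.rep 128) p1 p2 d2 g2.span δ0 hδ g2.coll g2.card
        g'.valid hN' hm' (g'.cost.mono (by
          have f1 : γ + 4 / 2 ^ u + 4 / 2 ^ u ≤ 1 / (u * 2 ^ 79) := by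
            have : (0 : ℝ) ≤ 4 / 2 ^ u := by positivity
            have e : (12 : ℝ) / 2 ^ u = 3 * (4 / 2 ^ u) := by ring
            linarith
          refine (mul_le_mul_of_nonneg_left f1 (by positivity)).trans (le_of_eq ?_)
          rw [q1, pow_add]
          field_simp)) K hK (hP.rep 128)
      refine ⟨E.rep 128, K', N * 2 ^ 128, g', hN', hm', k1, k2.mono le_rfl (le_of_eq ?_)⟩
      rw [q1, q2, pow_add]
      push_cast
      field_simp
      ring
  obtain ⟨j0, hj⟩ : ∃ j0, j0 + 128 = 32 * u := ⟨32 * u - 128, by omega⟩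
  obtain ⟨E, K, N, g, -, -, hK, hP⟩ := main v j0 le_rfl (by omega)
  obtain ⟨e, he⟩ : ∃ e, 10 * (64 * u) = e + (j0 + s + 12) :=
    ⟨10 * (64 * u) - (j0 + s + 12), by omega⟩
  refine ⟨(E.rep e).pre z K, ?_, ?_⟩
  · have := (g.rep e he).pre hK (l' := 2 ^ 2 ^ (64 * u)) (tower_add (by omega) (by omega))
      (cost_num (u := u) (by omega) (by omega) _)
    rwa [show γ + 4 / 2 ^ u + 4 / 2 ^ u + 4 / 2 ^ u = γ + 12 / 2 ^ u by ring] at this
  · refine (((hP.rep e).mono ?_ (le_of_eq ?_))).pre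
    · exact pow_le_pow_right₀ (by norm_num) (by omega)
    · have v0 : (u : ℝ) = 8 * v := by exact_mod_cast hv
      have : (v : ℝ) / (u * 2 ^ 77) = 1 / 2 ^ 80 := by
        rw [div_eq_div_iff (by positivity) (by positivity), v0]; ring
      rw [this, he, pow_add 2 e, mul_assoc]

/-- A uniform forward jump. -/
def Ker.unif (a : ℕ) : Ker := ⟨Fin (2 ^ a), inferInstance, inferInstance, fun τ ξ => τ + ξ⟩

/-- Look at a segment of the path. -/
def Exp.seg (z : ℕ → ℤ × ℤ) (b : ℕ) : Exp where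
  Ξ := Unit
  ι := Fin (2 ^ b)
  Dat := Unit
  Pat := Fin (2 ^ b) → ℤ × ℤ
  fin := inferInstance
  ne := inferInstance
  finι := inferInstance
  neι := inferInstance
  time := fun τ _ i => τ + i
  dat := fun _ _ => ()
  pat := fun τ _ i => z (τ + i) - z τ
  rel := fun _ π i => π i

theorem seg_PP0 {D : ℕ} (hs : ∀ n, Bd D (z (n + 1) - z n)) (b : ℕ) {h : ℝ} (h0 : 0 ≤ h) :
    (Exp.seg z b).PP0 z h (2 ^ b * (2 * Real.log (2 * D + 1))) := by
  intro Ω _ _ τ
  refine ⟨Unit, fun _ => (), fun _ _ _ _ => rfl, fun Ω' _ _ W => by rw [H_unit]; exact h0, ?_⟩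
  refine (cH_le_H _ _).trans ?_
  have e1 : H (fun ω : Ω × Unit => fun i : Fin (2 ^ b) => z (τ ω.1 + i) - z (τ ω.1))
      ≤ H (fun ω : Ω × Unit => fun i : Fin (2 ^ b) => z (τ ω.1 + i + 1) - z (τ ω.1 + i)) := by
    apply H_mono
    intro ω ω' e
    have : ∀ i, i < 2 ^ b → z (τ ω.1 + i) - z (τ ω.1) = z (τ ω'.1 + i) - z (τ ω'.1) := by
      intro i
      induction i with
      | zero => simp
      | succ i ih =>
        intro hi
        have e1 := ih (by omega)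
        have e2 : z (τ ω.1 + i + 1) - z (τ ω.1 + i) = z (τ ω'.1 + i + 1) - z (τ ω'.1 + i) :=
          congrFun e ⟨i, by omega⟩
        rw [← add_assoc, ← add_assoc]
        linear_combination e1 + e2
    funext i
    exact this i i.2
  have e2 := H_pi_le (fun (i : Fin (2 ^ b)) (ω : Ω × Unit) => z (τ ω.1 + i + 1) - z (τ ω.1 + i))
  have e3 := Finset.sum_le_sum (s := Finset.univ) (fun (i : Fin (2 ^ b)) _ =>
    H_box (fun ω : Ω × Unit => z (τ ω.1 + i + 1) - z (τ ω.1 + i)) D (fun ω => hs _))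
  rw [Finset.sum_const, Finset.card_univ, Fintype.card_fin, nsmul_eq_mul] at e3
  push_cast at e3
  exact e1.trans (e2.trans e3)

theorem start0 {D : ℕ} (hs : ∀ n, Bd D (z (n + 1) - z n)) {a u x : ℕ} (hx : D * 2 ^ a ≤ 2 ^ x)
    (hl : 2 ^ x + D * 2 ^ (4 * u) ≤ 2 ^ 2 ^ u) :
    Start z u (2 * ((x : ℝ) + 2) / 2 ^ (4 * u)) (1 / 2 ^ a) (2 * Real.log (2 * D + 1)) := by
  have hK : (Ker.unif a).Disp z (2 ^ x) := fun τ ξ =>
    (Bd.steps hs τ _).mono ((Nat.mul_le_mul_left D ξ.2.le).trans hx)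
  have sp : (Exp.seg z (4 * u)).Span z (D * 2 ^ (4 * u)) := fun τ _ i =>
    (Bd.steps hs τ _).mono (Nat.mul_le_mul_left D i.2.le)
  have co : (Exp.seg z (4 * u)).Cost 0 := fun Ω _ _ τ => (H_unit ()).le
  have g : Good ((Exp.seg z (4 * u)).pre z (Ker.unif a)) z (4 * u) (2 ^ 2 ^ u)
      (2 * ((x : ℝ) + 2) / 2 ^ (4 * u)) (1 / 2 ^ a) := by
    refine ⟨Exp.Valid.pre (fun τ ξ i => ?_) _, Fintype.card_fin _, (sp.pre hK).mono hl,
      (co.pre hK).mono ?_, ?_, ?_⟩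
    · exact (add_sub_cancel _ _).symm
    · have := log_disp (l := 2 ^ x) (x := x) le_rfl
      rw [mul_div_cancel₀ _ (by positivity)]
      linarith
    · intro τ i t
      refine (pr_le_inv_card (Ω := Fin (2 ^ a) × Unit) ?_).trans (le_of_eq ?_)
      · intro ω ω' e e'
        have e1 : τ + ω.1 + i.val = t := e
        have e2 : τ + ω'.1 + i.val = t := e'
        exact Prod.ext (Fin.ext (by omega)) rfl
      · simp
    · intro τ i j hij
      refine (pr_false ?_).le.trans (by positivity)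
      intro ω e
      have e1 : τ + ω.1.val + i.val = τ + ω.1.val + j.val := e
      exact hij (Fin.ext (by omega))
  refine ⟨((Exp.seg z (4 * u)).pre z (Ker.unif a)).rep (6 * u), g.rep (6 * u) (by omega), ?_⟩
  intro Ω _ _ τ
  obtain ⟨G, ψ, x1, x2, x3⟩ := ((seg_PP0 hs (4 * u) (h := 2 ^ u) (by positivity)).toPP
    (Ker.unif a)).pre Ω τ
  refine ⟨G, ψ, x1, x2, (Exp.F_rep (6 * u) τ).trans ?_⟩
  rw [show 10 * u = 6 * u + 4 * u by omega, pow_add, mul_assoc]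
  gcongr

theorem sq_le_two_pow (s : ℕ) (hs : 11 ≤ s) : (s + 21) ^ 2 + 100 ≤ 2 ^ s := by
  induction s, hs using Nat.le_induction with
  | base => norm_num
  | succ s _ ih => rw [pow_succ 2 s]; nlinarith

theorem core (D : ℕ) : ∃ Q : ℕ, ∀ z : ℕ → ℤ × ℤ, Function.Injective z →
    (∀ n, Bd D (z (n + 1) - z n)) → ¬ Avoid z Q := by
  obtain ⟨m, hm⟩ := exists_nat_gt (2 ^ 80 * (2 * Real.log (2 * D + 1)))
  obtain ⟨s, hsdef⟩ : ∃ s, s = 7 * m + 100 + CD D := ⟨_, rfl⟩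
  obtain ⟨u, hu⟩ : ∃ u, u = 2 ^ s := ⟨_, rfl⟩
  obtain ⟨w, hw⟩ : ∃ w, w = 2 ^ (s + 6 * m) := ⟨_, rfl⟩
  refine ⟨2 ^ (32 * w + 4), fun z hz hs hav => ?_⟩
  have hC : D ≤ CD D := by unfold CD; nlinarith
  have u1 : 2 * s ≤ u := hu ▸ two_mul_le_two_pow s
  have uw : u ≤ w := by rw [hu, hw]; exact Nat.pow_le_pow_right (by norm_num) (by omega)
  have c1 : 16 * CD D ≤ 2 ^ u := by
    have f1 := Nat.lt_two_pow_self (n := CD D)
    have f2 : 2 ^ (CD D + 4) ≤ 2 ^ u := Nat.pow_le_pow_right (by norm_num) (by omega)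
    rw [pow_add] at f2
    omega
  have c2 : w * 2 ^ (m + 90) ≤ 2 ^ u := by
    rw [hw, ← pow_add]
    exact Nat.pow_le_pow_right (by norm_num) (by omega)
  have c3 : w * 2 ^ 90 ≤ 2 ^ u :=
    le_trans (Nat.mul_le_mul_left w (Nat.pow_le_pow_right (by norm_num) (by omega))) c2
  have st := start0 hs (a := 15 * w) (u := u) (x := 16 * w)
    (by
      rw [show 16 * w = w + 15 * w by ring, pow_add]
      apply Nat.mul_le_mul_right
      have : 2 ^ u ≤ 2 ^ w := Nat.pow_le_pow_right (by norm_num) uw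
      omega)
    (by
      have f1 : D * 2 ^ (4 * u) ≤ 2 ^ u * 2 ^ (4 * u) := Nat.mul_le_mul_right _ (by omega)
      rw [← pow_add] at f1
      have f2 : 2 ^ (u + 4 * u) ≤ 2 ^ (16 * w) := Nat.pow_le_pow_right (by norm_num) (by omega)
      have f3 : 2 ^ (16 * w + 1) ≤ 2 ^ 2 ^ u := Nat.pow_le_pow_right (by norm_num) (by omega)
      rw [pow_succ] at f3
      omega)
  have w1 : (1 : ℝ) ≤ w := by exact_mod_cast (by omega : 1 ≤ w)
  have γ1 : 2 * (((16 * w : ℕ) : ℝ) + 2) / 2 ^ (4 * u) ≤ 1 / (w * 2 ^ 80) := by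
    rw [div_le_div_iff₀ (by positivity) (by positivity)]
    have f1 : (w : ℝ) * 2 ^ 90 ≤ 2 ^ u := by exact_mod_cast c3
    have f2 : ((w : ℝ) * 2 ^ 90) ^ 2 ≤ (2 ^ u) ^ 2 := by gcongr
    have f3 : ((2 : ℝ) ^ u) ^ 2 ≤ 2 ^ (4 * u) := by
      rw [← pow_mul]; exact pow_le_pow_right₀ (by norm_num) (by omega)
    push_cast
    nlinarith
  have γ2 : (m : ℝ) * (12 / 2 ^ u) ≤ 1 / (w * 2 ^ 80) := by
    rw [← mul_div_assoc, div_le_div_iff₀ (by positivity) (by positivity)]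
    have f1 : m * 12 * (w * 2 ^ 80) ≤ 2 ^ u := by
      refine le_trans ?_ c2
      have := Nat.lt_two_pow_self (n := m)
      calc m * 12 * (w * 2 ^ 80) = w * (m * (12 * 2 ^ 80)) := by ring
        _ ≤ w * (2 ^ m * 2 ^ 90) := by gcongr; norm_num
        _ = w * 2 ^ (m + 90) := by rw [pow_add]
    rw [one_mul]
    exact_mod_cast f1
  have main : ∀ c : ℕ, c ≤ m → Start z (2 ^ (s + 6 * c)) (1 / (w * 2 ^ 80) + c * (12 / 2 ^ u))
      (1 / 2 ^ (15 * w)) (2 * Real.log (2 * D + 1) - c / 2 ^ 80) := by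
    intro c
    induction c with
    | zero =>
      intro _
      rw [mul_zero, add_zero, ← hu]
      exact st.mono (by simpa using γ1) (by simp)
    | succ c ih =>
      intro hc
      obtain ⟨t, ht⟩ : ∃ t, t = 2 ^ (s + 6 * c) := ⟨_, rfl⟩
      have ut : u ≤ t := by rw [hu, ht]; exact Nat.pow_le_pow_right (by norm_num) (by omega)
      have tw : t ≤ w := by rw [hw, ht]; exact Nat.pow_le_pow_right (by norm_num) (by omega)
      have t1 : (1 : ℝ) ≤ t := by exact_mod_cast (by omega : 1 ≤ t)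
      have tw' : (t : ℝ) ≤ w := by exact_mod_cast tw
      have f1 : (12 : ℝ) / 2 ^ t ≤ 12 / 2 ^ u := by gcongr; norm_num
      have f2 : ((c : ℝ) + 1) * (12 / 2 ^ u) ≤ m * (12 / 2 ^ u) := by
        gcongr; exact_mod_cast hc
      have := cluster D hz hs ht (ht ▸ sq_le_two_pow _ (by omega))
        (c1.trans (Nat.pow_le_pow_right (by norm_num) ut))
        (fun p hp => hav p (hp.trans (Nat.pow_le_pow_right (by norm_num) (by omega))))
        (δ := 1 / 2 ^ (15 * w)) (by positivity)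
        (by
          rw [← pow_mul]
          apply one_div_le_one_div_of_le (by positivity)
          exact pow_le_pow_right₀ (by norm_num) (by omega))
        (by
          have f3 : 1 / ((w : ℝ) * 2 ^ 79) ≤ 1 / (t * 2 ^ 79) := by gcongr
          have f4 : 1 / ((w : ℝ) * 2 ^ 79) = 2 * (1 / (w * 2 ^ 80)) := by field_simp
          linarith)
        (ht ▸ ih (by omega))
      rw [show 2 ^ (s + 6 * (c + 1)) = 64 * t by rw [ht]; ring]
      refine this.mono ?_ (le_of_eq ?_)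
      · push_cast; linarith
      · push_cast; ring
  obtain ⟨E, -, pp⟩ := main m le_rfl
  have := (pp.toPP Ker.one).nonneg
  have h2 : 2 * Real.log (2 * D + 1) - m / 2 ^ 80 < 0 := by
    rw [sub_neg, lt_div_iff₀ (by positivity)]; linarith
  have h3 := mul_neg_of_pos_of_neg (show (0 : ℝ) < 2 ^ (10 * 2 ^ (s + 6 * m)) by positivity) h2
  linarith

end

end Vale.Agent.P015
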