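import Vale.Agent.P015.Exp
import Vale.Agent.P015.Conv

/-! Many independent units of test points cover most residue classes. -/

namespace Vale.Agent.P015

open Finset

noncomputable section

theorem bonf {ι : Type} [Fintype ι] (A : ι → Prop) :
    ind (∀ a, ¬ A a) ≤ 1 - ∑ a, ind (A a) + ∑ a, ∑ b, ind (a ≠ b) * (ind (A a) * ind (A b)) := by
  by_cases c : ∀ a, ¬ A a
  · simp only [ind_pos c, ind_neg (c _)]
    simp
  · rw [ind_neg c]
    have e : (∑ a, ind (A a)) ^ 2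
        = ∑ a, ind (A a) + ∑ a, ∑ b, ind (a ≠ b) * (ind (A a) * ind (A b)) := by
      rw [sq, Finset.sum_mul_sum, ← Finset.sum_add_distrib]
      apply Finset.sum_congr rfl
      intro a _
      have f := sum_ind_eq Finset.univ a (Finset.mem_univ a) (fun b => ind (A a) * ind (A b))
      have g : ind (A a) * ind (A a) = ind (A a) := by rw [← ind_and]; exact ind_congr (by simp)
      rw [g] at f
      conv_rhs => rw [← f]
      rw [← Finset.sum_add_distrib]
      apply Finset.sum_congr rfl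
      intro b _
      rw [show (a ≠ b) = ¬ (a = b) from rfl, ind_not, f]
      ring
    nlinarith [sq_nonneg (∑ a, ind (A a) - 1)]

/-- Expected number of ordered pairs of distinct test points with the same value. -/
def Exp.cl (U : Exp) (τ : ℕ) {G : Type} (f : ℕ → G) : ℝ :=
  ex (fun ξ => ∑ a, ∑ b, ind (a ≠ b) * ind (f (U.time τ ξ a) = f (U.time τ ξ b)))

theorem Exp.cl_nonneg (U : Exp) (τ : ℕ) {G : Type} (f : ℕ → G) : 0 ≤ U.cl τ f :=
  ex_nonneg (fun _ => Finset.sum_nonneg (fun _ _ => Finset.sum_nonneg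
    (fun _ _ => mul_nonneg (ind_nonneg _) (ind_nonneg _))))

/-- Number of values which no test point takes. -/
def Exp.cnt (E : Exp) (τ : ℕ) {G : Type} [Fintype G] (f : ℕ → G) (ξ : E.Ξ) : ℝ :=
  ∑ u, ind (∀ a, ¬ f (E.time τ ξ a) = u)

theorem cover_one (E U : Exp) (τ N : ℕ) {G : Type} [Fintype G] (f : ℕ → G) (u0 : G)
    (h0 : ∀ t, f t ≠ u0) (hm : ∀ A, E.miss τ A = U.miss τ A ^ N) (G0 d κ : ℝ) (hG : 0 ≤ G0)
    (hd : 0 ≤ d) (hκ : 0 ≤ κ)
    (hs : d ≤ 1 / 32 → pr (fun u => Fintype.card G * mass (fun ξ => f (U.sp.κ τ ξ)) u ≤ 1 / 8)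
      ≤ 7 * κ) :
    ex (fun ξ => Real.log (E.cnt τ f ξ)) ≤ Real.log (Fintype.card G) - G0 + 32 * G0 * d
      + Real.exp G0 * (7 * κ + 16 * U.cl τ f / Fintype.card U.ι
        + Real.exp (-(N * Fintype.card U.ι / (16 * Fintype.card G)))) := by
  have : Nonempty G := ⟨u0⟩
  have hp := card_pos' (Ω := G)
  have hmpos := card_pos' (Ω := U.ι)
  have hcl := U.cl_nonneg τ f
  set p : ℝ := (Fintype.card G : ℝ) with hpdef
  set m : ℝ := (Fintype.card U.ι : ℝ) with hmdef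
  have c1 : ∀ ξ, 1 ≤ E.cnt τ f ξ := by
    intro ξ
    have := Finset.single_le_sum (f := fun u => ind (∀ a, ¬ f (E.time τ ξ a) = u))
      (fun j _ => ind_nonneg _) (Finset.mem_univ u0)
    rwa [ind_pos (fun a => h0 _)] at this
  have c2 : ∀ ξ, E.cnt τ f ξ ≤ p := by
    intro ξ
    have := Finset.sum_le_sum (s := Finset.univ)
      (fun u _ => ind_le_one (∀ a, ¬ f (E.time τ ξ a) = u))
    rwa [Finset.sum_const, Finset.card_univ, nsmul_eq_mul, mul_one] at this
  by_cases c : d ≤ 1 / 32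
  swap
  · have e1 : ex (fun ξ => Real.log (E.cnt τ f ξ)) ≤ Real.log p :=
      ex_le_const (fun ξ => Real.log_le_log (by linarith [c1 ξ]) (c2 ξ))
    have e2 : 0 ≤ Real.exp G0 * (7 * κ + 16 * U.cl τ f / m + Real.exp (-(N * m / (16 * p)))) := by
      positivity
    push Not at c
    nlinarith
  have e1 : ex (fun ξ => Real.log (E.cnt τ f ξ))
      ≤ ex (fun ξ => Real.log p - G0 + Real.exp G0 * (E.cnt τ f ξ / p)) := by
    apply ex_mono
    intro ξ
    have x0 : 0 < E.cnt τ f ξ := by linarith [c1 ξ]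
    have := Real.log_le_sub_one_of_pos (show 0 < Real.exp G0 * (E.cnt τ f ξ / p) by positivity)
    rw [Real.log_mul (by positivity) (by positivity), Real.log_exp,
      Real.log_div x0.ne' hp.ne'] at this
    linarith
  rw [ex_add, ex_const, ex_mul_left] at e1
  have e2 : ex (fun ξ => E.cnt τ f ξ / p) = ex (fun u => U.miss τ (fun t => f t = u) ^ N) := by
    rw [← ex_congr (fun u => hm (fun t => f t = u))]
    unfold Exp.miss pr
    rw [ex_comm]
    rfl
  let cu : G → ℝ := fun u => ex (fun ξ => ∑ a, ∑ b,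
    ind (a ≠ b) * (ind (f (U.time τ ξ a) = u) * ind (f (U.time τ ξ b) = u)))
  have cu0 : ∀ u, 0 ≤ cu u := fun u => ex_nonneg (fun _ => Finset.sum_nonneg (fun _ _ =>
    Finset.sum_nonneg (fun _ _ => mul_nonneg (ind_nonneg _)
      (mul_nonneg (ind_nonneg _) (ind_nonneg _)))))
  have e3 : ∀ u, U.miss τ (fun t => f t = u)
      ≤ 1 - m * mass (fun ξ => f (U.sp.κ τ ξ)) u + cu u := by
    intro u
    have f1 := ex_mono (fun ξ => bonf (fun a => f (U.time τ ξ a) = u))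
    rw [ex_add, ex_sub, ex_const] at f1
    have f2 : m * mass (fun ξ => f (U.sp.κ τ ξ)) u
        = ex (fun ξ => ∑ a, ind (f (U.time τ ξ a) = u)) := by
      have : mass (fun ξ => f (U.sp.κ τ ξ)) u
        = ex (fun ξ : U.Ξ × U.ι => ind (f (U.time τ ξ.1 ξ.2) = u)) := rfl
      rw [this, ex_prod, ← ex_mul_left]
      apply ex_congr
      intro ξ
      unfold ex
      rw [← hmdef]
      field_simp
    rw [f2]
    exact f1
  have e4 : ∀ u, U.miss τ (fun t => f t = u) ^ N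
      ≤ ind (p * mass (fun ξ => f (U.sp.κ τ ξ)) u ≤ 1 / 8) + 16 * p / m * cu u
        + Real.exp (-(N * m / (16 * p))) := by
    intro u
    have m0 : 0 ≤ U.miss τ (fun t => f t = u) := pr_nonneg _
    have m1 : U.miss τ (fun t => f t = u) ^ N ≤ 1 := pow_le_one₀ m0 (pr_le_one _)
    have i0 := ind_nonneg (p * mass (fun ξ => f (U.sp.κ τ ξ)) u ≤ 1 / 8)
    have i1 : 0 ≤ 16 * p / m * cu u := mul_nonneg (by positivity) (cu0 u)
    have i2 := Real.exp_pos (-(N * m / (16 * p)))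
    by_cases b1 : p * mass (fun ξ => f (U.sp.κ τ ξ)) u ≤ 1 / 8
    · rw [ind_pos b1]; linarith
    by_cases b2 : 1 ≤ 16 * p / m * cu u
    · linarith
    push Not at b1 b2
    have g1 : cu u ≤ m / (16 * p) := by
      rw [div_mul_eq_mul_div, div_lt_one hmpos] at b2
      rw [le_div_iff₀ (by positivity)]
      linarith
    have g2 : m / (8 * p) ≤ m * mass (fun ξ => f (U.sp.κ τ ξ)) u := by
      rw [div_le_iff₀ (by positivity)]
      nlinarith
    have g3 : U.miss τ (fun t => f t = u) ≤ Real.exp (-(m / (16 * p))) := by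
      have := Real.add_one_le_exp (-(m / (16 * p)))
      have g4 : m / (8 * p) = 2 * (m / (16 * p)) := by field_simp; ring
      linarith [e3 u]
    have g5 := pow_le_pow_left₀ m0 g3 N
    rw [← Real.exp_nat_mul, show (N : ℝ) * -(m / (16 * p)) = -(N * m / (16 * p)) by ring] at g5
    linarith
  have e5 := ex_mono e4
  rw [ex_add, ex_add, ex_const, ex_mul_left] at e5
  have e6 : ex cu = U.cl τ f / p := by
    simp only [cu]
    rw [ex_comm]
    unfold Exp.cl
    rw [← ex_div]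
    apply ex_congr
    intro ξ
    unfold ex
    rw [← hpdef, Finset.sum_comm]
    congr 1
    apply Finset.sum_congr rfl
    intro a _
    rw [Finset.sum_comm]
    apply Finset.sum_congr rfl
    intro b _
    rw [← Finset.mul_sum, sum_ind_eq Finset.univ _ (Finset.mem_univ _)
      (fun u => ind (f (U.time τ ξ b) = u))]
    congr 1
    exact ind_congr eq_comm
  have e7 : 16 * p / m * (U.cl τ f / p) = 16 * U.cl τ f / m := by field_simp
  rw [e6, e7] at e5
  have e8 := hs c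
  unfold pr at e8
  have e9 : ex (fun ξ => E.cnt τ f ξ / p)
      ≤ 7 * κ + 16 * U.cl τ f / m + Real.exp (-(N * m / (16 * p))) := by
    rw [e2]; linarith
  have e10 := mul_le_mul_of_nonneg_left e9 (Real.exp_pos G0).le
  have e11 : 0 ≤ 32 * G0 * d := by positivity
  linarith

variable {z : ℕ → ℤ × ℤ}

theorem spread {n : ℕ} (P : PS (Fin n)) {k : ℕ} (hk : 0 < k) (hd : k ∣ n) (P1 Q : Ker) (τ l : ℕ)
    (hQ : Q.Disp z l) (g1 g2 : ℝ) (h1 : g1 ≤ P.Gam k (fun ξ => z (P1.κ τ ξ)))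
    (h2 : ∀ s, g2 ≤ ex (fun ε => ∑ i, H (fun ξ => P.X ε i (z (Q.κ s ξ))))) :
    ∃ d κ : (Fin n → Bool) → Fin n → ℝ, (∀ ε i, 0 ≤ d ε i) ∧ (∀ ε i, 0 ≤ κ ε i) ∧
      ex (fun ε => ∑ i, d ε i) ≤ 2 * ∑ i, Real.log (P.p i) - g1 - g2 ∧
      (∀ ε, ∑ i, κ ε i ≤ (n / k : ℕ) * (2 * Real.log (2 * l + 1))) ∧
      ∀ ε i, d ε i ≤ 1 / 32 → pr (fun u : ZMod (P.p i) => Fintype.card (ZMod (P.p i)) *
        mass (fun ξ : P1.Ξ × Q.Ξ => P.X ε i (z (Q.κ (P1.κ τ ξ.1) ξ.2))) u ≤ 1 / 8)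
          ≤ 7 * κ ε i := by
  let Ws : P1.Ξ × Q.Ξ → ℤ × ℤ := fun ξ => z (P1.κ τ ξ.1)
  let v : P1.Ξ × Q.Ξ → ℤ × ℤ := fun ξ => z (Q.κ (P1.κ τ ξ.1) ξ.2) - z (P1.κ τ ξ.1)
  let Z := fun (ε : Fin n → Bool) (i : Fin n) (ξ : P1.Ξ × Q.Ξ) =>
    (P.XS ε Ws ((blk n k (i.val / k)).filter (· < i)) ξ, ())
  let a1 := fun (ε : Fin n → Bool) (i : Fin n) => cH (fun ξ => P.X ε i (Ws ξ)) (Z ε i)
  let a2 := fun (ε : Fin n → Bool) (i : Fin n) => cH (fun ξ => P.X ε i (v ξ)) (Z ε i)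
  let a3 := fun (ε : Fin n → Bool) (i : Fin n) =>
    cH (fun ξ => P.X ε i (Ws ξ)) (fun ξ => (P.X ε i (v ξ), Z ε i ξ))
  have chain1 : ∀ ε b, ∑ i ∈ blk n k b, a1 ε i = H (P.XS ε Ws (blk n k b)) := by
    intro ε b
    have := cH_res_chain (fun i ξ => P.X ε i (Ws ξ)) (fun _ => ()) (blk n k b)
    rw [cH_unit] at this
    refine Eq.trans ?_ this.symm
    apply Finset.sum_congr rfl
    intro i hi
    have e : i.val / k = b := (Finset.mem_filter.mp hi).2
    simp only [a1, Z, e]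
    rfl
  have chain2 : ∀ ε b, cH (P.XS ε Ws (blk n k b)) v ≤ ∑ i ∈ blk n k b, a3 ε i := by
    intro ε b
    have := cH_res_chain (fun i ξ => P.X ε i (Ws ξ)) v (blk n k b)
    refine this.le.trans ?_
    apply Finset.sum_le_sum
    intro i hi
    have e : i.val / k = b := (Finset.mem_filter.mp hi).2
    simp only [a3, Z, e]
    apply cH_mono_right
    intro ω ω' x
    obtain ⟨x1, x2⟩ := Prod.mk.inj x
    exact Prod.ext (congrArg (P.X ε i) x2) (Prod.ext x1 rfl)
  refine ⟨fun ε i => (Real.log (P.p i) - a1 ε i) + (Real.log (P.p i) - a2 ε i),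
    fun ε i => a1 ε i - a3 ε i, ?_, ?_, ?_, ?_, ?_⟩
  · intro ε i
    have e1 : a1 ε i ≤ Real.log (P.p i) := (cH_le_H _ _).trans (P.H_X_le i _)
    have e2 : a2 ε i ≤ Real.log (P.p i) := (cH_le_H _ _).trans (P.H_X_le i _)
    linarith
  · intro ε i
    have : a3 ε i ≤ a1 ε i := cH_mono_right (fun _ _ e => (Prod.mk.inj e).2)
    linarith
  · have e1 : ex (fun ε => ∑ i, a1 ε i) = P.Gam k (fun ξ => z (P1.κ τ ξ)) := by
      rw [← P.Gam_mp k (MP_fst (Ω := P1.Ξ) (Ω' := Q.Ξ)) (fun ξ => z (P1.κ τ ξ))]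
      apply ex_congr
      intro ε
      rw [← sum_blk hk hd]
      exact Finset.sum_congr rfl (fun b _ => chain1 ε b)
    have e2 : ∀ ε i, ex (fun ξ1 => H (fun ξ => P.X ε i (z (Q.κ (P1.κ τ ξ1) ξ)))) ≤ a2 ε i := by
      intro ε i
      refine le_trans (le_of_eq ?_) (ex_H_le_cH (fun ξ => P.X ε i (v ξ)) (fun ξ1 : P1.Ξ =>
        (P.XS ε (fun ξ1 => z (P1.κ τ ξ1)) ((blk n k (i.val / k)).filter (· < i)) ξ1, ())))
      apply ex_congr
      intro ξ1
      apply H_congr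
      · intro ω ω' e
        simp only [v, PS.X_sub] at e
        exact sub_left_injective e
      · intro ω ω' e
        simp only [v, PS.X_sub]
        exact congrArg (fun x => x - _) e
    have e3 : g2 ≤ ex (fun ε => ∑ i, a2 ε i) := by
      refine le_trans ?_ (ex_mono (fun ε => Finset.sum_le_sum (fun i _ => e2 ε i)))
      simp only [← ex_sum]
      rw [ex_comm]
      exact const_le_ex (fun ξ1 => h2 _)
    have e4 : ex (fun ε => ∑ i, ((Real.log (P.p i) - a1 ε i) + (Real.log (P.p i) - a2 ε i)))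
        = 2 * ∑ i, Real.log (P.p i) - ex (fun ε => ∑ i, a1 ε i) - ex (fun ε => ∑ i, a2 ε i) := by
      rw [← ex_const (Ω := Fin n → Bool) (2 * ∑ i, Real.log (P.p i)), ← ex_sub, ← ex_sub]
      apply ex_congr
      intro ε
      rw [Finset.sum_add_distrib, Finset.sum_sub_distrib, Finset.sum_sub_distrib]
      ring
    rw [e4, e1]
    linarith
  · intro ε
    rw [← sum_blk hk hd]
    have Hv := H_box v l (fun ξ => hQ _ _)
    have : ∀ b ∈ Finset.range (n / k), ∑ i ∈ blk n k b, (a1 ε i - a3 ε i)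
        ≤ 2 * Real.log (2 * l + 1) := by
      intro b _
      rw [Finset.sum_sub_distrib, chain1]
      have := H_sub_le_cH (P.XS ε Ws (blk n k b)) v
      linarith [chain2 ε b]
    have := Finset.sum_le_sum this
    rwa [Finset.sum_const, Finset.card_range, nsmul_eq_mul] at this
  · intro ε i hdi
    have := conv_bad (fun ξ => P.X ε i (Ws ξ)) (fun ξ => P.X ε i (v ξ)) (Z ε i)
      (by rw [ZMod.card]; exact hdi)
    have e : (fun ξ => P.X ε i (Ws ξ) + P.X ε i (v ξ))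
        = fun ξ : P1.Ξ × Q.Ξ => P.X ε i (z (Q.κ (P1.κ τ ξ.1) ξ.2)) := by
      funext ξ
      simp only [Ws, v, PS.X_sub, add_sub_cancel]
    rw [e] at this
    exact this

theorem sp_entropy {n : ℕ} (P : PS (Fin n)) {k : ℕ} (hk : 0 < k) (hd : k ∣ n) (P2 : Ker)
    (E2 : Exp) (l s : ℕ) (hE : E2.Span z l) :
    P.Gam k (fun ξ => z (P2.κ s ξ)) - (n / k : ℕ) * (2 * Real.log (2 * l + 1))
      ≤ ex (fun ε => ∑ i, H (fun ξ => P.X ε i (z ((E2.pre z P2).sp.κ s ξ)))) := by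
  let W' : (P2.Ξ × E2.Ξ) × E2.ι → ℤ × ℤ := fun ξ => z (E2.time (P2.κ s ξ.1.1) ξ.1.2 ξ.2)
  have e1 := P.Gam_le k (fun ξ : (P2.Ξ × E2.Ξ) × E2.ι => z (P2.κ s ξ.1.1)) W' l
    (fun ξ => hE _ _ _)
  have e2 := P.Gam_mp k (MP_fst (Ω := P2.Ξ × E2.Ξ) (Ω' := E2.ι)) (fun ξ => z (P2.κ s ξ.1))
  have e3 := P.Gam_mp k (MP_fst (Ω := P2.Ξ) (Ω' := E2.Ξ)) (fun ξ => z (P2.κ s ξ))
  have e4 : P.Gam k W' ≤ ex (fun ε => ∑ i, H (fun ξ => P.X ε i (W' ξ))) := by
    apply ex_mono
    intro ε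
    rw [← sum_blk hk hd]
    apply Finset.sum_le_sum
    intro b _
    have f3 := cH_res_le (fun i ω => P.X ε i (W' ω)) (fun _ => ()) (blk n k b)
    simp only [cH_unit] at f3
    exact f3
  have e5 : ex (fun ε => ∑ i, H (fun ξ => P.X ε i (z ((E2.pre z P2).sp.κ s ξ))))
    = ex (fun ε => ∑ i, H (fun ξ => P.X ε i (W' ξ))) := rfl
  linarith

theorem coll_count {n : ℕ} (P : PS (Fin n)) {y : ℕ} (hy2 : 2 ≤ y) (hy : ∀ i, y ≤ P.p i)
    (ε : Fin n → Bool) (l : ℕ) (w w' : ℤ × ℤ) (h : Bd l (w - w')) :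
    ∑ i, ind (P.X ε i w = P.X ε i w')
      ≤ n * ind (w = w') + Real.log (2 * l ^ 2) / Real.log y := by
  classical
  have hL : 0 < Real.log y := Real.log_pos (by exact_mod_cast hy2)
  have h0 : 0 ≤ Real.log (2 * l ^ 2) := by
    have := Real.log_natCast_nonneg (2 * l ^ 2)
    push_cast at this
    exact this
  by_cases c : w = w'
  · have := Finset.sum_le_sum (s := Finset.univ) (fun i _ => ind_le_one (P.X ε i w = P.X ε i w'))
    rw [Finset.sum_const, Finset.card_univ, Fintype.card_fin, nsmul_eq_mul] at this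
    rw [ind_pos c]
    have : 0 ≤ Real.log (2 * l ^ 2) / Real.log y := by positivity
    linarith
  · rw [ind_neg c, mul_zero, zero_add, sum_ind_card, le_div_iff₀ hL]
    have hne := dot_self_pos (sub_ne_zero.mpr c)
    have e1 := P.pow_le hy (Finset.univ.filter (fun i => P.X ε i w = P.X ε i w')) (fun _ => 1)
      _ hne.ne' (fun i hi => by
        rw [pow_one]
        apply P.dvd_norm ε
        rw [PS.X_sub, (Finset.mem_filter.mp hi).2, sub_self])
    rw [Finset.sum_const, smul_eq_mul, mul_one] at e1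
    have e2 := e1.trans (abs_dot_le h h)
    have e3 : (y : ℝ) ^ (Finset.univ.filter (fun i => P.X ε i w = P.X ε i w')).card
        ≤ 2 * l ^ 2 := by
      rw [sq]; exact_mod_cast e2
    have := Real.log_le_log (by positivity) e3
    rwa [Real.log_pow] at this

theorem coll_sum {n : ℕ} (P : PS (Fin n)) {y : ℕ} (hy2 : 2 ≤ y) (hy : ∀ i, y ≤ P.p i)
    (hz : Function.Injective z) (ε : Fin n → Bool) (U : Exp) (τ l : ℕ) (δ : ℝ) (hδ : 0 ≤ δ)
    (hU : U.Coll δ) (hl : ∀ ξ a b, Bd l (z (U.time τ ξ a) - z (U.time τ ξ b))) :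
    ∑ i, U.cl τ (fun t => P.X ε i (z t))
      ≤ (Fintype.card U.ι : ℝ) ^ 2 * (n * δ + Real.log (2 * l ^ 2) / Real.log y) := by
  unfold Exp.cl
  rw [← ex_sum]
  have hL : 0 < Real.log y := Real.log_pos (by exact_mod_cast hy2)
  have h0 : 0 ≤ Real.log (2 * l ^ 2) := by
    have := Real.log_natCast_nonneg (2 * l ^ 2)
    push_cast at this
    exact this
  set c := Real.log (2 * l ^ 2) / Real.log y with hc
  have c0 : 0 ≤ c := by positivity
  have e1 : ex (fun ξ => ∑ i, ∑ a, ∑ b, ind (a ≠ b) *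
        ind (P.X ε i (z (U.time τ ξ a)) = P.X ε i (z (U.time τ ξ b))))
      ≤ ex (fun ξ => ∑ a, ∑ b, ind (a ≠ b) * (n * ind (U.time τ ξ a = U.time τ ξ b) + c)) := by
    apply ex_mono
    intro ξ
    rw [Finset.sum_comm]
    apply Finset.sum_le_sum
    intro a _
    rw [Finset.sum_comm]
    apply Finset.sum_le_sum
    intro b _
    rw [← Finset.mul_sum]
    apply mul_le_mul_of_nonneg_left _ (ind_nonneg _)
    rw [ind_congr hz.eq_iff.symm]
    exact coll_count P hy2 hy ε l _ _ (hl ξ a b)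
  refine e1.trans ?_
  simp only [ex_sum, ex_mul_left, ex_add, ex_const]
  have e2 : ∀ a b : U.ι, ind (a ≠ b) * (n * ex (fun ξ => ind (U.time τ ξ a = U.time τ ξ b)) + c)
      ≤ n * δ + c := by
    intro a b
    by_cases x : a ≠ b
    · rw [ind_pos x, one_mul]
      have := hU τ a b x
      unfold pr at this
      gcongr
    · rw [ind_neg x, zero_mul]; positivity
  have e3 := Finset.sum_le_sum (s := Finset.univ) (fun a _ =>
    Finset.sum_le_sum (s := Finset.univ) (fun b _ => e2 a b))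
  simp only [Finset.sum_const, Finset.card_univ, nsmul_eq_mul] at e3
  linarith

theorem unc_le {ι : Type} (P : PS ι) (ε : ι → Bool) (i : ι) (E : Exp) (hE : E.Valid z)
    (hav : ∀ t, P.X ε i (z t) ≠ 0) {Ω : Type} [Fintype Ω] [Nonempty Ω] (τ : Ω → ℕ) :
    E.unc z P ε i τ
      ≤ ex (fun ω => ex (fun ξ => Real.log (E.cnt (τ ω) (fun t => P.X ε i (z t)) ξ))) := by
  classical
  have key : ∀ t ξ a, P.X ε i (z (E.time t ξ a))
      = P.X ε i (z t) + P.X ε i (E.rel (E.dat t ξ) (E.pat t ξ) a) := by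
    intro t ξ a; rw [hE, PS.X_add]
  have := cH_le_log_card (fun ω : Ω × E.Ξ => P.X ε i (z (τ ω.1)))
    (fun ω => (E.dat (τ ω.1) ω.2, E.pat (τ ω.1) ω.2))
    (fun w => Finset.univ.filter (fun x => ∀ a, ¬ x + P.X ε i (E.rel w.1 w.2 a) = 0))
    (fun ω => Finset.mem_filter.mpr ⟨Finset.mem_univ _, fun a => by
      rw [← key]; exact hav _⟩)
  refine this.trans (le_of_eq ?_)
  rw [ex_prod]
  apply ex_congr; intro ω; apply ex_congr; intro ξ
  congr 1
  rw [← sum_ind_card]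
  unfold Exp.cnt
  rw [← Equiv.sum_comp (Equiv.subLeft (P.X ε i (z (τ ω))))]
  apply Finset.sum_congr rfl
  intro u _
  apply ind_congr
  apply forall_congr'
  intro a
  dsimp only
  rw [key, Equiv.subLeft_apply]
  apply not_congr
  constructor
  · intro x; linear_combination x
  · intro x; linear_combination x

theorem cov {n : ℕ} (P : PS (Fin n)) {y Y : ℕ} (hy2 : 2 ≤ y) (hy : ∀ i, y ≤ P.p i)
    (hY : ∀ i, P.p i ≤ Y) (hz : Function.Injective z) (hav : ∀ ε i t, P.X ε i (z t) ≠ 0)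
    {k1 k2 : ℕ} (hk1 : 0 < k1) (hd1 : k1 ∣ n) (hk2 : 0 < k2) (hd2 : k2 ∣ n)
    (P1 P2 : Ker) (E2 E : Exp) {l l2 N : ℕ} (hP2 : P2.Disp z l2) (hE2 : E2.Span z l)
    {δ : ℝ} (hδ : 0 ≤ δ) (hco : E2.Coll δ) (hE : E.Valid z)
    (hm : ∀ τ A, E.miss τ A = ((E2.pre z P2).pre z P1).miss τ A ^ N) {g1 g2 : ℝ}
    (h1 : ∀ τ, g1 ≤ P.Gam k1 (fun ξ => z (P1.κ τ ξ)))
    (h2 : ∀ τ, g2 ≤ P.Gam k2 (fun ξ => z (P2.κ τ ξ))) (G0 : ℝ) (hG : 0 ≤ G0)
    (Ω : Type) [Fintype Ω] [Nonempty Ω] (τ : Ω → ℕ) :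
    ex (fun ε => ∑ i, E.unc z P ε i τ) ≤ ∑ i, Real.log (P.p i) - n * G0
      + 32 * G0 * (2 * ∑ i, Real.log (P.p i) - g1
        - (g2 - (n / k2 : ℕ) * (2 * Real.log (2 * l + 1))))
      + Real.exp G0 * (7 * ((n / k1 : ℕ) * (2 * Real.log (2 * (l2 + l : ℕ) + 1)))
        + 16 * Fintype.card E2.ι * (n * δ + Real.log (2 * (2 * l : ℕ) ^ 2) / Real.log y)
        + n * Real.exp (-(N * Fintype.card E2.ι / (16 * Y)))) := by
  set U := (E2.pre z P2).pre z P1 with hU
  have hmpos := card_pos' (Ω := E2.ι)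
  have step : ∀ t : ℕ, ex (fun ε => ∑ i,
      ex (fun ξ => Real.log (E.cnt t (fun t => P.X ε i (z t)) ξ)))
      ≤ ∑ i, Real.log (P.p i) - n * G0
      + 32 * G0 * (2 * ∑ i, Real.log (P.p i) - g1
        - (g2 - (n / k2 : ℕ) * (2 * Real.log (2 * l + 1))))
      + Real.exp G0 * (7 * ((n / k1 : ℕ) * (2 * Real.log (2 * (l2 + l : ℕ) + 1)))
        + 16 * Fintype.card E2.ι * (n * δ + Real.log (2 * (2 * l : ℕ) ^ 2) / Real.log y)
        + n * Real.exp (-(N * Fintype.card E2.ι / (16 * Y)))) := by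
    intro t
    obtain ⟨d, κ, d0, κ0, d1, κ1, hs⟩ := spread P hk1 hd1 P1 (E2.pre z P2).sp t (l2 + l)
      (fun τ ξ => hE2.pre hP2 τ ξ.1 ξ.2) g1 (g2 - (n / k2 : ℕ) * (2 * Real.log (2 * l + 1)))
      (h1 t) (fun s => le_trans (by linarith [h2 s]) (sp_entropy P hk2 hd2 P2 E2 l s hE2))
    have one : ∀ ε i, ex (fun ξ => Real.log (E.cnt t (fun t => P.X ε i (z t)) ξ))
        ≤ Real.log (P.p i) - G0 + 32 * G0 * d ε i
        + Real.exp G0 * (7 * κ ε i + 16 * U.cl t (fun t => P.X ε i (z t)) / Fintype.card E2.ι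
          + Real.exp (-(N * Fintype.card E2.ι / (16 * Y)))) := by
      intro ε i
      have e := cover_one E U t N (fun t => P.X ε i (z t)) 0 (hav ε i) (hm t) G0 (d ε i) (κ ε i)
        hG (d0 ε i) (κ0 ε i) (fun x => by
          refine le_trans (le_of_eq (pr_congr (fun u => ?_))) (hs ε i x)
          have := MP_equiv (Equiv.prodAssoc P1.Ξ (P2.Ξ × E2.Ξ) E2.ι)
            (fun ξ => ind (P.X ε i (z ((E2.pre z P2).sp.κ (P1.κ t ξ.1) ξ.2)) = u))
          have f : mass (fun ξ => P.X ε i (z (U.sp.κ t ξ))) u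
            = mass (fun ξ : P1.Ξ × (E2.pre z P2).sp.Ξ =>
              P.X ε i (z ((E2.pre z P2).sp.κ (P1.κ t ξ.1) ξ.2))) u := this
          rw [f])
      rw [ZMod.card] at e
      have f1 : Fintype.card U.ι = Fintype.card E2.ι := rfl
      rw [f1] at e
      refine e.trans ?_
      have p0 : (0 : ℝ) < P.p i := by exact_mod_cast (P.prime i).pos
      have p1 : (P.p i : ℝ) ≤ Y := by exact_mod_cast hY i
      gcongr
    have two : ∀ ε, ∑ i, ex (fun ξ => Real.log (E.cnt t (fun t => P.X ε i (z t)) ξ))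
        ≤ ∑ i, Real.log (P.p i) - n * G0 + 32 * G0 * ∑ i, d ε i
        + Real.exp G0 * (7 * ((n / k1 : ℕ) * (2 * Real.log (2 * (l2 + l : ℕ) + 1)))
        + 16 * Fintype.card E2.ι * (n * δ + Real.log (2 * (2 * l : ℕ) ^ 2) / Real.log y)
        + n * Real.exp (-(N * Fintype.card E2.ι / (16 * Y)))) := by
      intro ε
      have e := Finset.sum_le_sum (s := Finset.univ) (fun i _ => one ε i)
      have e2 := coll_sum P hy2 hy hz ε U t (2 * l) δ hδ ((hco.pre P2).pre P1) (fun ξ a b => by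
        have := (hE2 (P2.κ (P1.κ t ξ.1) ξ.2.1) ξ.2.2 a).sub (hE2 (P2.κ (P1.κ t ξ.1) ξ.2.1) ξ.2.2 b)
        rw [sub_sub_sub_cancel_right] at this
        exact this.mono (by omega))
      have f1 : Fintype.card U.ι = Fintype.card E2.ι := rfl
      rw [f1] at e2
      simp only [Finset.sum_add_distrib, Finset.sum_sub_distrib, ← Finset.mul_sum,
        ← Finset.sum_div, Finset.sum_const, Finset.card_univ, Fintype.card_fin,
        nsmul_eq_mul] at e
      refine e.trans ?_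
      have e3 : 16 * (∑ i, U.cl t (fun t => P.X ε i (z t))) / Fintype.card E2.ι
          ≤ 16 * Fintype.card E2.ι * (n * δ + Real.log (2 * (2 * l : ℕ) ^ 2) / Real.log y) := by
        rw [div_le_iff₀ hmpos]
        linarith
      have e4 := κ1 ε
      gcongr
    have three := ex_mono two
    rw [ex_add, ex_add, ex_const, ex_const, ex_mul_left] at three
    have := mul_le_mul_of_nonneg_left d1 (show 0 ≤ 32 * G0 by positivity)
    linarith
  refine le_trans (ex_mono (fun ε => Finset.sum_le_sum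
    (fun i _ => unc_le P ε i E hE (hav ε i) τ))) ?_
  simp only [← ex_sum (Ω := Ω)]
  rw [ex_comm]
  exact ex_le_const (fun ω => step (τ ω))

end

end Vale.Agent.P015
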