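import Mathlib

/-! Lattice geometry: two lattice paths have a large sum set. -/

namespace Vale.Agent.P015

open Finset

/-- Sup-norm bound. -/
def Bd (B : ℕ) (v : ℤ × ℤ) : Prop := |v.1| ≤ B ∧ |v.2| ≤ B

/-- Determinant of two plane vectors. -/
def det (v w : ℤ × ℤ) : ℤ := v.1 * w.2 - v.2 * w.1

/-- Inner product of two plane vectors. -/
def dot (v w : ℤ × ℤ) : ℤ := v.1 * w.1 + v.2 * w.2

/-- The square box of radius `B`. -/
noncomputable def box (B : ℕ) : Finset (ℤ × ℤ) := Finset.Icc (-(B : ℤ)) B ×ˢ Finset.Icc (-(B : ℤ)) B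

theorem mem_box {B : ℕ} {v : ℤ × ℤ} : v ∈ box B ↔ Bd B v := by
  unfold box Bd
  simp only [Finset.mem_product, Finset.mem_Icc, abs_le]

theorem card_box (B : ℕ) : (box B).card = (2 * B + 1) ^ 2 := by
  unfold box
  rw [Finset.card_product, Int.card_Icc]
  have : ((B : ℤ) + 1 - -(B : ℤ)).toNat = 2 * B + 1 := by omega
  rw [this]; ring

theorem Bd.add {A B : ℕ} {v w : ℤ × ℤ} (h : Bd A v) (h' : Bd B w) : Bd (A + B) (v + w) := by
  unfold Bd at *
  simp only [Prod.fst_add, Prod.snd_add, abs_le] at *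
  push_cast
  omega

theorem Bd.neg {A : ℕ} {v : ℤ × ℤ} (h : Bd A v) : Bd A (-v) := by
  unfold Bd at *
  simp only [Prod.fst_neg, Prod.snd_neg, abs_le] at *
  omega

theorem Bd.sub {A B : ℕ} {v w : ℤ × ℤ} (h : Bd A v) (h' : Bd B w) : Bd (A + B) (v - w) := by
  rw [sub_eq_add_neg]; exact h.add h'.neg

theorem Bd.mono {A B : ℕ} {v : ℤ × ℤ} (h : Bd A v) (hAB : A ≤ B) : Bd B v := by
  unfold Bd at *
  simp only [abs_le] at *
  omega

theorem Bd.zero (A : ℕ) : Bd A 0 := by
  unfold Bd; simp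

theorem Bd.trans {A B : ℕ} {u v w : ℤ × ℤ} (h : Bd A (v - u)) (h' : Bd B (w - v)) :
    Bd (A + B) (w - u) := by
  have := h.add h'
  rwa [show v - u + (w - v) = w - u by abel] at this

theorem Bd.steps {D : ℕ} {z : ℕ → ℤ × ℤ} (h : ∀ n, Bd D (z (n + 1) - z n)) (τ j : ℕ) :
    Bd (D * j) (z (τ + j) - z τ) := by
  induction j with
  | zero => simpa using Bd.zero 0
  | succ j ih => exact (ih.trans (h (τ + j))).mono (by ring_nf; rfl)

theorem abs_det_le {A B : ℕ} {v w : ℤ × ℤ} (h : Bd A v) (h' : Bd B w) :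
    |det v w| ≤ 2 * (A * B) := by
  unfold det
  obtain ⟨h1, h2⟩ := h
  obtain ⟨h3, h4⟩ := h'
  have e1 : |v.1 * w.2| ≤ A * B := by
    rw [abs_mul]; exact mul_le_mul h1 h4 (abs_nonneg _) (by positivity)
  have e2 : |v.2 * w.1| ≤ A * B := by
    rw [abs_mul]; exact mul_le_mul h2 h3 (abs_nonneg _) (by positivity)
  have := abs_sub (v.1 * w.2) (v.2 * w.1)
  linarith

theorem abs_dot_le {A B : ℕ} {v w : ℤ × ℤ} (h : Bd A v) (h' : Bd B w) :
    |dot v w| ≤ 2 * (A * B) := by
  unfold dot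
  obtain ⟨h1, h2⟩ := h
  obtain ⟨h3, h4⟩ := h'
  have e1 : |v.1 * w.1| ≤ A * B := by
    rw [abs_mul]; exact mul_le_mul h1 h3 (abs_nonneg _) (by positivity)
  have e2 : |v.2 * w.2| ≤ A * B := by
    rw [abs_mul]; exact mul_le_mul h2 h4 (abs_nonneg _) (by positivity)
  have := abs_add_le (v.1 * w.1) (v.2 * w.2)
  linarith

theorem near (E : ℕ) (a V W W' : ℤ × ℤ) (ha : a ≠ 0) (h : Bd E (W - V)) (h' : Bd E (W' - V))
    (hP : ¬ (0 < dot a V ↔ 0 < dot a W)) (hQ : ¬ (0 ≤ det a V ↔ 0 ≤ det a W')) :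
    Bd (2 * E) V := by
  have key : ∀ u : ℤ × ℤ, Bd E u → (dot a u) ^ 2 ≤ 2 * E ^ 2 * (a.1 ^ 2 + a.2 ^ 2) ∧
      (det a u) ^ 2 ≤ 2 * E ^ 2 * (a.1 ^ 2 + a.2 ^ 2) := by
    intro u hu
    obtain ⟨h1, h2⟩ := hu
    have s1 : u.1 ^ 2 ≤ (E : ℤ) ^ 2 := by rw [← sq_abs]; gcongr
    have s2 : u.2 ^ 2 ≤ (E : ℤ) ^ 2 := by rw [← sq_abs]; gcongr
    have hid : (dot a u) ^ 2 + (det a u) ^ 2 = (u.1 ^ 2 + u.2 ^ 2) * (a.1 ^ 2 + a.2 ^ 2) := by
      unfold dot det; ring
    have hb : (u.1 ^ 2 + u.2 ^ 2) * (a.1 ^ 2 + a.2 ^ 2) ≤ 2 * E ^ 2 * (a.1 ^ 2 + a.2 ^ 2) := by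
      apply mul_le_mul_of_nonneg_right _ (by positivity)
      linarith
    constructor <;> nlinarith [sq_nonneg (dot a u), sq_nonneg (det a u)]
  have k1 := (key _ h).1
  have k2 := (key _ h').2
  have d1 : dot a (W - V) = dot a W - dot a V := by unfold dot; simp; ring
  have d2 : det a (W' - V) = det a W' - det a V := by unfold det; simp; ring
  rw [d1] at k1
  rw [d2] at k2
  have p1 : (dot a V) ^ 2 ≤ (dot a W - dot a V) ^ 2 := by
    by_cases c : 0 < dot a V
    · have : dot a W ≤ 0 := by by_contra c'; exact hP ⟨fun _ => by omega, fun _ => c⟩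
      nlinarith
    · have : 0 < dot a W := by by_contra c'; exact hP ⟨fun x => absurd x c, fun x => absurd x c'⟩
      nlinarith
  have p2 : (det a V) ^ 2 ≤ (det a W' - det a V) ^ 2 := by
    by_cases c : 0 ≤ det a V
    · have : det a W' < 0 := by by_contra c'; exact hQ ⟨fun _ => by omega, fun _ => c⟩
      nlinarith
    · have : 0 ≤ det a W' := by by_contra c'; exact hQ ⟨fun x => absurd x c, fun x => absurd x c'⟩
      nlinarith
  have hid : (dot a V) ^ 2 + (det a V) ^ 2 = (V.1 ^ 2 + V.2 ^ 2) * (a.1 ^ 2 + a.2 ^ 2) := by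
    unfold dot det; ring
  have hN : 0 < a.1 ^ 2 + a.2 ^ 2 := by
    by_contra c
    apply ha
    have e1 : a.1 = 0 := by nlinarith [sq_nonneg a.1, sq_nonneg a.2]
    have e2 : a.2 = 0 := by nlinarith [sq_nonneg a.1, sq_nonneg a.2]
    exact Prod.ext e1 e2
  have hV : V.1 ^ 2 + V.2 ^ 2 ≤ (2 * E) ^ 2 := by
    have : (V.1 ^ 2 + V.2 ^ 2) * (a.1 ^ 2 + a.2 ^ 2) ≤ (2 * E) ^ 2 * (a.1 ^ 2 + a.2 ^ 2) := by
      nlinarith
    exact le_of_mul_le_mul_right this hN
  constructor
  · push_cast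
    apply abs_le_of_sq_le_sq _ (by positivity)
    nlinarith [sq_nonneg V.2]
  · push_cast
    apply abs_le_of_sq_le_sq _ (by positivity)
    nlinarith [sq_nonneg V.1]

theorem cross (D : ℕ) (a : ℤ × ℤ) (ha : a ≠ 0) (V : ℕ → ℕ → ℤ × ℤ) (S T : ℕ)
    (h1 : ∀ s t, Bd D (V (s + 1) t - V s t)) (h2 : ∀ s t, Bd D (V s (t + 1) - V s t))
    (b1 : ∀ s, det a (V s 0) < 0) (b2 : ∀ s, 0 ≤ det a (V s T))
    (b3 : ∀ t ≤ T, dot a (V 0 t) ≤ 0) (b4 : ∀ t ≤ T, 0 < dot a (V S t)) :
    ∃ s t, Bd (4 * D) (V s t) := by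
  by_contra hc
  push Not at hc
  let P : ℤ × ℤ → ℤ := fun v => if 0 < dot a v then 1 else 0
  let Q : ℤ × ℤ → ℤ := fun v => if 0 ≤ det a v then 1 else 0
  have hP : ∀ v w, (0 < dot a v ↔ 0 < dot a w) → P w = P v := by
    intro v w h; simp only [P, h]
  have hQ : ∀ v w, (0 ≤ det a v ↔ 0 ≤ det a w) → Q w = Q v := by
    intro v w h; simp only [Q, h]
  have closed : ∀ s t, P (V s t) * (Q (V s (t + 1)) - Q (V s t))
      - P (V (s + 1) t) * (Q (V (s + 1) (t + 1)) - Q (V (s + 1) t))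
      = P (V s t) * (Q (V (s + 1) t) - Q (V s t))
      - P (V s (t + 1)) * (Q (V (s + 1) (t + 1)) - Q (V s (t + 1))) := by
    intro s t
    have c1 : Bd (2 * D) (V (s + 1) t - V s t) := (h1 s t).mono (by omega)
    have c2 : Bd (2 * D) (V s (t + 1) - V s t) := (h2 s t).mono (by omega)
    have c3 : Bd (2 * D) (V (s + 1) (t + 1) - V s t) :=
      ((h1 s t).trans (h2 (s + 1) t)).mono (by omega)
    have hn : ∀ W W', Bd (2 * D) (W - V s t) → Bd (2 * D) (W' - V s t) →
        ¬ (0 < dot a (V s t) ↔ 0 < dot a W) → (0 ≤ det a (V s t) ↔ 0 ≤ det a W') := by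
      intro W W' x x' y
      by_contra y'
      exact hc s t ((near (2 * D) a _ W W' ha x x' y y').mono (by omega))
    by_cases e : (0 < dot a (V s t) ↔ 0 < dot a (V (s + 1) t)) ∧
        (0 < dot a (V s t) ↔ 0 < dot a (V s (t + 1)))
    · rw [hP _ _ e.1, hP _ _ e.2]; ring
    · have : ∃ W, Bd (2 * D) (W - V s t) ∧ ¬ (0 < dot a (V s t) ↔ 0 < dot a W) := by
        by_cases e1 : (0 < dot a (V s t) ↔ 0 < dot a (V (s + 1) t))
        · exact ⟨_, c2, fun e2 => e ⟨e1, e2⟩⟩
        · exact ⟨_, c1, e1⟩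
      obtain ⟨W, x, y⟩ := this
      rw [hQ _ _ (hn W _ x c1 y), hQ _ _ (hn W _ x c2 y), hQ _ _ (hn W _ x c3 y)]
      ring
  let J : ℕ → ℤ := fun s => ∑ t ∈ Finset.range T, P (V s t) * (Q (V s (t + 1)) - Q (V s t))
  have q0 : ∀ s, Q (V s 0) = 0 := fun s => by simp only [Q, if_neg (not_le.mpr (b1 s))]
  have qT : ∀ s, Q (V s T) = 1 := fun s => by simp only [Q, if_pos (b2 s)]
  have hJ : ∀ s, J (s + 1) = J s := by
    intro s
    have : J s - J (s + 1) = 0 := by
      simp only [J]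
      rw [← Finset.sum_sub_distrib, Finset.sum_congr rfl (fun t _ => closed s t),
        Finset.sum_range_sub' (fun t => P (V s t) * (Q (V (s + 1) t) - Q (V s t))) T,
        q0, q0, qT, qT]
      ring
    linarith
  have hJ0 : ∀ s, J s = J 0 := by
    intro s
    induction s with
    | zero => rfl
    | succ s ih => rw [hJ, ih]
  have e0 : J 0 = 0 := by
    apply Finset.sum_eq_zero
    intro t ht
    have := b3 t (Finset.mem_range.mp ht).le
    simp only [P, if_neg (not_lt.mpr this), zero_mul]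
  have eS : J S = 1 := by
    have : J S = ∑ t ∈ Finset.range T, (Q (V S (t + 1)) - Q (V S t)) := by
      apply Finset.sum_congr rfl
      intro t ht
      have := b4 t (Finset.mem_range.mp ht).le
      simp only [P, if_pos this, one_mul]
    rw [this, Finset.sum_range_sub (fun t => Q (V S t)) T, q0, qT]; ring
  have := hJ0 S
  omega

/-- Periodic extension of a finite path. -/
def pext (γ : ℕ → ℤ × ℤ) (n s : ℕ) : ℤ × ℤ := γ (s % n) + ((s / n : ℕ) : ℤ) • γ n

theorem pext_step {D : ℕ} {γ : ℕ → ℤ × ℤ} {n : ℕ} (hn : 0 < n) (h0 : γ 0 = 0)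
    (h : ∀ s, Bd D (γ (s + 1) - γ s)) (s : ℕ) : Bd D (pext γ n (s + 1) - pext γ n s) := by
  unfold pext
  have hr := Nat.mod_lt s hn
  have hs := Nat.div_add_mod s n
  by_cases c : s % n + 1 < n
  · have e : s + 1 = n * (s / n) + (s % n + 1) := by omega
    have e1 : (s + 1) % n = s % n + 1 := by
      rw [e, Nat.mul_add_mod, Nat.mod_eq_of_lt c]
    have e2 : (s + 1) / n = s / n := by
      rw [e, Nat.mul_add_div hn, Nat.div_eq_of_lt c, add_zero]
    rw [e1, e2]
    convert h (s % n) using 1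
    abel
  · have e : s + 1 = n * (s / n + 1) := by rw [mul_add]; omega
    have e1 : (s + 1) % n = 0 := by rw [e, Nat.mul_mod_right]
    have e2 : (s + 1) / n = s / n + 1 := by rw [e, Nat.mul_div_cancel_left _ hn]
    have e3 : s % n + 1 = n := by omega
    rw [e1, e2, h0]
    have := h (s % n)
    rw [e3] at this
    convert this using 1
    push_cast
    rw [add_smul, one_smul]
    abel

theorem pext_mul {γ : ℕ → ℤ × ℤ} {n : ℕ} (hn : 0 < n) (h0 : γ 0 = 0) (k : ℕ) :
    pext γ n (n * k) = (k : ℤ) • γ n := by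
  unfold pext
  rw [Nat.mul_mod_right, Nat.mul_div_cancel_left _ hn, h0, zero_add]

theorem exists_bound (f : ℕ → ℤ) (n : ℕ) : ∃ M : ℕ, ∀ s ≤ n, |f s| < M := by
  induction n with
  | zero => exact ⟨(f 0).natAbs + 1, fun s hs => by
      obtain rfl : s = 0 := by omega
      rw [Int.abs_eq_natAbs]; omega⟩
  | succ n ih =>
    obtain ⟨M, hM⟩ := ih
    refine ⟨M + (f (n + 1)).natAbs + 1, fun s hs => ?_⟩
    rcases Nat.lt_or_ge s (n + 1) with c | c
    · have := hM s (by omega); push_cast; have := abs_nonneg (f (n + 1)); linarith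
    · obtain rfl : s = n + 1 := by omega
      push_cast; have : (0 : ℤ) ≤ M := by positivity
      linarith

theorem cover (D : ℕ) (γ1 γ2 : ℕ → ℤ × ℤ) (n1 n2 : ℕ) (h10 : γ1 0 = 0) (h20 : γ2 0 = 0)
    (s1 : ∀ s, Bd D (γ1 (s + 1) - γ1 s)) (s2 : ∀ s, Bd D (γ2 (s + 1) - γ2 s))
    (hdet : 0 < det (γ1 n1) (γ2 n2)) (x : ℤ × ℤ) :
    ∃ s ≤ n1, ∃ t ≤ n2, ∃ k l : ℤ, Bd (4 * D) (γ1 s + γ2 t + k • γ1 n1 + l • γ2 n2 - x) := by
  have hn1 : 0 < n1 := by
    rcases Nat.eq_zero_or_pos n1 with c | c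
    · rw [c, h10] at hdet; simp [det] at hdet
    · exact c
  have hn2 : 0 < n2 := by
    rcases Nat.eq_zero_or_pos n2 with c | c
    · rw [c, h20] at hdet; simp [det] at hdet
    · exact c
  set a := γ1 n1 with hadef
  set b := γ2 n2 with hbdef
  have ha : a ≠ 0 := by
    intro c; rw [c] at hdet; simp [det] at hdet
  have hN : 0 < dot a a := by
    unfold dot
    by_contra c
    apply ha
    have e1 : a.1 = 0 := by nlinarith [sq_nonneg a.1, sq_nonneg a.2]
    have e2 : a.2 = 0 := by nlinarith [sq_nonneg a.1, sq_nonneg a.2]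
    exact Prod.ext e1 e2
  obtain ⟨l0, hl0⟩ := exists_bound (fun s => det a (γ1 s - x)) n1
  obtain ⟨k0, hk0⟩ := exists_bound
    (fun t => dot a (pext γ2 n2 t - x - (l0 : ℤ) • b)) (n2 * (2 * l0))
  let V : ℕ → ℕ → ℤ × ℤ := fun s t =>
    pext γ1 n1 s + pext γ2 n2 t - x - (k0 : ℤ) • a - (l0 : ℤ) • b
  have z1 : pext γ1 n1 0 = 0 := by simpa using pext_mul hn1 h10 0
  have z2 : pext γ2 n2 0 = 0 := by simpa using pext_mul hn2 h20 0
  obtain ⟨s, t, hst⟩ := cross D a ha V (n1 * (2 * k0)) (n2 * (2 * l0))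
    (fun s t => by
      have := pext_step hn1 h10 s1 s
      convert this using 1
      simp only [V]; abel)
    (fun s t => by
      have := pext_step hn2 h20 s2 t
      convert this using 1
      simp only [V]; abel)
    (fun s => by
      have e : det a (V s 0) = det a (γ1 (s % n1) - x) - l0 * det a b := by
        simp only [V, z2]
        simp only [pext, ← hadef]
        unfold det
        simp only [Prod.fst_add, Prod.snd_add, Prod.fst_sub, Prod.snd_sub, Prod.smul_fst,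
          Prod.smul_snd, smul_eq_mul, Prod.fst_zero, Prod.snd_zero]
        ring
      have := hl0 (s % n1) (Nat.mod_lt s hn1).le
      have h2 := (abs_lt.mp this).2
      rw [e]
      nlinarith)
    (fun s => by
      have e : det a (V s (n2 * (2 * l0))) = det a (γ1 (s % n1) - x) + l0 * det a b := by
        simp only [V, pext_mul hn2 h20, ← hbdef]
        simp only [pext, ← hadef]
        unfold det
        simp only [Prod.fst_add, Prod.snd_add, Prod.fst_sub, Prod.snd_sub, Prod.smul_fst,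
          Prod.smul_snd, smul_eq_mul]
        push_cast
        ring
      have := hl0 (s % n1) (Nat.mod_lt s hn1).le
      have h2 := (abs_lt.mp this).1
      rw [e]
      nlinarith)
    (fun t ht => by
      have e : dot a (V 0 t) = dot a (pext γ2 n2 t - x - (l0 : ℤ) • b) - k0 * dot a a := by
        simp only [V, z1]
        unfold dot
        simp only [Prod.fst_add, Prod.snd_add, Prod.fst_sub, Prod.snd_sub, Prod.smul_fst,
          Prod.smul_snd, smul_eq_mul, Prod.fst_zero, Prod.snd_zero]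
        ring
      have := hk0 t ht
      have h2 := (abs_lt.mp this).2
      rw [e]
      nlinarith)
    (fun t ht => by
      have e : dot a (V (n1 * (2 * k0)) t)
          = dot a (pext γ2 n2 t - x - (l0 : ℤ) • b) + k0 * dot a a := by
        simp only [V, pext_mul hn1 h10, ← hadef]
        unfold dot
        simp only [Prod.fst_add, Prod.snd_add, Prod.fst_sub, Prod.snd_sub, Prod.smul_fst,
          Prod.smul_snd, smul_eq_mul]
        push_cast
        ring
      have := hk0 t ht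
      have h2 := (abs_lt.mp this).1
      rw [e]
      nlinarith)
  refine ⟨s % n1, (Nat.mod_lt s hn1).le, t % n2, (Nat.mod_lt t hn2).le,
    ((s / n1 : ℕ) : ℤ) - k0, ((t / n2 : ℕ) : ℤ) - l0, ?_⟩
  convert hst using 1
  simp only [V, pext, ← hadef, ← hbdef, sub_smul]
  abel

theorem det_le_card (W : Finset (ℤ × ℤ)) (a b : ℤ × ℤ) (hdet : det a b ≠ 0)
    (h : ∀ x, ∃ w ∈ W, ∃ k l : ℤ, x = w + k • a + l • b) : (det a b).natAbs ≤ W.card := by
  let f : (ℤ × ℤ) →ₗ[ℤ] (ℤ × ℤ) := Matrix.toLin (Module.Basis.finTwoProd ℤ)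
    (Module.Basis.finTwoProd ℤ) !![a.1, b.1; a.2, b.2]
  have hf : ∀ u : ℤ × ℤ, f u = u.1 • a + u.2 • b := by
    intro u
    simp only [f, Matrix.toLin_finTwoProd_apply]
    ext <;> simp <;> ring
  have hd : LinearMap.det f = det a b := by
    simp only [f, LinearMap.det_toLin, Matrix.det_fin_two_of, det]; ring
  have hinj : Function.Injective f := by
    rw [← LinearMap.ker_eq_bot, LinearMap.ker_eq_bot']
    intro u hu
    rw [hf] at hu
    have e1 := congrArg Prod.fst hu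
    have e2 := congrArg Prod.snd hu
    simp only [Prod.fst_add, Prod.snd_add, Prod.smul_fst, Prod.smul_snd, smul_eq_mul,
      Prod.fst_zero, Prod.snd_zero] at e1 e2
    unfold det at hdet
    have f1 : u.1 * (a.1 * b.2 - a.2 * b.1) = 0 := by linear_combination b.2 * e1 - b.1 * e2
    have f2 : u.2 * (a.1 * b.2 - a.2 * b.1) = 0 := by linear_combination a.1 * e2 - a.2 * e1
    exact Prod.ext ((mul_eq_zero.mp f1).resolve_right hdet) ((mul_eq_zero.mp f2).resolve_right hdet)
  have hcard := Submodule.natAbs_det_equiv (LinearMap.range f) (LinearEquiv.ofInjective f hinj)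
  have hcomp : (LinearMap.range f).subtype ∘ₗ AddMonoidHom.toIntLinearMap
      ((LinearEquiv.ofInjective f hinj : (ℤ × ℤ) ≃ₗ[ℤ] LinearMap.range f) :
        (ℤ × ℤ) →+ LinearMap.range f) = f := by
    apply LinearMap.ext
    intro u
    rfl
  rw [hcomp, hd] at hcard
  rw [hcard]
  have hs : Function.Surjective (fun w : W =>
      (Submodule.Quotient.mk (w : ℤ × ℤ) : (ℤ × ℤ) ⧸ LinearMap.range f)) := by
    intro q
    obtain ⟨x, rfl⟩ := Submodule.Quotient.mk_surjective _ q
    obtain ⟨w, hw, k, l, e⟩ := h x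
    refine ⟨⟨w, hw⟩, ?_⟩
    rw [Submodule.Quotient.eq]
    refine ⟨(-k, -l), ?_⟩
    rw [hf, e]
    simp only [neg_smul]
    abel
  have := Nat.card_le_card_of_surjective _ hs
  rwa [Nat.card_eq_fintype_card (α := W), Fintype.card_coe] at this

theorem sumset_pos (D : ℕ) (γ1 γ2 : ℕ → ℤ × ℤ) (n1 n2 : ℕ) (h10 : γ1 0 = 0) (h20 : γ2 0 = 0)
    (s1 : ∀ s, Bd D (γ1 (s + 1) - γ1 s)) (s2 : ∀ s, Bd D (γ2 (s + 1) - γ2 s))
    (hdet : 0 < det (γ1 n1) (γ2 n2)) :
    (det (γ1 n1) (γ2 n2)).natAbs ≤ ((Finset.range (n1 + 1) ×ˢ Finset.range (n2 + 1)).image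
      (fun q => γ1 q.1 + γ2 q.2)).card * (8 * D + 1) ^ 2 := by
  set A := (Finset.range (n1 + 1) ×ˢ Finset.range (n2 + 1)).image
      (fun q => γ1 q.1 + γ2 q.2) with hA
  have := det_le_card ((A ×ˢ box (4 * D)).image (fun q => q.1 - q.2)) _ _ hdet.ne' (fun x => by
    obtain ⟨s, hs, t, ht, k, l, h⟩ := cover D γ1 γ2 n1 n2 h10 h20 s1 s2 hdet x
    refine ⟨γ1 s + γ2 t - (γ1 s + γ2 t + k • γ1 n1 + l • γ2 n2 - x), ?_, k, l, by abel⟩
    apply Finset.mem_image.mpr
    refine ⟨(γ1 s + γ2 t, _), Finset.mem_product.mpr ⟨?_, mem_box.mpr h⟩, rfl⟩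
    exact Finset.mem_image.mpr ⟨(s, t), Finset.mem_product.mpr
      ⟨Finset.mem_range.mpr (by omega), Finset.mem_range.mpr (by omega)⟩, rfl⟩)
  refine this.trans (Finset.card_image_le.trans ?_)
  rw [Finset.card_product, card_box]
  apply le_of_eq
  ring

theorem sumset (D : ℕ) (γ1 γ2 : ℕ → ℤ × ℤ) (n1 n2 : ℕ) (h10 : γ1 0 = 0) (h20 : γ2 0 = 0)
    (s1 : ∀ s, Bd D (γ1 (s + 1) - γ1 s)) (s2 : ∀ s, Bd D (γ2 (s + 1) - γ2 s)) :
    (det (γ1 n1) (γ2 n2)).natAbs ≤ ((Finset.range (n1 + 1) ×ˢ Finset.range (n2 + 1)).image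
      (fun q => γ1 q.1 + γ2 q.2)).card * (8 * D + 1) ^ 2 := by
  rcases lt_trichotomy 0 (det (γ1 n1) (γ2 n2)) with c | c | c
  · exact sumset_pos D γ1 γ2 n1 n2 h10 h20 s1 s2 c
  · rw [← c]; simp
  · have e : det (γ2 n2) (γ1 n1) = - det (γ1 n1) (γ2 n2) := by unfold det; ring
    have := sumset_pos D γ2 γ1 n2 n1 h20 h10 s2 s1 (by rw [e]; linarith)
    rw [e, Int.natAbs_neg] at this
    refine this.trans (Nat.mul_le_mul_right _ (Finset.card_le_card ?_))
    intro w hw
    obtain ⟨q, hq, rfl⟩ := Finset.mem_image.mp hw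
    rw [Finset.mem_product] at hq
    exact Finset.mem_image.mpr ⟨(q.2, q.1), Finset.mem_product.mpr ⟨hq.2, hq.1⟩, add_comm _ _⟩

/-- The constant in the sampling lemma. -/
def CD (D : ℕ) : ℕ := (8 * D + 1) ^ 2 + 2 * D ^ 2

/-- From every time `τ` one finds `a` pairs of times with distinct differences, all of whose
displacements from `z τ` are short and span small determinants. -/
theorem enrich (D : ℕ) (z : ℕ → ℤ × ℤ) (hz : Function.Injective z)
    (hs : ∀ n, Bd D (z (n + 1) - z n)) (a τ : ℕ) :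
    ∃ (s t : Fin a → ℕ) (X : Set ℕ), Function.Injective (fun i => z (t i) - z (s i)) ∧
      (∀ i, s i ∈ X ∧ t i ∈ X) ∧ (∀ m ∈ X, Bd (CD D * a) (z m - z τ)) ∧
      ∀ m ∈ X, ∀ m' ∈ X, |det (z m - z τ) (z m' - z τ)| ≤ (CD D * a : ℕ) := by
  classical
  have hC : D ≤ CD D := by unfold CD; nlinarith
  have hb : ∀ j ≤ a, Bd (D * a) (z (τ + j) - z τ) := fun j hj =>
    (Bd.steps hs τ j).mono (Nat.mul_le_mul_left _ hj)
  set A : ℕ := (8 * D + 1) ^ 2 * a with hA
  have hAC : A ≤ CD D * a := by unfold CD; rw [hA]; nlinarith [Nat.zero_le (2 * D ^ 2 * a)]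
  by_cases c : ∃ T, T ≤ a ∧ ∃ j ≤ T, (A : ℤ) < |det (z (τ + T) - z τ) (z (τ + j) - z τ)|
  · have hT := Nat.find_spec c
    have hmin := fun m => Nat.find_min c (m := m)
    set T := Nat.find c with hTdef
    obtain ⟨hTa, j, hj, hbig⟩ := hT
    have hsum := sumset D (fun s => z (τ + s) - z τ) (fun s => -(z (τ + s) - z τ)) T j
      (by simp) (by simp)
      (fun s => by convert hs (τ + s) using 1; rw [add_assoc]; abel)
      (fun s => by convert (hs (τ + s)).neg using 1; rw [add_assoc]; abel)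
    set Wd := (Finset.range (T + 1) ×ˢ Finset.range (j + 1)).image
      (fun q : ℕ × ℕ => (z (τ + q.1) - z τ) + -(z (τ + q.2) - z τ)) with hW
    have hcard : a ≤ Wd.card := by
      have e : det (z (τ + T) - z τ) (-(z (τ + j) - z τ))
          = - det (z (τ + T) - z τ) (z (τ + j) - z τ) := by
        unfold det; simp only [Prod.fst_neg, Prod.snd_neg]; ring
      rw [e, Int.natAbs_neg] at hsum
      rw [Int.abs_eq_natAbs] at hbig
      have h3 : A < Wd.card * (8 * D + 1) ^ 2 := by omega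
      rw [hA, mul_comm] at h3
      exact (Nat.lt_of_mul_lt_mul_right h3).le
    obtain ⟨W', hW', hc'⟩ := Finset.exists_subset_card_eq hcard
    let e : Fin a ≃ W' := (Finset.equivFinOfCardEq hc').symm
    have hex : ∀ i : Fin a, ∃ q : ℕ × ℕ, q.1 ≤ T ∧ q.2 ≤ T ∧
        z (τ + q.1) - z (τ + q.2) = e i := by
      intro i
      obtain ⟨q, hq, h⟩ := Finset.mem_image.mp (hW' (e i).2)
      rw [Finset.mem_product, Finset.mem_range, Finset.mem_range] at hq
      exact ⟨q, by omega, by omega, by rw [← h]; abel⟩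
    choose q hq1 hq2 hq3 using hex
    refine ⟨fun i => τ + (q i).2, fun i => τ + (q i).1, {m | ∃ j ≤ T, m = τ + j}, ?_, ?_, ?_, ?_⟩
    · intro i i' h
      simp only [hq3] at h
      exact e.injective (Subtype.ext h)
    · intro i
      exact ⟨⟨_, hq2 i, rfl⟩, ⟨_, hq1 i, rfl⟩⟩
    · rintro m ⟨j, hj, rfl⟩
      exact (hb j (by omega)).mono (Nat.mul_le_mul_right _ hC)
    · have small : ∀ i < T, ∀ j ≤ i, |det (z (τ + i) - z τ) (z (τ + j) - z τ)| ≤ A := by
        intro i hi j hj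
        by_contra x
        exact hmin i hi ⟨by omega, j, hj, not_le.mp x⟩
      have sym : ∀ u v : ℤ × ℤ, |det u v| = |det v u| := by
        intro u v
        rw [← abs_neg]; congr 1; unfold det; ring
      have small2 : ∀ i < T, ∀ j < T, |det (z (τ + i) - z τ) (z (τ + j) - z τ)| ≤ A := by
        intro i hi j hj
        rcases le_total j i with x | x
        · exact small i hi j x
        · rw [sym]; exact small j hj i x
      have hAC' : (A : ℤ) ≤ (CD D * a : ℕ) := by exact_mod_cast hAC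
      have last : ∀ j < T, |det (z (τ + T) - z τ) (z (τ + j) - z τ)| ≤ (CD D * a : ℕ) := by
        intro j hj
        obtain ⟨T', hT'⟩ : ∃ T', T = T' + 1 := ⟨T - 1, by omega⟩
        have e1 := small2 T' (by omega) j hj
        have e2 := abs_det_le (hs (τ + T')) (hb j (by omega))
        have e3 : det (z (τ + T) - z τ) (z (τ + j) - z τ)
            = det (z (τ + T') - z τ) (z (τ + j) - z τ)
              + det (z (τ + T' + 1) - z (τ + T')) (z (τ + j) - z τ) := by
          rw [hT', ← add_assoc]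
          unfold det
          simp only [Prod.fst_sub, Prod.snd_sub]; ring
        rw [e3]
        refine (abs_add_le _ _).trans ?_
        have e4 : ((CD D * a : ℕ) : ℤ) = A + 2 * (D * (D * a : ℕ)) := by
          rw [hA]; unfold CD; push_cast; ring
        rw [e4]
        linarith
      rintro m ⟨i, hi, rfl⟩ m' ⟨j, hj, rfl⟩
      rcases Nat.lt_or_ge i T with x | x
      · rcases Nat.lt_or_ge j T with y | y
        · exact (small2 i x j y).trans hAC'
        · obtain rfl : j = T := by omega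
          rw [sym]; exact last i x
      · obtain rfl : i = T := by omega
        rcases Nat.lt_or_ge j T with y | y
        · exact last j y
        · obtain rfl : j = T := by omega
          have : det (z (τ + T) - z τ) (z (τ + T) - z τ) = 0 := by unfold det; ring
          rw [this]; simp only [abs_zero]; positivity
  · push Not at c
    refine ⟨fun _ => τ, fun i => τ + i, {m | ∃ j ≤ a, m = τ + j}, ?_, ?_, ?_, ?_⟩
    · intro i i' h
      have : τ + i = τ + i' := hz (sub_left_injective h)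
      exact Fin.ext (by omega)
    · intro i
      exact ⟨⟨0, by omega, rfl⟩, ⟨i, i.2.le, rfl⟩⟩
    · rintro m ⟨j, hj, rfl⟩
      exact (hb j hj).mono (Nat.mul_le_mul_right _ hC)
    · have hAC' : (A : ℤ) ≤ (CD D * a : ℕ) := by exact_mod_cast hAC
      have sym : ∀ u v : ℤ × ℤ, |det u v| = |det v u| := by
        intro u v
        rw [← abs_neg]; congr 1; unfold det; ring
      rintro m ⟨i, hi, rfl⟩ m' ⟨j, hj, rfl⟩
      rcases le_total j i with x | x
      · exact (c i hi j x).trans hAC'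
      · rw [sym]; exact (c j hj i x).trans hAC'

end Vale.Agent.P015
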