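import Vale.Agent.P015.Ent
import Vale.Agent.P015.Geom

/-! Concentration on the cube and the random choice of signs. -/

namespace Vale.Agent.P015

open Finset

noncomputable section

variable {ι : Type} [Fintype ι] [DecidableEq ι]

theorem pr_or_le {Ω : Type} [Fintype Ω] (A B : Ω → Prop) :
    pr (fun ω => A ω ∨ B ω) ≤ pr A + pr B := by
  unfold pr
  rw [← ex_add]
  apply ex_mono
  intro ω
  by_cases h : A ω
  · rw [ind_pos (Or.inl h), ind_pos h]; linarith [ind_nonneg (B ω)]
  · by_cases h' : B ω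
    · rw [ind_pos (Or.inr h'), ind_pos h']; linarith [ind_nonneg (A ω)]
    · rw [ind_neg (fun e => e.elim h h')]; linarith [ind_nonneg (A ω), ind_nonneg (B ω)]

/-- Hamming distance on the coordinates in `S`. -/
def hd (S : Finset ι) (ε ε' : ι → Bool) : ℕ := (S.filter (fun i => ε i ≠ ε' i)).card

omit [Fintype ι] [DecidableEq ι] in
theorem hd_comm (S : Finset ι) (ε ε' : ι → Bool) : hd S ε ε' = hd S ε' ε := by
  unfold hd
  congr 1
  exact Finset.filter_congr (fun i _ => ne_comm)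

omit [Fintype ι] in
theorem hd_triangle (S : Finset ι) (a b c : ι → Bool) : hd S a c ≤ hd S a b + hd S b c := by
  unfold hd
  refine le_trans (Finset.card_le_card ?_) (Finset.card_union_le _ _)
  intro i hi
  simp only [Finset.mem_filter, Finset.mem_union] at hi ⊢
  by_cases h : a i = b i
  · right; exact ⟨hi.1, h ▸ hi.2⟩
  · left; exact ⟨hi.1, h⟩

omit [Fintype ι] [DecidableEq ι] in
theorem hd_self (S : Finset ι) (a : ι → Bool) : hd S a a = 0 := by
  unfold hd; simp

omit [Fintype ι] in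
theorem hd_insert {S : Finset ι} {i : ι} {a b ε ε' : ι → Bool} (h : a i = b i)
    (ha : ∀ j ∈ S, a j = ε j) (hb : ∀ j ∈ S, b j = ε' j) : hd (insert i S) a b = hd S ε ε' := by
  unfold hd
  rw [Finset.filter_insert, if_neg (not_not.mpr h)]
  congr 1
  exact Finset.filter_congr (fun j hj => by rw [ha j hj, hb j hj])

omit [Fintype ι] [DecidableEq ι] in
theorem hd_not (S : Finset ι) (a b : ι → Bool) :
    hd S a (fun i => !b i) + hd S a b = S.card := by
  unfold hd
  rw [← Finset.card_filter_add_card_filter_not (s := S) (fun i => a i ≠ b i), add_comm]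
  congr 2
  apply Finset.filter_congr
  intro i _
  beta_reduce
  cases a i <;> cases b i <;> simp

/-- Flip one coordinate. -/
def flipE (i : ι) : (ι → Bool) ≃ (ι → Bool) :=
  Function.Involutive.toPerm (fun ε => Function.update ε i (!ε i)) (fun ε => by
    funext j
    by_cases h : j = i
    · subst h; simp
    · simp [Function.update_of_ne h])

omit [Fintype ι] in
theorem flipE_same (i : ι) (ε : ι → Bool) : flipE i ε i = !ε i := by
  simp [flipE, Function.Involutive.toPerm]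

omit [Fintype ι] in
theorem flipE_ne {i j : ι} (h : j ≠ i) (ε : ι → Bool) : flipE i ε j = ε j := by
  simp [flipE, Function.Involutive.toPerm, Function.update_of_ne h]

theorem poincare (S : Finset ι) (f : (ι → Bool) → ℝ)
    (hf : ∀ ε ε', |f ε - f ε'| ≤ hd S ε ε') :
    ex (fun ε => f ε ^ 2) - (ex f) ^ 2 ≤ S.card / 4 := by
  induction S using Finset.induction_on generalizing f with
  | empty =>
    have hc : ∀ ε, f ε = f (fun _ => true) := by
      intro ε
      have := hf ε (fun _ => true)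
      simp only [hd, Finset.filter_empty, Finset.card_empty, Nat.cast_zero, abs_nonpos_iff] at this
      linarith
    rw [ex_congr hc, ex_congr (fun ε => by rw [hc ε] : ∀ ε, f ε ^ 2 = f (fun _ => true) ^ 2),
      ex_const, ex_const]
    simp
  | insert i S hi ih =>
    have hne : ∀ j ∈ S, j ≠ i := fun j hj e => hi (e ▸ hj)
    let g : (ι → Bool) → ℝ := fun ε => (f ε + f (flipE i ε)) / 2
    have hg : ∀ ε ε', |g ε - g ε'| ≤ hd S ε ε' := by
      intro ε ε'
      by_cases h : ε i = ε' i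
      · have e1 := hf ε ε'
        have e2 := hf (flipE i ε) (flipE i ε')
        rw [hd_insert h (fun _ _ => rfl) (fun _ _ => rfl)] at e1
        rw [hd_insert (by rw [flipE_same, flipE_same, h]) (fun j hj => flipE_ne (hne j hj) ε)
          (fun j hj => flipE_ne (hne j hj) ε')] at e2
        rw [abs_le] at e1 e2 ⊢
        simp only [g]
        constructor <;> linarith [e1.1, e1.2, e2.1, e2.2]
      · have e1 := hf ε (flipE i ε')
        have e2 := hf (flipE i ε) ε'
        rw [hd_insert (by rw [flipE_same]; revert h; cases ε i <;> cases ε' i <;> simp)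
          (fun _ _ => rfl) (fun j hj => flipE_ne (hne j hj) ε')] at e1
        rw [hd_insert (by rw [flipE_same]; revert h; cases ε i <;> cases ε' i <;> simp)
          (fun j hj => flipE_ne (hne j hj) ε) (fun _ _ => rfl)] at e2
        rw [abs_le] at e1 e2 ⊢
        simp only [g]
        constructor <;> linarith [e1.1, e1.2, e2.1, e2.2]
    have h1 := ih g hg
    have m1 : ex (fun ε => f (flipE i ε)) = ex f := MP_equiv (flipE i) f
    have m2 : ex (fun ε => f (flipE i ε) ^ 2) = ex (fun ε => f ε ^ 2) :=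
      MP_equiv (flipE i) (fun ε => f ε ^ 2)
    have h2 : ex g = ex f := by
      simp only [g]
      rw [ex_div, ex_add, m1]; ring
    have h3 : ex (fun ε => (f ε ^ 2 + f (flipE i ε) ^ 2) / 2) ≤ ex (fun ε => g ε ^ 2 + 1 / 4) := by
      apply ex_mono
      intro ε
      have e1 := hf ε (flipE i ε)
      have e2 : hd (insert i S) ε (flipE i ε) ≤ 1 := by
        unfold hd
        apply Finset.card_le_one.mpr
        intro a ha b hb
        have ea : a = i := by
          by_contra c; exact (Finset.mem_filter.mp ha).2 (flipE_ne c ε).symm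
        have eb : b = i := by
          by_contra c; exact (Finset.mem_filter.mp hb).2 (flipE_ne c ε).symm
        rw [ea, eb]
      have e3 : |f ε - f (flipE i ε)| ≤ 1 := e1.trans (by exact_mod_cast e2)
      have e4 : (f ε - f (flipE i ε)) ^ 2 ≤ 1 := by
        rw [← sq_abs]; nlinarith [abs_nonneg (f ε - f (flipE i ε))]
      simp only [g]
      nlinarith
    rw [ex_div, ex_add, m2, ex_add, ex_const] at h3
    rw [Finset.card_insert_of_notMem hi]
    push_cast
    rw [h2] at h1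
    linarith

theorem sep (S : Finset ι) (A B : (ι → Bool) → Prop) (r : ℕ) (hr : 0 < r)
    (h : ∀ a b, A a → B b → r ≤ hd S a b) :
    pr A ≤ S.card / (r : ℝ) ^ 2 ∨ pr B ≤ S.card / (r : ℝ) ^ 2 := by
  by_contra hc
  push Not at hc
  obtain ⟨hA, hB⟩ := hc
  have hr' : (0 : ℝ) < r := by exact_mod_cast hr
  have hne : ∃ a, A a := by
    by_contra c
    push Not at c
    rw [pr_false c] at hA
    have : (0 : ℝ) ≤ S.card / (r : ℝ) ^ 2 := by positivity
    linarith
  let d : (ι → Bool) → ℕ := fun ε => sInf {m | ∃ a, A a ∧ m = hd S a ε}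
  have d1 : ∀ ε, ∃ a, A a ∧ d ε = hd S a ε := by
    intro ε
    obtain ⟨a, ha⟩ := hne
    exact Nat.sInf_mem (s := {m | ∃ a, A a ∧ m = hd S a ε}) ⟨_, a, ha, rfl⟩
  have d2 : ∀ ε a, A a → d ε ≤ hd S a ε := fun ε a ha => Nat.sInf_le ⟨a, ha, rfl⟩
  have d3 : ∀ ε ε', d ε ≤ d ε' + hd S ε ε' := by
    intro ε ε'
    obtain ⟨a, ha, e⟩ := d1 ε'
    rw [e, hd_comm S ε ε']
    exact (d2 ε a ha).trans (hd_triangle S a ε' ε)
  have hP := poincare S (fun ε => (d ε : ℝ)) (fun ε ε' => by
    have e1 : (d ε : ℝ) ≤ d ε' + hd S ε ε' := by exact_mod_cast d3 ε ε'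
    have e2 : (d ε' : ℝ) ≤ d ε + hd S ε ε' := by
      rw [hd_comm]; exact_mod_cast d3 ε' ε
    rw [abs_le]; constructor <;> linarith)
  set m := ex (fun ε => (d ε : ℝ)) with hm
  have hV : ex (fun ε => ((d ε : ℝ) - m) ^ 2) = ex (fun ε => (d ε : ℝ) ^ 2) - m ^ 2 := by
    rw [ex_congr (fun ε => by ring :
      ∀ ε, ((d ε : ℝ) - m) ^ 2 = ((d ε : ℝ) ^ 2 - 2 * m * d ε) + m ^ 2), ex_add, ex_sub,
      ex_mul_left, ex_const, ← hm]
    ring
  have key : ∀ C : (ι → Bool) → Prop, (∀ ε, C ε → (r : ℝ) ^ 2 / 4 ≤ ((d ε : ℝ) - m) ^ 2) →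
      pr C ≤ S.card / (r : ℝ) ^ 2 := by
    intro C hC
    have : ex (fun ε => (r : ℝ) ^ 2 / 4 * ind (C ε)) ≤ ex (fun ε => ((d ε : ℝ) - m) ^ 2) := by
      apply ex_mono
      intro ε
      by_cases c : C ε
      · rw [ind_pos c, mul_one]; exact hC ε c
      · rw [ind_neg c, mul_zero]; positivity
    rw [ex_mul_left, hV] at this
    rw [le_div_iff₀ (by positivity)]
    unfold pr
    linarith
  by_cases c : (r : ℝ) / 2 ≤ m
  · refine absurd (key A (fun ε hε => ?_)) (not_le.mpr hA)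
    have := d2 ε ε hε
    rw [hd_self] at this
    have e : d ε = 0 := by omega
    rw [e]
    push_cast
    nlinarith
  · refine absurd (key B (fun ε hε => ?_)) (not_le.mpr hB)
    obtain ⟨a, ha, e⟩ := d1 ε
    have : (r : ℝ) ≤ d ε := by rw [e]; exact_mod_cast h a ε ha hε
    push Not at c
    nlinarith

/-- A family of distinct odd primes with square roots of minus one. -/
structure PS (ι : Type) where
  p : ι → ℕ
  r : ι → ℤ
  prime : ∀ i, (p i).Prime
  odd : ∀ i, p i ≠ 2
  inj : Function.Injective p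
  root : ∀ i, (p i : ℤ) ∣ r i ^ 2 + 1

/-- The root with a sign. -/
def PS.sr (P : PS ι) (ε : ι → Bool) (i : ι) : ℤ := if ε i then P.r i else - P.r i

/-- The residue of a lattice point. -/
def PS.X (P : PS ι) (ε : ι → Bool) (i : ι) (w : ℤ × ℤ) : ZMod (P.p i) :=
  ((w.1 + P.sr ε i * w.2 : ℤ) : ZMod (P.p i))

omit [Fintype ι] [DecidableEq ι] in
theorem PS.sr_root (P : PS ι) (ε : ι → Bool) (i : ι) : (P.p i : ℤ) ∣ P.sr ε i ^ 2 + 1 := by
  unfold PS.sr
  split_ifs
  · exact P.root i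
  · rw [neg_sq]; exact P.root i

omit [Fintype ι] [DecidableEq ι] in
theorem PS.X_eq_zero (P : PS ι) (ε : ι → Bool) (i : ι) (w : ℤ × ℤ) :
    P.X ε i w = 0 ↔ (P.p i : ℤ) ∣ w.1 + P.sr ε i * w.2 := ZMod.intCast_zmod_eq_zero_iff_dvd _ _

omit [Fintype ι] [DecidableEq ι] in
theorem PS.X_add (P : PS ι) (ε : ι → Bool) (i : ι) (v w : ℤ × ℤ) :
    P.X ε i (v + w) = P.X ε i v + P.X ε i w := by
  unfold PS.X
  simp only [Prod.fst_add, Prod.snd_add]
  push_cast; ring

omit [Fintype ι] [DecidableEq ι] in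
theorem PS.X_sub (P : PS ι) (ε : ι → Bool) (i : ι) (v w : ℤ × ℤ) :
    P.X ε i (v - w) = P.X ε i v - P.X ε i w := by
  unfold PS.X
  simp only [Prod.fst_sub, Prod.snd_sub]
  push_cast; ring

omit [Fintype ι] [DecidableEq ι] in
theorem PS.dvd_norm (P : PS ι) (ε : ι → Bool) (i : ι) (w : ℤ × ℤ) (h : P.X ε i w = 0) :
    (P.p i : ℤ) ∣ dot w w := by
  rw [PS.X_eq_zero] at h
  have h2 := P.sr_root ε i
  have : dot w w = (w.1 + P.sr ε i * w.2) * (w.1 - P.sr ε i * w.2)
      + (P.sr ε i ^ 2 + 1) * w.2 ^ 2 := by unfold dot; ring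
  rw [this]
  exact dvd_add (h.mul_right _) (h2.mul_right _)

omit [Fintype ι] [DecidableEq ι] in
theorem PS.pow_le (P : PS ι) {y : ℕ} (hy : ∀ i, y ≤ P.p i) (T : Finset ι) (e : ι → ℕ) (c : ℤ)
    (hc : c ≠ 0) (h : ∀ i ∈ T, (P.p i : ℤ) ^ e i ∣ c) : ((y ^ (∑ i ∈ T, e i) : ℕ) : ℤ) ≤ |c| := by
  have h1 : (∏ i ∈ T, (P.p i : ℤ) ^ e i) ∣ c := by
    apply Finset.prod_dvd_of_coprime _ h
    intro i _ j _ hij
    apply IsCoprime.pow
    rw [Nat.isCoprime_iff_coprime]
    exact (Nat.coprime_primes (P.prime i) (P.prime j)).mpr (fun e => hij (P.inj e))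
  have h2 := Int.le_of_dvd (abs_pos.mpr hc) ((dvd_abs _ _).mpr h1)
  refine le_trans ?_ h2
  push_cast
  rw [← Finset.prod_pow_eq_pow_sum]
  apply Finset.prod_le_prod
  · intro i _; positivity
  · intro i _
    have : (y : ℤ) ≤ P.p i := by exact_mod_cast hy i
    gcongr

theorem dot_self_pos {a : ℤ × ℤ} (ha : a ≠ 0) : 0 < dot a a := by
  unfold dot
  by_contra c
  apply ha
  have e1 : a.1 = 0 := by nlinarith [sq_nonneg a.1, sq_nonneg a.2]
  have e2 : a.2 = 0 := by nlinarith [sq_nonneg a.1, sq_nonneg a.2]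
  exact Prod.ext e1 e2

theorem det_trans {a b c : ℤ × ℤ} (ha : a ≠ 0) (h1 : det a b = 0) (h2 : det a c = 0) :
    det b c = 0 := by
  have := dot_self_pos ha
  have e : det b c * dot a a = 0 := by
    unfold det dot at *
    linear_combination (-(a.1 * c.1 + a.2 * c.2)) * h1 + (a.1 * b.1 + a.2 * b.2) * h2
  exact (mul_eq_zero.mp e).resolve_right this.ne'

omit [Fintype ι] [DecidableEq ι] in
theorem PS.far_of_det (P : PS ι) {y : ℕ} (hy1 : 1 ≤ y) (hy : ∀ i, y ≤ P.p i) (S : Finset ι)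
    (q r : ℕ) (hS : S.card = q + r) (m m' : ℤ × ℤ) (ε ε' : ι → Bool)
    (h : ∀ i ∈ S, P.X ε i m = 0) (h' : ∀ i ∈ S, P.X ε' i m' = 0) (hd0 : det m m' ≠ 0)
    (hb : |det m m'| < (y ^ q : ℕ)) : r ≤ hd S ε ε' := by
  have := P.pow_le hy (S.filter (fun i => ¬ ε i ≠ ε' i)) (fun _ => 1) _ hd0 (fun i hi => by
    rw [Finset.mem_filter, not_not] at hi
    have e1 := (P.X_eq_zero ε i m).mp (h i hi.1)
    have e2 := (P.X_eq_zero ε' i m').mp (h' i hi.1)
    have e3 : P.sr ε' i = P.sr ε i := by unfold PS.sr; rw [hi.2]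
    rw [e3] at e2
    have : det m m' = (m.1 + P.sr ε i * m.2) * m'.2 - (m'.1 + P.sr ε i * m'.2) * m.2 := by
      unfold det; ring
    rw [pow_one, this]
    exact dvd_sub (e1.mul_right _) (e2.mul_right _))
  rw [Finset.sum_const, smul_eq_mul, mul_one] at this
  have h2 : y ^ (S.filter (fun i => ¬ ε i ≠ ε' i)).card < y ^ q := by
    exact_mod_cast this.trans_lt hb
  have h3 : (S.filter (fun i => ¬ ε i ≠ ε' i)).card < q := by
    by_contra c
    exact absurd (Nat.pow_le_pow_right hy1 (not_lt.mp c)) (not_le.mpr h2)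
  have h4 := Finset.card_filter_add_card_filter_not (s := S) (fun i => ε i ≠ ε' i)
  unfold hd
  omega

omit [Fintype ι] [DecidableEq ι] in
theorem PS.far_of_par (P : PS ι) {y : ℕ} (hy1 : 1 ≤ y) (hy : ∀ i, y ≤ P.p i) (S : Finset ι)
    (q r : ℕ) (hS : S.card = q + r) (m m' : ℤ × ℤ) (ε ε' : ι → Bool)
    (h : ∀ i ∈ S, P.X ε i m = 0) (h' : ∀ i ∈ S, P.X ε' i m' = 0) (hm : m ≠ 0) (hm' : m' ≠ 0)
    (hd0 : det m m' = 0) (hb : |dot m m'| < (y ^ (2 * q) : ℕ)) :
    r ≤ hd S ε (fun i => !ε' i) := by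
  have hsq : dot m m' ^ 2 = dot m m * dot m' m' := by
    unfold dot det at *
    linear_combination (-(m.1 * m'.2 - m.2 * m'.1)) * hd0
  have hc : dot m m' ≠ 0 := by
    intro c
    rw [c] at hsq
    have := mul_pos (dot_self_pos hm) (dot_self_pos hm')
    simp at hsq
    rcases hsq with e | e
    · exact (dot_self_pos hm).ne' e
    · exact (dot_self_pos hm').ne' e
  have := P.pow_le hy S (fun i => 1 + if ε i ≠ ε' i then 1 else 0) _ hc (fun i hi => by
    have hp : Prime (P.p i : ℤ) := Nat.prime_iff_prime_int.mp (P.prime i)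
    have n1 := P.dvd_norm ε i m (h i hi)
    have n2 := P.dvd_norm ε' i m' (h' i hi)
    have c1 : (P.p i : ℤ) ∣ dot m m' := by
      apply hp.dvd_of_dvd_pow (n := 2)
      rw [hsq]; exact n1.mul_right _
    by_cases c : ε i ≠ ε' i
    · rw [if_pos c]
      have e1 := (P.X_eq_zero ε i m).mp (h i hi)
      have e2 := (P.X_eq_zero ε' i m').mp (h' i hi)
      have e3 : P.sr ε' i = - P.sr ε i := by
        unfold PS.sr; revert c; cases ε i <;> cases ε' i <;> simp
      rw [e3] at e2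
      have e4 : (P.p i : ℤ) ∣ 2 * (P.sr ε i * (m.2 * m'.2)) := by
        have : 2 * (P.sr ε i * (m.2 * m'.2)) = (m.1 + P.sr ε i * m.2) * m'.2
            - (m'.1 + -P.sr ε i * m'.2) * m.2 - det m m' := by unfold det; ring
        rw [this, hd0, sub_zero]
        exact dvd_sub (e1.mul_right _) (e2.mul_right _)
      have n3 : ¬ (P.p i : ℤ) ∣ 2 := by
        intro x
        have x' : P.p i ∣ 2 := by exact_mod_cast x
        exact P.odd i ((Nat.prime_dvd_prime_iff_eq (P.prime i) Nat.prime_two).mp x')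
      have n4 : ¬ (P.p i : ℤ) ∣ P.sr ε i := by
        intro x
        have x2 : (P.p i : ℤ) ∣ P.sr ε i ^ 2 := dvd_pow x (by norm_num)
        have x3 := (dvd_add_right x2).mp (P.sr_root ε i)
        exact hp.not_dvd_one x3
      have e5 : (P.p i : ℤ) ∣ m.2 ∨ (P.p i : ℤ) ∣ m'.2 :=
        hp.dvd_or_dvd (((hp.dvd_or_dvd ((hp.dvd_or_dvd e4).resolve_left n3))).resolve_left n4)
      have e6 : (P.p i : ℤ) ^ 3 ∣ dot m m' ^ 2 := by
        rw [hsq]
        rcases e5 with x | x
        · have x1 : (P.p i : ℤ) ∣ m.1 := (dvd_add_left (x.mul_left _)).mp e1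
          have x2 : (P.p i : ℤ) ^ 2 ∣ dot m m := by
            unfold dot; rw [sq]
            exact dvd_add (mul_dvd_mul x1 x1) (mul_dvd_mul x x)
          rw [pow_succ]
          exact mul_dvd_mul x2 n2
        · have x1 : (P.p i : ℤ) ∣ m'.1 := (dvd_add_left (x.mul_left _)).mp e2
          have x2 : (P.p i : ℤ) ^ 2 ∣ dot m' m' := by
            unfold dot; rw [sq]
            exact dvd_add (mul_dvd_mul x1 x1) (mul_dvd_mul x x)
          rw [pow_succ']
          exact mul_dvd_mul n1 x2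
      obtain ⟨c', hc'⟩ := c1
      rw [hc', mul_pow, pow_succ] at e6
      have e7 : (P.p i : ℤ) ∣ c' ^ 2 := (mul_dvd_mul_iff_left (pow_ne_zero 2 hp.ne_zero)).mp e6
      rw [hc', pow_add, pow_one]
      exact mul_dvd_mul_left _ (hp.dvd_of_dvd_pow e7)
    · rw [if_neg c]; simpa using c1)
  rw [Finset.sum_add_distrib, Finset.sum_const, smul_eq_mul, mul_one, ← Finset.card_filter] at this
  have h2 : y ^ (S.card + hd S ε ε') < y ^ (2 * q) := by
    exact_mod_cast this.trans_lt hb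
  have h3 : S.card + hd S ε ε' < 2 * q := by
    by_contra c
    exact absurd (Nat.pow_le_pow_right hy1 (not_lt.mp c)) (not_le.mpr h2)
  have h4 := hd_not S ε ε'
  omega

/-- With high probability over the signs, no short difference vanishes modulo a whole block. -/
theorem PS.sign (P : PS ι) {y : ℕ} (hy1 : 1 ≤ y) (hy : ∀ i, y ≤ P.p i) (S : Finset ι)
    (q r B : ℕ) (hr : 0 < r) (hS : S.card = q + r) (hB : 16 * B < y ^ q) (M : Set (ℤ × ℤ))
    (hM1 : ∀ m ∈ M, Bd (4 * B) m) (hM2 : ∀ m ∈ M, ∀ m' ∈ M, |det m m'| ≤ 16 * B) :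
    pr (fun ε => ∃ m ∈ M, m ≠ 0 ∧ ∀ i ∈ S, P.X ε i m = 0) ≤ 3 * (S.card / (r : ℝ) ^ 2) := by
  classical
  set Bad : (ι → Bool) → Prop := fun ε => ∃ m ∈ M, m ≠ 0 ∧ ∀ i ∈ S, P.X ε i m = 0 with hBad
  have hex : ∀ ε, ∃ m : ℤ × ℤ, Bad ε → m ∈ M ∧ m ≠ 0 ∧ ∀ i ∈ S, P.X ε i m = 0 := by
    intro ε
    by_cases c : Bad ε
    · obtain ⟨m, hm⟩ := c
      exact ⟨m, fun _ => hm⟩
    · exact ⟨0, fun x => absurd x c⟩
  choose m hm using hex
  set ϱ : ℝ := S.card / (r : ℝ) ^ 2 with hϱ
  have hϱ0 : 0 ≤ ϱ := by positivity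
  have sym : ∀ u v : ℤ × ℤ, det u v = 0 → det v u = 0 := by
    intro u v e; unfold det at *; linarith
  have cls : ∀ ε0, pr (fun ε => Bad ε ∧ Bad ε0 ∧ det (m ε0) (m ε) = 0) ≤ ϱ := by
    intro ε0
    set A : (ι → Bool) → Prop := fun ε => Bad ε ∧ Bad ε0 ∧ det (m ε0) (m ε) = 0 with hA
    let ng : (ι → Bool) ≃ (ι → Bool) :=
      Function.Involutive.toPerm (fun ε i => !ε i) (fun ε => by funext i; simp)
    have e : pr (fun ε => A (ng ε)) = pr A := MP_equiv ng (fun ε => ind (A ε))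
    have := sep S A (fun ε => A (ng ε)) r hr (fun a b ha hb => by
      obtain ⟨a1, a2, a3⟩ := ha
      obtain ⟨b1, -, b3⟩ := hb
      have := P.far_of_par hy1 hy S q r hS (m a) (m (ng b)) a (ng b) (hm a a1).2.2
        (hm _ b1).2.2 (hm a a1).2.1 (hm _ b1).2.1 (det_trans (hm _ a2).2.1 a3 b3) (by
          have e1 := abs_dot_le (hM1 _ (hm a a1).1) (hM1 _ (hm _ b1).1)
          refine e1.trans_lt ?_
          have e2 : (16 * B) ^ 2 < (y ^ q) ^ 2 := Nat.pow_lt_pow_left hB (by norm_num)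
          rw [← pow_mul, mul_comm q 2] at e2
          have e3 : 2 * ((4 * B) * (4 * B)) < y ^ (2 * q) := by nlinarith
          exact_mod_cast e3)
      have e4 : (fun i => !(ng b) i) = b := by
        funext i; simp [ng, Function.Involutive.toPerm]
      rwa [e4] at this)
    rw [e] at this
    exact this.elim id id
  have main : ∀ T : Finset (ι → Bool),
      pr (fun ε => Bad ε ∧ ∃ ε0 ∈ T, Bad ε0 ∧ det (m ε0) (m ε) = 0) ≤ ϱ ∨ pr Bad ≤ 3 * ϱ := by
    intro T
    induction T using Finset.induction_on with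
    | empty => left; rw [pr_false (by simp)]; exact hϱ0
    | insert ε1 T _ ih =>
      rcases ih with ih | ih
      swap
      · exact Or.inr ih
      set A : (ι → Bool) → Prop :=
        fun ε => Bad ε ∧ ∃ ε0 ∈ insert ε1 T, Bad ε0 ∧ det (m ε0) (m ε) = 0 with hA
      have h2 : pr A ≤ 2 * ϱ := by
        have := pr_or_le (fun ε => Bad ε ∧ Bad ε1 ∧ det (m ε1) (m ε) = 0)
          (fun ε => Bad ε ∧ ∃ ε0 ∈ T, Bad ε0 ∧ det (m ε0) (m ε) = 0)
        have h3 := cls ε1
        refine le_trans (pr_mono ?_) (this.trans (by linarith))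
        rintro ε ⟨x, ε0, hε0, x'⟩
        rcases Finset.mem_insert.mp hε0 with c | c
        · left; rw [← c]; exact ⟨x, x'⟩
        · right; exact ⟨x, ε0, c, x'⟩
      rcases sep S A (fun ε => Bad ε ∧ ¬ A ε) r hr (fun a b ha hb => by
        obtain ⟨a1, ε0, a2, a3, a4⟩ := ha
        obtain ⟨b1, b2⟩ := hb
        apply P.far_of_det hy1 hy S q r hS (m a) (m b) a b (hm a a1).2.2 (hm b b1).2.2
        · intro c
          exact b2 ⟨b1, ε0, a2, a3, det_trans (hm a a1).2.1 (sym _ _ a4) c⟩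
        · refine (hM2 _ (hm a a1).1 _ (hm b b1).1).trans_lt ?_
          exact_mod_cast hB) with c | c
      · exact Or.inl c
      · right
        have := pr_or_le A (fun ε => Bad ε ∧ ¬ A ε)
        refine le_trans (pr_mono ?_) (this.trans (by linarith))
        intro ε x
        by_cases c' : A ε
        · exact Or.inl c'
        · exact Or.inr ⟨x, c'⟩
  rcases main Finset.univ with c | c
  · refine le_trans (le_trans (pr_mono ?_) c) (by linarith)
    intro ε x
    exact ⟨x, ε, Finset.mem_univ _, x, by unfold det; ring⟩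
  · exact c

end

end Vale.Agent.P015
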