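import Mathlib

namespace Vale.Agent.P015

/-- Euclidean distance between two Gaussian integers. -/
noncomputable def gdist (z w : GaussianInt) : ℝ :=
  Real.sqrt (((z.re : ℝ) - (w.re : ℝ)) ^ 2 + ((z.im : ℝ) - (w.im : ℝ)) ^ 2)

/-- The graph on all Gaussian primes joining distinct primes at distance at most `D`. -/
def moatGraph (D : ℝ) : SimpleGraph {z : GaussianInt // Irreducible z} where
  Adj z w := z ≠ w ∧ gdist z.1 w.1 ≤ D
  symm := ⟨fun z w h => ⟨h.1.symm, by
    have e : gdist w.1 z.1 = gdist z.1 w.1 := by unfold gdist; congr 1; ring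
    rw [e]; exact h.2⟩⟩
  loopless := ⟨fun z h => h.1 rfl⟩

end Vale.Agent.P015
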