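import Vale.Agent.P015.Cube

/-! Random moves along the path which make the residues modulo blocks of primes nearly uniform. -/

namespace Vale.Agent.P015

open Finset

noncomputable section

/-- A random move of the time. -/
structure Ker where
  Ξ : Type
  fin : Fintype Ξ
  ne : Nonempty Ξ
  κ : ℕ → Ξ → ℕ

instance (K : Ker) : Fintype K.Ξ := K.fin
instance (K : Ker) : Nonempty K.Ξ := K.ne

/-- The trivial move. -/
def Ker.one : Ker := ⟨Unit, inferInstance, inferInstance, fun τ _ => τ⟩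

/-- First `K`, then `K'`. -/
def Ker.comp (K K' : Ker) : Ker :=
  ⟨K.Ξ × K'.Ξ, inferInstance, inferInstance, fun τ ξ => K'.κ (K.κ τ ξ.1) ξ.2⟩

/-- The move displaces the point by at most `l`. -/
def Ker.Disp (K : Ker) (z : ℕ → ℤ × ℤ) (l : ℕ) : Prop := ∀ τ ξ, Bd l (z (K.κ τ ξ) - z τ)

/-- Apply the move to a random time. -/
def Ker.ap (K : Ker) {Ω : Type} (τ : Ω → ℕ) : Ω × K.Ξ → ℕ := fun ω => K.κ (τ ω.1) ω.2

theorem Ker.Disp.mono {K : Ker} {z : ℕ → ℤ × ℤ} {l l' : ℕ} (h : K.Disp z l) (hl : l ≤ l') :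
    K.Disp z l' := fun τ ξ => (h τ ξ).mono hl

theorem Ker.Disp.comp {K K' : Ker} {z : ℕ → ℤ × ℤ} {l l' : ℕ} (h : K.Disp z l)
    (h' : K'.Disp z l') : (K.comp K').Disp z (l + l') :=
  fun τ ξ => (h τ ξ.1).trans (h' _ ξ.2)

theorem Ker.disp_one (z : ℕ → ℤ × ℤ) (l : ℕ) : Ker.one.Disp z l := by
  intro τ ξ
  simp only [Ker.one, sub_self]
  exact Bd.zero l

/-- Blocks of `k` consecutive indices. -/
def blk (n k b : ℕ) : Finset (Fin n) := Finset.univ.filter (fun i => i.val / k = b)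

theorem card_blk {n k b : ℕ} (hk : 0 < k) (hb : b < n / k) : (blk n k b).card = k := by
  have h1 : (b + 1) * k ≤ n := (Nat.le_div_iff_mul_le hk).mp hb
  have : (blk n k b).map Fin.valEmbedding = Finset.Ico (b * k) (b * k + k) := by
    ext x
    simp only [Finset.mem_map, blk, Finset.mem_filter, Finset.mem_univ, true_and,
      Fin.valEmbedding_apply, Finset.mem_Ico]
    constructor
    · rintro ⟨i, hi, rfl⟩
      have := Nat.div_add_mod i.val k
      have := Nat.mod_lt i.val hk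
      rw [← hi, mul_comm]
      omega
    · rintro ⟨h2, h3⟩
      refine ⟨⟨x, by nlinarith⟩, ?_, rfl⟩
      exact Nat.div_eq_of_lt_le h2 (by nlinarith)
  have h2 := congrArg Finset.card this
  rw [Finset.card_map, Nat.card_Ico] at h2
  omega

theorem sum_blk {n k : ℕ} (hk : 0 < k) (hd : k ∣ n) (f : Fin n → ℝ) :
    ∑ b ∈ Finset.range (n / k), ∑ i ∈ blk n k b, f i = ∑ i, f i := by
  apply Finset.sum_fiberwise_of_maps_to
  intro i _
  rw [Finset.mem_range]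
  obtain ⟨m, rfl⟩ := hd
  rw [Nat.mul_div_cancel_left _ hk]
  exact Nat.div_lt_of_lt_mul i.2

theorem blk_parent {n k R : ℕ} (hk : 0 < k) (hd : k ∣ n) (c : ℕ) :
    blk n (k * R) c = ((Finset.range (n / k)).filter (fun b => b / R = c)).biUnion (blk n k) := by
  ext i
  simp only [blk, Finset.mem_filter, Finset.mem_univ, true_and, Finset.mem_biUnion,
    Finset.mem_range]
  rw [← Nat.div_div_eq_div_mul]
  constructor
  · intro h
    refine ⟨i.val / k, ⟨?_, h⟩, rfl⟩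
    obtain ⟨m, rfl⟩ := hd
    rw [Nat.mul_div_cancel_left _ hk]
    exact Nat.div_lt_of_lt_mul i.2
  · rintro ⟨b, ⟨_, h⟩, rfl⟩
    exact h

theorem sum_parent {n k R : ℕ} (hk : 0 < k) (hR : 0 < R) (hd : k * R ∣ n) (f : ℕ → ℝ) :
    ∑ c ∈ Finset.range (n / (k * R)),
      ∑ b ∈ (Finset.range (n / k)).filter (fun b => b / R = c), f b
      = ∑ b ∈ Finset.range (n / k), f b := by
  apply Finset.sum_fiberwise_of_maps_to
  intro b hb
  rw [Finset.mem_range] at hb ⊢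
  obtain ⟨m, rfl⟩ := hd
  rw [Nat.mul_div_cancel_left _ (Nat.mul_pos hk hR)]
  rw [mul_assoc, Nat.mul_div_cancel_left _ hk] at hb
  exact Nat.div_lt_of_lt_mul hb

variable {Ω : Type} [Fintype Ω]

/-- The residues of a random point modulo the primes of a block. -/
def PS.XS {ι : Type} (P : PS ι) (ε : ι → Bool) (W : Ω → ℤ × ℤ) (S : Finset ι) :
    Ω → (i : ι) → Option (ZMod (P.p i)) := res (fun i ω => P.X ε i (W ω)) S

omit [Fintype Ω] in
theorem PS.XS_eq_iff {ι : Type} (P : PS ι) (ε : ι → Bool) (W : Ω → ℤ × ℤ) (S : Finset ι)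
    (ω ω' : Ω) : P.XS ε W S ω = P.XS ε W S ω' ↔ ∀ i ∈ S, P.X ε i (W ω) = P.X ε i (W ω') :=
  res_eq_iff _ _ _ _

/-- Total entropy of the blocks, averaged over the signs. -/
def PS.Gam {n : ℕ} (P : PS (Fin n)) (k : ℕ) (W : Ω → ℤ × ℤ) : ℝ :=
  ex (fun ε : Fin n → Bool => ∑ b ∈ Finset.range (n / k), H (P.XS ε W (blk n k b)))

theorem PS.Gam_nonneg {n : ℕ} (P : PS (Fin n)) (k : ℕ) (W : Ω → ℤ × ℤ) : 0 ≤ P.Gam k W :=
  ex_nonneg (fun _ => Finset.sum_nonneg (fun _ _ => H_nonneg _))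

theorem PS.Gam_mp {n : ℕ} (P : PS (Fin n)) (k : ℕ) {Ω' : Type} [Fintype Ω'] {f : Ω → Ω'}
    (hf : MP f) (W : Ω' → ℤ × ℤ) : P.Gam k (fun ω => W (f ω)) = P.Gam k W := by
  unfold PS.Gam
  apply ex_congr
  intro ε
  apply Finset.sum_congr rfl
  intro b _
  exact H_mp hf (P.XS ε W (blk n k b))

theorem H_box [Nonempty Ω] (V : Ω → ℤ × ℤ) (l : ℕ) (h : ∀ ω, Bd l (V ω)) :
    H V ≤ 2 * Real.log (2 * l + 1) := by
  have := H_le_log_card V (box l) (fun ω => mem_box.mpr (h ω))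
  rw [card_box] at this
  push_cast at this
  rwa [Real.log_pow] at this

theorem PS.H_XS_le [Nonempty Ω] {ι : Type} (P : PS ι) (ε : ι → Bool) (W W' : Ω → ℤ × ℤ)
    (S : Finset ι) (l : ℕ) (h : ∀ ω, Bd l (W' ω - W ω)) :
    H (P.XS ε W S) ≤ H (P.XS ε W' S) + 2 * Real.log (2 * l + 1) := by
  have h1 : H (P.XS ε W S) ≤ H (fun ω => (P.XS ε W' S ω, W' ω - W ω)) := by
    apply H_mono
    intro ω ω' e
    obtain ⟨e1, e2⟩ := Prod.mk.inj e
    rw [PS.XS_eq_iff] at e1 ⊢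
    intro i hi
    have e3 := congrArg (P.X ε i) e2
    rw [PS.X_sub, PS.X_sub, e1 i hi] at e3
    exact sub_right_injective e3
  have h2 := H_pair_le (P.XS ε W' S) (fun ω => W' ω - W ω)
  have h3 := H_box _ l h
  linarith

theorem PS.Gam_le [Nonempty Ω] {n : ℕ} (P : PS (Fin n)) (k : ℕ) (W W' : Ω → ℤ × ℤ) (l : ℕ)
    (h : ∀ ω, Bd l (W' ω - W ω)) :
    P.Gam k W ≤ P.Gam k W' + (n / k : ℕ) * (2 * Real.log (2 * l + 1)) := by
  unfold PS.Gam
  rw [← ex_const (Ω := Fin n → Bool) (((n / k : ℕ) : ℝ) * (2 * Real.log (2 * l + 1))), ← ex_add]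
  apply ex_mono
  intro ε
  have := Finset.sum_le_sum (s := Finset.range (n / k))
    (fun b _ => P.H_XS_le ε W W' (blk n k b) l h)
  rw [Finset.sum_add_distrib, Finset.sum_const, Finset.card_range, nsmul_eq_mul] at this
  exact this

theorem det_four {c : ℤ} {w x1 x2 x3 x4 : ℤ × ℤ} (h1 : |det x1 w| ≤ c) (h2 : |det x2 w| ≤ c)
    (h3 : |det x3 w| ≤ c) (h4 : |det x4 w| ≤ c) : |det w (x1 - x2 - (x3 - x4))| ≤ 4 * c := by
  have : det w (x1 - x2 - (x3 - x4)) = - det x1 w + det x2 w + det x3 w - det x4 w := by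
    unfold det; simp only [Prod.fst_sub, Prod.snd_sub]; ring
  rw [this]
  rw [abs_le] at *
  constructor <;> linarith [h1.1, h1.2, h2.1, h2.2, h3.1, h3.2, h4.1, h4.2]

/-- The gain of one enrichment move. -/
def Ker.Step (K : Ker) (z : ℕ → ℤ × ℤ) (a B : ℕ) : Prop :=
  ∀ (n : ℕ) (P : PS (Fin n)) (y q r R : ℕ), 1 ≤ y → (∀ i, y ≤ P.p i) → 0 < r → 0 < R →
    16 * B < y ^ q → (q + r) * R ∣ n →
    ∀ (Ω : Type) [Fintype Ω] [Nonempty Ω] (τ : Ω → ℕ),
      (n / (q + r) : ℕ) * ((1 - 3 * ((q + r : ℕ) / (r : ℝ) ^ 2)) * Real.log a)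
        + P.Gam ((q + r) * R) (fun ω => z (τ ω))
        - (n / ((q + r) * R) : ℕ) * (4 * Real.log (4 * B + 1))
        ≤ 2 * P.Gam (q + r) (fun ω => z (K.ap τ ω))

theorem exists_step (D : ℕ) (z : ℕ → ℤ × ℤ) (hz : Function.Injective z)
    (hs : ∀ n, Bd D (z (n + 1) - z n)) (a : ℕ) (ha : 0 < a) :
    ∃ K : Ker, K.Disp z (CD D * a) ∧ K.Step z a (CD D * a) := by
  classical
  choose s t X hinj hX hbd hdet using enrich D z hz hs a
  set B := CD D * a with hBdef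
  have : Nonempty (Fin a) := ⟨⟨0, ha⟩⟩
  refine ⟨⟨Fin a × Bool, inferInstance, inferInstance,
    fun τ ξ => if ξ.2 then t τ ξ.1 else s τ ξ.1⟩, ?_, ?_⟩
  · intro τ ξ
    apply hbd τ
    dsimp only
    split_ifs
    · exact (hX τ _).2
    · exact (hX τ _).1
  intro n P y q r R hy1 hy hr hR hB hd Ω _ _ τ
  set k := q + r with hk
  have hk0 : 0 < k := by omega
  have hkn : k ∣ n := (dvd_mul_right k R).trans hd
  let Wt : Ω × Fin a → ℤ × ℤ := fun ω => z (t (τ ω.1) ω.2)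
  let Ws : Ω × Fin a → ℤ × ℤ := fun ω => z (s (τ ω.1) ω.2)
  let v : Ω × Fin a → ℤ × ℤ := fun ω => Wt ω - Ws ω
  let W' : Ω × (Fin a × Bool) → ℤ × ℤ :=
    fun ω => z (if ω.2.2 then t (τ ω.1) ω.2.1 else s (τ ω.1) ω.2.1)
  show _ ≤ 2 * P.Gam k W'
  have hla : 0 ≤ Real.log a := Real.log_nonneg (by exact_mod_cast ha)
  let good : (Fin n → Bool) → Finset (Fin n) → Ω → Prop := fun ε S ω =>
    Function.Injective (fun i => P.XS ε v S (ω, i))
  have A1 : ∀ ε S, ex (fun ω => ind (good ε S ω)) * Real.log a + cH (P.XS ε Ws S) v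
      ≤ 2 * H (P.XS ε W' S) := by
    intro ε S
    have e1 := ex_H_le_H' (fun ω : (Ω × Fin a) × Bool =>
      P.XS ε W' S (Equiv.prodAssoc Ω (Fin a) Bool ω))
    rw [H_mp (MP_equiv (Equiv.prodAssoc Ω (Fin a) Bool)) (P.XS ε W' S), ex_bool] at e1
    have e2 : H (P.XS ε Wt S) + H (P.XS ε Ws S) ≤ 2 * H (P.XS ε W' S) := by
      have f1 : H (P.XS ε Wt S) = H (fun ω : Ω × Fin a =>
        P.XS ε W' S (Equiv.prodAssoc Ω (Fin a) Bool (ω, true))) := rfl
      have f2 : H (P.XS ε Ws S) = H (fun ω : Ω × Fin a =>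
        P.XS ε W' S (Equiv.prodAssoc Ω (Fin a) Bool (ω, false))) := rfl
      rw [f1, f2]; linarith
    have e3 := H_pair_le (P.XS ε Wt S) (P.XS ε Ws S)
    have e4 : H (fun ω => (P.XS ε Ws S ω, P.XS ε v S ω))
        ≤ H (fun ω => (P.XS ε Wt S ω, P.XS ε Ws S ω)) := by
      apply H_mono
      intro ω ω' e
      obtain ⟨f1, f2⟩ := Prod.mk.inj e
      refine Prod.ext f2 ?_
      rw [PS.XS_eq_iff] at f1 f2
      show P.XS ε v S ω = P.XS ε v S ω'
      rw [PS.XS_eq_iff]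
      intro i hi
      simp only [v]
      rw [PS.X_sub, PS.X_sub, f1 i hi, f2 i hi]
    have e5 : cH (P.XS ε Ws S) v ≤ cH (P.XS ε Ws S) (P.XS ε v S) := by
      apply cH_mono_right
      intro ω ω' e
      rw [PS.XS_eq_iff]
      intro i _
      rw [e]
    have e6 := ex_H_le_H (P.XS ε v S)
    have e7 : ex (fun ω => ind (good ε S ω) * Real.log a)
        ≤ ex (fun ω => H (fun i => P.XS ε v S (ω, i))) := by
      apply ex_mono
      intro ω
      by_cases c : good ε S ω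
      · rw [ind_pos c, one_mul, H_inj c, Fintype.card_fin]
      · rw [ind_neg c, zero_mul]; exact H_nonneg _
    rw [ex_mul_right] at e7
    unfold cH at e5 ⊢
    linarith
  have hlog : Real.log (2 * B + 1) ≤ Real.log (4 * B + 1) :=
    Real.log_le_log (by positivity) (by have : (0 : ℝ) ≤ B := by positivity
                                        linarith)
  have hbs : ∀ ω, Bd B (Ws ω - z (τ ω.1)) := fun ω => hbd _ _ (hX _ _).1
  have hbt : ∀ ω, Bd B (Wt ω - z (τ ω.1)) := fun ω => hbd _ _ (hX _ _).2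
  have Hv : H v ≤ 2 * Real.log (4 * B + 1) := by
    have := H_box v (2 * B) (fun ω => by
      have := (hbt ω).sub (hbs ω)
      rw [show Wt ω - z (τ ω.1) - (Ws ω - z (τ ω.1)) = v ω by simp only [v]; abel] at this
      exact this.mono (by omega))
    push_cast at this
    rwa [show (2 : ℝ) * (2 * B) = 4 * B by ring] at this
  have A2 : ∀ ε c, H (P.XS ε (fun ω => z (τ ω)) (blk n (k * R) c)) - 4 * Real.log (4 * B + 1)
      ≤ ∑ b ∈ (Finset.range (n / k)).filter (fun b => b / R = c),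
        cH (P.XS ε Ws (blk n k b)) v := by
    intro ε c
    have e1 := cH_res_biUnion_le (fun i ω => P.X ε i (Ws ω)) v
      ((Finset.range (n / k)).filter (fun b => b / R = c)) (blk n k)
    rw [← blk_parent hk0 hkn] at e1
    have e2 := H_sub_le_cH (P.XS ε Ws (blk n (k * R) c)) v
    have e3 := P.H_XS_le ε (fun ω : Ω × Fin a => z (τ ω.1)) Ws (blk n (k * R) c) B hbs
    have e4 : H (P.XS ε (fun ω : Ω × Fin a => z (τ ω.1)) (blk n (k * R) c))
        = H (P.XS ε (fun ω => z (τ ω)) (blk n (k * R) c)) :=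
      H_mp (MP_fst (Ω := Ω) (Ω' := Fin a)) (P.XS ε (fun ω => z (τ ω)) (blk n (k * R) c))
    unfold PS.XS at *
    linarith
  have A3 : ∀ b ∈ Finset.range (n / k), 1 - 3 * ((k : ℝ) / (r : ℝ) ^ 2)
      ≤ ex (fun ε => ex (fun ω => ind (good ε (blk n k b) ω))) := by
    intro b hb
    rw [ex_comm]
    apply const_le_ex
    intro ω
    have hc := card_blk hk0 (Finset.mem_range.mp hb)
    have e1 := P.sign hy1 hy (blk n k b) q r B hr hc hB
      {m | ∃ t1 ∈ X (τ ω), ∃ t2 ∈ X (τ ω), ∃ t3 ∈ X (τ ω), ∃ t4 ∈ X (τ ω),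
        m = (z t1 - z (τ ω)) - (z t2 - z (τ ω)) - ((z t3 - z (τ ω)) - (z t4 - z (τ ω)))}
      (by
        rintro m ⟨t1, h1, t2, h2, t3, h3, t4, h4, rfl⟩
        exact (((hbd _ _ h1).sub (hbd _ _ h2)).sub ((hbd _ _ h3).sub (hbd _ _ h4))).mono
          (by omega))
      (by
        rintro m ⟨t1, h1, t2, h2, t3, h3, t4, h4, rfl⟩ m' ⟨u1, g1, u2, g2, u3, g3, u4, g4, rfl⟩
        have f : ∀ u ∈ X (τ ω), |det (z u - z (τ ω)) ((z t1 - z (τ ω)) - (z t2 - z (τ ω))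
            - ((z t3 - z (τ ω)) - (z t4 - z (τ ω))))| ≤ 4 * (B : ℤ) := fun u g =>
          det_four (hdet _ _ h1 _ g) (hdet _ _ h2 _ g) (hdet _ _ h3 _ g) (hdet _ _ h4 _ g)
        have := det_four (f _ g1) (f _ g2) (f _ g3) (f _ g4)
        linarith)
    rw [hc] at e1
    have e2 := pr_not (fun ε => good ε (blk n k b) ω)
    have e3 : pr (fun ε => ¬ good ε (blk n k b) ω) ≤ 3 * ((k : ℝ) / (r : ℝ) ^ 2) := by
      refine le_trans (pr_mono ?_) e1
      intro ε hε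
      simp only [good, Function.Injective, not_forall] at hε
      obtain ⟨i, j, hij, hne⟩ := hε
      refine ⟨v (ω, i) - v (ω, j), ⟨_, (hX _ i).2, _, (hX _ i).1, _, (hX _ j).2, _, (hX _ j).1,
        by simp only [v, Wt, Ws]; abel⟩, ?_, ?_⟩
      · intro c
        exact hne (hinj (τ ω) (sub_eq_zero.mp c))
      · intro l hl
        rw [PS.X_sub, (P.XS_eq_iff ε v _ _ _).mp hij l hl, sub_self]
    unfold pr at e2 e3
    linarith
  have A4 : ∀ ε, (∑ b ∈ Finset.range (n / k), ex (fun ω => ind (good ε (blk n k b) ω)))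
        * Real.log a
      + (∑ c ∈ Finset.range (n / (k * R)), H (P.XS ε (fun ω => z (τ ω)) (blk n (k * R) c)))
      - (n / (k * R) : ℕ) * (4 * Real.log (4 * B + 1))
      ≤ 2 * ∑ b ∈ Finset.range (n / k), H (P.XS ε W' (blk n k b)) := by
    intro ε
    have e1 := Finset.sum_le_sum (s := Finset.range (n / k)) (fun b _ => A1 ε (blk n k b))
    have e2 := Finset.sum_le_sum (s := Finset.range (n / (k * R))) (fun c _ => A2 ε c)
    rw [sum_parent hk0 hR hd (fun b => cH (P.XS ε Ws (blk n k b)) v), Finset.sum_sub_distrib,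
      Finset.sum_const, Finset.card_range, nsmul_eq_mul] at e2
    rw [Finset.sum_add_distrib, ← Finset.sum_mul, ← Finset.mul_sum] at e1
    linarith
  have A5 := ex_mono A4
  rw [ex_sub, ex_add, ex_mul_right, ex_const, ex_mul_left, ex_sum] at A5
  have A6 := Finset.sum_le_sum A3
  rw [Finset.sum_const, Finset.card_range, nsmul_eq_mul] at A6
  have A7 := mul_le_mul_of_nonneg_right A6 hla
  unfold PS.Gam
  linarith

/-- The gain of a sequence of enrichment moves. -/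
def Ker.Prog (K : Ker) (z : ℕ → ℤ × ℤ) (C a0 R I : ℕ) : Prop :=
  ∀ (n : ℕ) (P : PS (Fin n)) (y W r0 : ℕ), 1 ≤ y → (∀ i, y ≤ P.p i) → 0 < r0 →
    3 * (W + 2) ≤ r0 → y ^ (W * r0) ≤ a0 → 16 * (C * a0) < y ^ ((W + 1) * r0) →
    (W + 2) * r0 * R ^ I ∣ n →
    ∀ (Ω : Type) [Fintype Ω] [Nonempty Ω] (τ : Ω → ℕ),
      n * Real.log y - P.Gam ((W + 2) * r0) (fun ω => z (K.ap τ ω))
        ≤ (n * Real.log y - P.Gam ((W + 2) * r0 * R ^ I) (fun ω => z (τ ω))) / 2 ^ I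
          + n * Real.log y * (2 / (W + 2) + 3 * (W + 2) / r0 + 4 / R) * (1 - 1 / 2 ^ I)

theorem prog_arith (n W r0 m R N L la lb G1 G2 G3 η : ℝ) (I : ℕ) (W' : 0 ≤ W) (r0' : 0 < r0)
    (m' : 1 ≤ m) (R' : 0 < R) (N' : 0 ≤ N) (hL0 : 0 ≤ L) (h3 : 3 * (W + 2) ≤ r0)
    (nR : n = (W + 2) * r0 * m * R * N) (hη : η = 2 / (W + 2) + 3 * (W + 2) / r0 + 4 / R)
    (l1 : W * r0 * m * L ≤ la) (l2 : lb ≤ (W + 2) * r0 * m * L)
    (e3 : R * N * ((1 - 3 * ((W + 2) * r0 * m / (r0 * m) ^ 2)) * la) + G3 - N * (4 * lb) ≤ 2 * G2)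
    (e1 : n * L - G1 ≤ (n * L - G2) / 2 ^ I + n * L * η * (1 - 1 / 2 ^ I)) :
    n * L - G1 ≤ (n * L - G3) / 2 ^ (I + 1) + n * L * η * (1 - 1 / 2 ^ (I + 1)) := by
  have x1 : (W + 2) * r0 * m / (r0 * m) ^ 2 ≤ (W + 2) / r0 := by
    rw [div_le_div_iff₀ (by positivity) r0']
    have : (0 : ℝ) ≤ (W + 2) * r0 ^ 2 * m := by positivity
    nlinarith
  have x2 : 3 * ((W + 2) / r0) ≤ 1 := by
    rw [← mul_div_assoc, div_le_one r0']; exact h3
  generalize (W + 2) * r0 * m / (r0 * m) ^ 2 = x at x1 e3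
  have hη' : η = 2 / (W + 2) + 3 * ((W + 2) / r0) + 4 / R := by rw [hη]; ring
  have x0 : 0 ≤ (W + 2) / r0 := by positivity
  generalize (W + 2) / r0 = x' at x0 x1 x2 hη'
  have l3 : (1 - 3 * x') * (W * r0 * m * L) ≤ (1 - 3 * x) * la :=
    mul_le_mul (by linarith) l1 (by positivity) (by linarith)
  have l4 : n * L * (1 - η) + N * (4 * ((W + 2) * r0 * m * L))
      ≤ R * N * ((1 - 3 * x') * (W * r0 * m * L)) := by
    rw [hη', nR]
    have g1 : (W + 2) * r0 * m * R * N * L * (1 - (2 / (W + 2) + 3 * x' + 4 / R))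
        + N * (4 * ((W + 2) * r0 * m * L))
        = R * N * (r0 * m * L) * (W - 3 * x' * (W + 2)) := by
      field_simp; ring
    rw [g1]
    have g2 : (0 : ℝ) ≤ R * N * (r0 * m * L) * x' := by positivity
    nlinarith
  have l5 : N * (4 * lb) ≤ N * (4 * ((W + 2) * r0 * m * L)) := by gcongr
  have l6 : R * N * ((1 - 3 * x') * (W * r0 * m * L)) ≤ R * N * ((1 - 3 * x) * la) :=
    mul_le_mul_of_nonneg_left l3 (by positivity)
  have l7 : n * L - G2 ≤ (n * L - G3) / 2 + n * L * η / 2 := by linarith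
  have l8 : (n * L - G2) / 2 ^ I ≤ ((n * L - G3) / 2 + n * L * η / 2) / 2 ^ I := by gcongr
  have l9 : ((n * L - G3) / 2 + n * L * η / 2) / 2 ^ I + n * L * η * (1 - 1 / 2 ^ I)
      = (n * L - G3) / 2 ^ (I + 1) + n * L * η * (1 - 1 / 2 ^ (I + 1)) := by
    rw [pow_succ]; field_simp; ring
  linarith

theorem exists_prog (D : ℕ) (z : ℕ → ℤ × ℤ) (hz : Function.Injective z)
    (hs : ∀ n, Bd D (z (n + 1) - z n)) (a0 R I : ℕ) (ha : 0 < a0) (hR : 0 < R) :
    ∃ K : Ker, K.Disp z (I * (CD D * a0 ^ R ^ I)) ∧ K.Prog z (CD D) a0 R I := by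
  have hC : 1 ≤ CD D := by unfold CD; nlinarith [Nat.zero_le (2 * D ^ 2), Nat.zero_le D]
  induction I with
  | zero =>
    refine ⟨Ker.one, Ker.disp_one z _, ?_⟩
    intro n P y W r0 _ _ _ _ _ _ _ Ω _ _ τ
    have := P.Gam_mp ((W + 2) * r0) (MP_fst (Ω := Ω) (Ω' := Unit)) (fun ω => z (τ ω))
    have e : P.Gam ((W + 2) * r0) (fun ω => z (Ker.one.ap τ ω))
      = P.Gam ((W + 2) * r0) (fun ω => z (τ ω)) := this
    rw [e]
    simp
  | succ I ih =>
    obtain ⟨K, hK1, hK2⟩ := ih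
    obtain ⟨E, hE1, hE2⟩ := exists_step D z hz hs (a0 ^ R ^ I) (pow_pos ha _)
    refine ⟨E.comp K, (hE1.comp hK1).mono ?_, ?_⟩
    · have : a0 ^ R ^ I ≤ a0 ^ R ^ (I + 1) :=
        Nat.pow_le_pow_right ha (Nat.pow_le_pow_right hR (by omega))
      have := Nat.mul_le_mul_left (CD D) this
      nlinarith
    intro n P y W r0 hy1 hy hr0 h3 hlo hhi hd Ω _ _ τ
    set m := R ^ I with hm
    have hm0 : 0 < m := pow_pos hR I
    have hd' : (W + 2) * r0 * m ∣ n := (Dvd.intro R (by rw [pow_succ]; ring)).trans hd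
    have e1 := hK2 n P y W r0 hy1 hy hr0 h3 hlo hhi hd' (Ω × E.Ξ) (E.ap τ)
    have e2 : P.Gam ((W + 2) * r0) (fun ω => z ((E.comp K).ap τ ω))
        = P.Gam ((W + 2) * r0) (fun ω => z (K.ap (E.ap τ) ω)) :=
      (P.Gam_mp ((W + 2) * r0) (MP_equiv (Equiv.prodAssoc Ω E.Ξ K.Ξ))
        (fun ω => z ((E.comp K).ap τ ω))).symm
    have hB : 16 * (CD D * a0 ^ m) < y ^ ((W + 1) * (r0 * m)) := by
      have f1 : (16 * (CD D * a0)) ^ m < (y ^ ((W + 1) * r0)) ^ m :=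
        Nat.pow_lt_pow_left hhi hm0.ne'
      rw [← pow_mul, mul_assoc, ← mul_assoc 16, mul_pow] at f1
      have f2 : 16 * CD D ≤ (16 * CD D) ^ m := Nat.le_self_pow hm0.ne' _
      have := Nat.mul_le_mul_right (a0 ^ m) f2
      rw [← mul_assoc]
      omega
    have hk : (W + 1) * (r0 * m) + r0 * m = (W + 2) * r0 * m := by ring
    have hkR : (W + 2) * r0 * m * R = (W + 2) * r0 * R ^ (I + 1) := by rw [pow_succ]; ring
    have e3 := hE2 n P y ((W + 1) * (r0 * m)) (r0 * m) R hy1 hy (Nat.mul_pos hr0 hm0) hR hB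
      (by rw [hk, hkR]; exact hd) Ω τ
    rw [hk, hkR] at e3
    rw [e2]
    set L := Real.log y with hL
    have hL0 : 0 ≤ L := Real.log_nonneg (by exact_mod_cast hy1)
    have hy0 : (0 : ℝ) < y := by exact_mod_cast hy1
    set G1 := P.Gam ((W + 2) * r0) (fun ω => z (K.ap (E.ap τ) ω))
    set G2 := P.Gam ((W + 2) * r0 * m) (fun ω => z (E.ap τ ω))
    set G3 := P.Gam ((W + 2) * r0 * R ^ (I + 1)) (fun ω => z (τ ω))
    set η : ℝ := 2 / (W + 2) + 3 * (W + 2) / r0 + 4 / R with hη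
    obtain ⟨N, hN⟩ := hd
    have hpos : 0 < (W + 2) * r0 * m := by positivity
    have n1 : n / ((W + 2) * r0 * m) = R * N := by
      rw [hN, ← hkR, mul_assoc _ R N, Nat.mul_div_cancel_left _ hpos]
    have n2 : n / ((W + 2) * r0 * R ^ (I + 1)) = N := by
      rw [hN, Nat.mul_div_cancel_left _ (by positivity)]
    rw [n1, n2] at e3
    have nR : (n : ℝ) = (W + 2) * r0 * m * R * N := by
      rw [hN, ← hkR]; push_cast; ring
    have l1 : W * r0 * m * L ≤ Real.log ((a0 ^ m : ℕ) : ℝ) := by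
      have : ((y : ℝ) ^ (W * r0)) ≤ a0 := by exact_mod_cast hlo
      have f := Real.log_le_log (by positivity) this
      rw [Real.log_pow] at f
      push_cast at f ⊢
      rw [Real.log_pow]
      have hm' : (0 : ℝ) ≤ m := by positivity
      nlinarith
    have l2 : Real.log (4 * ((CD D * a0 ^ m : ℕ) : ℝ) + 1) ≤ (W + 2) * r0 * m * L := by
      have f0 : 1 ≤ CD D * a0 ^ m := Nat.mul_pos hC (pow_pos ha _)
      have f1 : 4 * (CD D * a0 ^ m) + 1 ≤ y ^ ((W + 2) * r0 * m) := by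
        have := Nat.pow_le_pow_right hy1
          (show (W + 1) * (r0 * m) ≤ (W + 2) * r0 * m by omega)
        omega
      have f2 : 4 * ((CD D * a0 ^ m : ℕ) : ℝ) + 1 ≤ (y : ℝ) ^ ((W + 2) * r0 * m) := by
        exact_mod_cast f1
      have f := Real.log_le_log (by positivity) f2
      rw [Real.log_pow] at f
      push_cast at f ⊢
      exact f
    have h3' : 3 * ((W : ℝ) + 2) ≤ r0 := by exact_mod_cast h3
    push_cast at e3 l1 l2
    exact prog_arith n W r0 m R N L _ _ G1 G2 G3 η I (by positivity) (by exact_mod_cast hr0)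
      (by exact_mod_cast hm0) (by exact_mod_cast hR) (by positivity) hL0 h3' nR hη l1 l2 e3 e1

theorem Ker.Prog.bound {K : Ker} {z : ℕ → ℤ × ℤ} {C a0 R I : ℕ} (h : K.Prog z C a0 R I)
    (n : ℕ) (P : PS (Fin n)) (y W r0 : ℕ) (hy1 : 1 ≤ y) (hy : ∀ i, y ≤ P.p i) (hr0 : 0 < r0)
    (h3 : 3 * (W + 2) ≤ r0) (hlo : y ^ (W * r0) ≤ a0) (hhi : 16 * (C * a0) < y ^ ((W + 1) * r0))
    (hd : (W + 2) * r0 * R ^ I ∣ n) (Ω : Type) [Fintype Ω] [Nonempty Ω] (τ : Ω → ℕ) :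
    n * Real.log y * (1 - (1 / 2 ^ I + (2 / (W + 2) + 3 * (W + 2) / r0 + 4 / R)))
      ≤ P.Gam ((W + 2) * r0) (fun ω => z (K.ap τ ω)) := by
  have e := h n P y W r0 hy1 hy hr0 h3 hlo hhi hd Ω τ
  have g := P.Gam_nonneg ((W + 2) * r0 * R ^ I) (fun ω => z (τ ω))
  have hL0 : 0 ≤ Real.log y := Real.log_nonneg (by exact_mod_cast hy1)
  set η : ℝ := 2 / (W + 2) + 3 * (W + 2) / r0 + 4 / R with hη
  have h0 : 0 ≤ n * Real.log y * η * (1 / 2 ^ I) := by positivity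
  have h1 : 0 ≤ P.Gam ((W + 2) * r0 * R ^ I) (fun ω => z (τ ω)) / 2 ^ I := by positivity
  have h2 : (n * Real.log y - P.Gam ((W + 2) * r0 * R ^ I) (fun ω => z (τ ω))) / 2 ^ I
      = n * Real.log y * (1 / 2 ^ I)
        - P.Gam ((W + 2) * r0 * R ^ I) (fun ω => z (τ ω)) / 2 ^ I := by ring
  linarith

end

end Vale.Agent.P015
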