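import Mathlib

/-! Finite uniform probability and Shannon entropy over a finite type. -/

namespace Vale.Agent.P015

open Finset

noncomputable section

/-- Average of a real function over a finite type. -/
def ex {Ω : Type} [Fintype Ω] (f : Ω → ℝ) : ℝ := (∑ ω, f ω) / (Fintype.card Ω : ℝ)

open Classical in
/-- Indicator of a proposition. -/
def ind (P : Prop) : ℝ := if P then 1 else 0

/-- Probability of an event under the uniform distribution. -/
def pr {Ω : Type} [Fintype Ω] (A : Ω → Prop) : ℝ := ex (fun ω => ind (A ω))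

theorem ind_nonneg (P : Prop) : 0 ≤ ind P := by
  unfold ind; split_ifs <;> norm_num

theorem ind_le_one (P : Prop) : ind P ≤ 1 := by
  unfold ind; split_ifs <;> norm_num

theorem ind_pos {P : Prop} (h : P) : ind P = 1 := by
  unfold ind; simp [h]

theorem ind_neg {P : Prop} (h : ¬ P) : ind P = 0 := by
  unfold ind; simp [h]

theorem ind_mono {P Q : Prop} (h : P → Q) : ind P ≤ ind Q := by
  by_cases hP : P
  · rw [ind_pos hP, ind_pos (h hP)]
  · rw [ind_neg hP]; exact ind_nonneg Q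

theorem ind_congr {P Q : Prop} (h : P ↔ Q) : ind P = ind Q := by
  rw [propext h]

theorem ind_not (P : Prop) : ind (¬ P) = 1 - ind P := by
  by_cases hP : P
  · rw [ind_pos hP, ind_neg (not_not.mpr hP)]; norm_num
  · rw [ind_neg hP, ind_pos hP]; norm_num

theorem ind_and (P Q : Prop) : ind (P ∧ Q) = ind P * ind Q := by
  by_cases hP : P
  · by_cases hQ : Q
    · rw [ind_pos hP, ind_pos hQ, ind_pos ⟨hP, hQ⟩]; norm_num
    · rw [ind_neg hQ, ind_neg (fun h => hQ h.2)]; norm_num
  · rw [ind_neg hP, ind_neg (fun h => hP h.1)]; norm_num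

theorem ind_forall {ι : Type} [Fintype ι] (P : ι → Prop) : ind (∀ i, P i) = ∏ i, ind (P i) := by
  by_cases h : ∀ i, P i
  · rw [ind_pos h]
    symm
    exact Finset.prod_eq_one (fun i _ => ind_pos (h i))
  · rw [ind_neg h]
    push Not at h
    obtain ⟨i, hi⟩ := h
    symm
    exact Finset.prod_eq_zero (Finset.mem_univ i) (ind_neg hi)

theorem sum_ind_eq {α : Type} (T : Finset α) (x : α) (hx : x ∈ T) (f : α → ℝ) :
    ∑ a ∈ T, ind (x = a) * f a = f x := by
  rw [Finset.sum_eq_single x]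
  · rw [ind_pos rfl, one_mul]
  · intro b _ hb; rw [ind_neg (fun h => hb h.symm), zero_mul]
  · intro h; exact absurd hx h

theorem sum_ind_card {α : Type} (T : Finset α) (P : α → Prop) [DecidablePred P] :
    ∑ a ∈ T, ind (P a) = ((T.filter P).card : ℝ) := by
  rw [Finset.card_filter]
  push_cast
  apply Finset.sum_congr rfl
  intro a _
  by_cases h : P a
  · rw [ind_pos h, if_pos h]
  · rw [ind_neg h, if_neg h]

variable {Ω : Type} [Fintype Ω]

theorem card_pos' [Nonempty Ω] : (0 : ℝ) < (Fintype.card Ω : ℝ) := by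
  exact_mod_cast Fintype.card_pos

theorem ex_mono {f g : Ω → ℝ} (h : ∀ ω, f ω ≤ g ω) : ex f ≤ ex g := by
  unfold ex
  exact div_le_div_of_nonneg_right (Finset.sum_le_sum (fun ω _ => h ω)) (Nat.cast_nonneg _)

theorem ex_congr {f g : Ω → ℝ} (h : ∀ ω, f ω = g ω) : ex f = ex g := by
  rw [funext h]

theorem ex_add (f g : Ω → ℝ) : ex (fun ω => f ω + g ω) = ex f + ex g := by
  unfold ex
  rw [Finset.sum_add_distrib, add_div]

theorem ex_sub (f g : Ω → ℝ) : ex (fun ω => f ω - g ω) = ex f - ex g := by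
  unfold ex
  rw [Finset.sum_sub_distrib, sub_div]

theorem ex_neg (f : Ω → ℝ) : ex (fun ω => - f ω) = - ex f := by
  unfold ex
  rw [Finset.sum_neg_distrib, neg_div]

theorem ex_const [Nonempty Ω] (c : ℝ) : ex (fun _ : Ω => c) = c := by
  unfold ex
  have := card_pos' (Ω := Ω)
  rw [Finset.sum_const, Finset.card_univ, nsmul_eq_mul]
  field_simp

theorem ex_mul_left (c : ℝ) (f : Ω → ℝ) : ex (fun ω => c * f ω) = c * ex f := by
  unfold ex
  rw [← Finset.mul_sum, mul_div_assoc]

theorem ex_mul_right (c : ℝ) (f : Ω → ℝ) : ex (fun ω => f ω * c) = ex f * c := by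
  unfold ex
  rw [← Finset.sum_mul]; ring

theorem ex_div (c : ℝ) (f : Ω → ℝ) : ex (fun ω => f ω / c) = ex f / c := by
  simp only [div_eq_mul_inv]; exact ex_mul_right _ _

theorem ex_sum {ι : Type} (s : Finset ι) (f : ι → Ω → ℝ) :
    ex (fun ω => ∑ i ∈ s, f i ω) = ∑ i ∈ s, ex (f i) := by
  unfold ex
  rw [Finset.sum_comm, Finset.sum_div]

theorem ex_nonneg {f : Ω → ℝ} (h : ∀ ω, 0 ≤ f ω) : 0 ≤ ex f := by
  unfold ex
  exact div_nonneg (Finset.sum_nonneg (fun ω _ => h ω)) (Nat.cast_nonneg _)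

theorem ex_le_const [Nonempty Ω] {f : Ω → ℝ} {c : ℝ} (h : ∀ ω, f ω ≤ c) : ex f ≤ c := by
  have := ex_mono (f := f) (g := fun _ => c) h
  rwa [ex_const] at this

theorem const_le_ex [Nonempty Ω] {f : Ω → ℝ} {c : ℝ} (h : ∀ ω, c ≤ f ω) : c ≤ ex f := by
  have := ex_mono (f := fun _ => c) (g := f) h
  rwa [ex_const] at this

theorem ex_prod {Ω' : Type} [Fintype Ω'] (f : Ω × Ω' → ℝ) :
    ex f = ex (fun a => ex (fun b => f (a, b))) := by
  unfold ex
  rw [Fintype.sum_prod_type, Fintype.card_prod, ← Finset.sum_div]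
  push_cast
  rw [div_div, mul_comm]

theorem ex_comm {Ω' : Type} [Fintype Ω'] (f : Ω → Ω' → ℝ) :
    ex (fun a => ex (fun b => f a b)) = ex (fun b => ex (fun a => f a b)) := by
  unfold ex
  rw [← Finset.sum_div, ← Finset.sum_div, Finset.sum_comm, div_div, div_div, mul_comm]

theorem ex_prod' {Ω' : Type} [Fintype Ω'] (f : Ω × Ω' → ℝ) :
    ex f = ex (fun b => ex (fun a => f (a, b))) := by
  rw [ex_prod, ex_comm]

theorem ex_bool (f : Bool → ℝ) : ex f = (f true + f false) / 2 := by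
  unfold ex
  simp

theorem exists_ex_le [Nonempty Ω] (f : Ω → ℝ) : ∃ ω, ex f ≤ f ω := by
  by_contra h
  push Not at h
  have h1 : ∑ ω, f ω < ∑ _ω : Ω, ex f :=
    Finset.sum_lt_sum_of_nonempty Finset.univ_nonempty (fun ω _ => h ω)
  rw [Finset.sum_const, Finset.card_univ, nsmul_eq_mul] at h1
  have hc := card_pos' (Ω := Ω)
  unfold ex at h1
  rw [mul_div_cancel₀ _ hc.ne'] at h1
  exact lt_irrefl _ h1

theorem pr_nonneg (A : Ω → Prop) : 0 ≤ pr A := ex_nonneg (fun _ => ind_nonneg _)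

theorem pr_le_one [Nonempty Ω] (A : Ω → Prop) : pr A ≤ 1 :=
  ex_le_const (fun _ => ind_le_one _)

theorem pr_mono {A B : Ω → Prop} (h : ∀ ω, A ω → B ω) : pr A ≤ pr B :=
  ex_mono (fun ω => ind_mono (h ω))

theorem pr_congr {A B : Ω → Prop} (h : ∀ ω, A ω ↔ B ω) : pr A = pr B :=
  ex_congr (fun ω => ind_congr (h ω))

theorem pr_not [Nonempty Ω] (A : Ω → Prop) : pr (fun ω => ¬ A ω) = 1 - pr A := by
  unfold pr
  simp only [ind_not]
  rw [ex_sub, ex_const]

theorem pr_pos {A : Ω → Prop} {ω : Ω} (h : A ω) : 0 < pr A := by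
  have : Nonempty Ω := ⟨ω⟩
  unfold pr ex
  apply div_pos _ card_pos'
  have := Finset.single_le_sum (f := fun ω => ind (A ω)) (fun j _ => ind_nonneg _)
    (Finset.mem_univ ω)
  rw [ind_pos h] at this
  linarith

theorem pr_false {A : Ω → Prop} (h : ∀ ω, ¬ A ω) : pr A = 0 := by
  unfold pr ex
  rw [Finset.sum_eq_zero (fun ω _ => ind_neg (h ω)), zero_div]

theorem pr_le_inv_card {A : Ω → Prop} (h : ∀ ω ω', A ω → A ω' → ω = ω') :
    pr A ≤ 1 / (Fintype.card Ω : ℝ) := by
  classical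
  unfold pr ex
  apply div_le_div_of_nonneg_right _ (Nat.cast_nonneg _)
  rw [sum_ind_card]
  exact_mod_cast Finset.card_le_one.mpr (fun a ha b hb =>
    h a b (Finset.mem_filter.mp ha).2 (Finset.mem_filter.mp hb).2)

/-- Independence of coordinates. -/
theorem ex_pi_prod {ι Λ : Type} [Fintype ι] [DecidableEq ι] [Fintype Λ] (f : ι → Λ → ℝ) :
    ex (fun ω : ι → Λ => ∏ j, f j (ω j)) = ∏ j, ex (f j) := by
  unfold ex
  rw [Finset.prod_div_distrib, Fintype.prod_sum, Finset.prod_const, Finset.card_univ,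
    Fintype.card_fun]
  push_cast
  rfl

theorem ex_eval {ι Λ : Type} [Fintype ι] [DecidableEq ι] [Fintype Λ] [Nonempty Λ]
    (j : ι) (f : Λ → ℝ) : ex (fun ω : ι → Λ => f (ω j)) = ex f := by
  have h := ex_pi_prod (ι := ι) (fun i (l : Λ) => if i = j then f l else 1)
  have h1 : ∀ ω : ι → Λ, ∏ i, (if i = j then f (ω i) else 1) = f (ω j) := by
    intro ω
    rw [Finset.prod_ite_eq' Finset.univ j (fun i => f (ω i))]
    simp
  have h2 : ∏ i : ι, ex (fun l : Λ => if i = j then f l else 1) = ex f := by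
    have : ∀ i : ι, ex (fun l : Λ => if i = j then f l else 1) = if i = j then ex f else 1 := by
      intro i
      by_cases hi : i = j
      · simp [hi]
      · simp only [hi, if_false]; exact ex_const 1
    simp only [this]
    rw [Finset.prod_ite_eq' Finset.univ j (fun _ => ex f)]
    simp
  simp only [h1] at h
  rw [h, h2]

theorem ex_eval_two {ι Λ : Type} [Fintype ι] [DecidableEq ι] [Fintype Λ] [Nonempty Λ]
    (j k : ι) (hjk : j ≠ k) (f : Λ → Λ → ℝ) :
    ex (fun ω : ι → Λ => f (ω j) (ω k)) = ex (fun a => ex (fun b => f a b)) := by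
  classical
  have hc := card_pos' (Ω := Λ)
  have key : ∀ a b : Λ, ex (fun ω : ι → Λ => ind (ω j = a) * ind (ω k = b))
      = 1 / (Fintype.card Λ : ℝ) * (1 / (Fintype.card Λ : ℝ)) := by
    intro a b
    have h := ex_pi_prod (ι := ι)
      (fun i (l : Λ) => (if i = j then ind (l = a) else 1) * (if i = k then ind (l = b) else 1))
    have h1 : ∀ ω : ι → Λ, ∏ i, ((if i = j then ind (ω i = a) else 1) *
        (if i = k then ind (ω i = b) else 1)) = ind (ω j = a) * ind (ω k = b) := by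
      intro ω
      rw [Finset.prod_mul_distrib, Finset.prod_ite_eq' Finset.univ j (fun i => ind (ω i = a)),
        Finset.prod_ite_eq' Finset.univ k (fun i => ind (ω i = b))]
      simp
    have hone : ∀ c : Λ, ex (fun l : Λ => ind (l = c)) = 1 / (Fintype.card Λ : ℝ) := by
      intro c
      unfold ex
      congr 1
      have := sum_ind_eq (Finset.univ : Finset Λ) c (Finset.mem_univ c) (fun _ => 1)
      simp only [mul_one] at this
      rw [← this]
      exact Finset.sum_congr rfl (fun l _ => ind_congr eq_comm)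
    have h2 : ∀ i : ι, ex (fun l : Λ => (if i = j then ind (l = a) else 1) *
        (if i = k then ind (l = b) else 1)) =
        (if i = j then 1 / (Fintype.card Λ : ℝ) else 1) *
        (if i = k then 1 / (Fintype.card Λ : ℝ) else 1) := by
      intro i
      by_cases hi : i = j
      · have hik : i ≠ k := hi ▸ hjk
        simp only [hi, if_true]
        rw [hi] at hik
        simp only [hik, if_false, mul_one]
        exact hone a
      · by_cases hk : i = k
        · simp only [hk, if_true]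
          rw [hk] at hi
          simp only [hi, if_false, one_mul]
          exact hone b
        · simp only [hi, hk, if_false, mul_one]; exact ex_const 1
    simp only [h1, h2] at h
    rw [h, Finset.prod_mul_distrib,
      Finset.prod_ite_eq' Finset.univ j (fun _ => 1 / (Fintype.card Λ : ℝ)),
      Finset.prod_ite_eq' Finset.univ k (fun _ => 1 / (Fintype.card Λ : ℝ))]
    simp
  have hexp : ∀ ω : ι → Λ, f (ω j) (ω k)
      = ∑ a, ∑ b, f a b * (ind (ω j = a) * ind (ω k = b)) := by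
    intro ω
    rw [← sum_ind_eq Finset.univ (ω j) (Finset.mem_univ _) (fun a => f a (ω k))]
    apply Finset.sum_congr rfl
    intro a _
    rw [← sum_ind_eq Finset.univ (ω k) (Finset.mem_univ _) (fun b => f a b), Finset.mul_sum]
    apply Finset.sum_congr rfl
    intro b _
    ring
  rw [ex_congr hexp, ex_sum]
  simp only [ex_sum, ex_mul_left, key]
  unfold ex
  rw [Finset.sum_div]
  apply Finset.sum_congr rfl
  intro a _
  rw [← Finset.sum_mul]
  field_simp

theorem pr_pi {ι Λ : Type} [Fintype ι] [DecidableEq ι] [Fintype Λ] (A : ι → Λ → Prop) :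
    pr (fun ω : ι → Λ => ∀ j, A j (ω j)) = ∏ j, pr (A j) := by
  unfold pr
  simp only [ind_forall]
  exact ex_pi_prod (fun j l => ind (A j l))

/-- Measure preserving maps between finite uniform spaces. -/
def MP {Ω' : Type} [Fintype Ω'] (f : Ω → Ω') : Prop :=
  ∀ g : Ω' → ℝ, ex (fun ω => g (f ω)) = ex g

theorem MP_equiv {Ω' : Type} [Fintype Ω'] (e : Ω ≃ Ω') : MP e := by
  intro g
  unfold ex
  rw [Fintype.card_congr e, Equiv.sum_comp e g]

theorem MP_fst {Ω' : Type} [Fintype Ω'] [Nonempty Ω'] : MP (Prod.fst : Ω × Ω' → Ω) := by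
  intro g
  rw [ex_prod]
  exact ex_congr (fun a => ex_const (g a))

theorem MP_snd {Ω' : Type} [Fintype Ω'] [Nonempty Ω] : MP (Prod.snd : Ω × Ω' → Ω') := by
  intro g
  rw [ex_prod']
  exact ex_congr (fun a => ex_const (g a))

theorem MP_prod_left {Ω' Λ : Type} [Fintype Ω'] [Fintype Λ] {f : Ω → Ω'} (hf : MP f) :
    MP (fun p : Ω × Λ => (f p.1, p.2)) := by
  intro g
  rw [ex_prod', ex_prod' g]
  exact ex_congr (fun b => hf (fun a => g (a, b)))

theorem MP_prod_right {Ω' Λ : Type} [Fintype Ω'] [Fintype Λ] {f : Ω → Ω'} (hf : MP f) :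
    MP (fun p : Λ × Ω => (p.1, f p.2)) := by
  intro g
  rw [ex_prod, ex_prod g]
  exact ex_congr (fun b => hf (fun a => g (b, a)))

theorem MP_eval {ι Λ : Type} [Fintype ι] [DecidableEq ι] [Fintype Λ] [Nonempty Λ] (j : ι) :
    MP (fun ω : ι → Λ => ω j) := fun g => ex_eval j g

/-! ### Entropy -/

variable {α β γ δ : Type}

/-- Probability mass of a value. -/
def mass (X : Ω → α) (a : α) : ℝ := pr (fun ω => X ω = a)

/-- Shannon entropy. -/
def H (X : Ω → α) : ℝ := ex (fun ω => - Real.log (mass X (X ω)))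

/-- Conditional entropy. -/
def cH (X : Ω → α) (Z : Ω → γ) : ℝ := H (fun ω => (X ω, Z ω)) - H Z

/-- `X` is determined by `Y`. -/
def Det (X : Ω → α) (Y : Ω → β) : Prop := ∀ ω ω', Y ω = Y ω' → X ω = X ω'

theorem mass_nonneg (X : Ω → α) (a : α) : 0 ≤ mass X a := pr_nonneg _

theorem mass_pos (X : Ω → α) (ω : Ω) : 0 < mass X (X ω) := pr_pos (ω := ω) rfl

theorem mass_le_one (X : Ω → α) (ω : Ω) : mass X (X ω) ≤ 1 := by
  have : Nonempty Ω := ⟨ω⟩
  exact pr_le_one _

theorem H_nonneg (X : Ω → α) : 0 ≤ H X :=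
  ex_nonneg (fun ω => by
    have := Real.log_nonpos (mass_nonneg X (X ω)) (mass_le_one X ω)
    linarith)

theorem H_mono {X : Ω → α} {Y : Ω → β} (h : Det X Y) : H X ≤ H Y := by
  apply ex_mono
  intro ω
  have h1 : mass Y (Y ω) ≤ mass X (X ω) := pr_mono (fun ω' h' => h ω' ω h')
  have := Real.log_le_log (mass_pos Y ω) h1
  linarith

theorem H_congr {X : Ω → α} {Y : Ω → β} (h : Det X Y) (h' : Det Y X) : H X = H Y :=
  le_antisymm (H_mono h) (H_mono h')

theorem H_mp {Ω' : Type} [Fintype Ω'] {f : Ω → Ω'} (hf : MP f) (X : Ω' → α) :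
    H (fun ω => X (f ω)) = H X := by
  unfold H
  have : ∀ a, mass (fun ω => X (f ω)) a = mass X a := fun a => hf (fun ω' => ind (X ω' = a))
  simp only [this]
  exact hf (fun ω' => - Real.log (mass X (X ω')))

theorem cH_mp {Ω' : Type} [Fintype Ω'] {f : Ω → Ω'} (hf : MP f) (X : Ω' → α) (Z : Ω' → γ) :
    cH (fun ω => X (f ω)) (fun ω => Z (f ω)) = cH X Z := by
  unfold cH
  rw [H_mp hf Z, H_mp hf (fun ω => (X ω, Z ω))]

theorem H_inj [Nonempty Ω] {X : Ω → α} (h : Function.Injective X) :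
    H X = Real.log (Fintype.card Ω) := by
  unfold H
  have : ∀ ω, mass X (X ω) = 1 / (Fintype.card Ω : ℝ) := by
    intro ω
    unfold mass pr ex
    congr 1
    have := sum_ind_eq (Finset.univ : Finset Ω) ω (Finset.mem_univ ω) (fun _ => 1)
    simp only [mul_one] at this
    rw [← this]
    exact Finset.sum_congr rfl (fun l _ => ind_congr ⟨fun e => (h e).symm, fun e => by rw [e]⟩)
  simp only [this, one_div, Real.log_inv, neg_neg]
  exact ex_const _

/-- Conditional probability of `X = a` given `Z = z`. -/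
def cond (X : Ω → α) (Z : Ω → γ) (a : α) (z : γ) : ℝ :=
  mass (fun ω => (X ω, Z ω)) (a, z) / mass Z z

theorem cond_nonneg (X : Ω → α) (Z : Ω → γ) (a : α) (z : γ) : 0 ≤ cond X Z a z :=
  div_nonneg (mass_nonneg _ _) (mass_nonneg _ _)

theorem cond_pos (X : Ω → α) (Z : Ω → γ) (ω : Ω) : 0 < cond X Z (X ω) (Z ω) :=
  div_pos (mass_pos (fun ω => (X ω, Z ω)) ω) (mass_pos Z ω)

theorem ex_cond (X : Ω → α) (Z : Ω → γ) (T : Finset α) (hT : ∀ ω, X ω ∈ T) (f : α → γ → ℝ) :
    ex (fun ω => f (X ω) (Z ω)) = ex (fun ω => ∑ a ∈ T, cond X Z a (Z ω) * f a (Z ω)) := by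
  have h1 : ∀ ω, f (X ω) (Z ω)
      = ex (fun ω' => ind (Z ω' = Z ω) * (f (X ω) (Z ω) / mass Z (Z ω))) := by
    intro ω
    rw [ex_mul_right]
    have : ex (fun ω' => ind (Z ω' = Z ω)) = mass Z (Z ω) := rfl
    rw [this]
    have := mass_pos Z ω
    field_simp
  rw [ex_congr h1, ex_comm]
  apply ex_congr
  intro ω'
  have h2 : ∀ ω, ind (Z ω' = Z ω) * (f (X ω) (Z ω) / mass Z (Z ω))
      = ∑ a ∈ T, ind ((X ω, Z ω) = (a, Z ω')) * (f a (Z ω') / mass Z (Z ω')) := by
    intro ω
    by_cases hz : Z ω' = Z ω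
    · rw [ind_pos hz, one_mul, hz]
      rw [← sum_ind_eq T (X ω) (hT ω) (fun a => f a (Z ω) / mass Z (Z ω))]
      apply Finset.sum_congr rfl
      intro a _
      congr 1
      exact ind_congr ⟨fun e => by rw [e], fun e => (Prod.mk.inj e).1⟩
    · rw [ind_neg hz, zero_mul]
      symm
      apply Finset.sum_eq_zero
      intro a _
      rw [ind_neg (fun e => hz (Prod.mk.inj e).2.symm), zero_mul]
  rw [ex_congr h2, ex_sum]
  apply Finset.sum_congr rfl
  intro a _
  rw [ex_mul_right]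
  unfold cond mass pr
  ring

theorem sum_cond (X : Ω → α) (Z : Ω → γ) (T : Finset α) (hT : ∀ ω, X ω ∈ T) (ω : Ω) :
    ∑ a ∈ T, cond X Z a (Z ω) = 1 := by
  unfold cond
  rw [← Finset.sum_div, div_eq_one_iff_eq (mass_pos Z ω).ne']
  unfold mass pr
  rw [← ex_sum]
  apply ex_congr
  intro ω'
  by_cases hz : Z ω' = Z ω
  · rw [ind_pos hz]
    have := sum_ind_eq T (X ω') (hT ω') (fun _ => 1)
    simp only [mul_one] at this
    rw [← this]
    apply Finset.sum_congr rfl
    intro a _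
    exact ind_congr ⟨fun e => (Prod.mk.inj e).1, fun e => Prod.ext e hz⟩
  · rw [ind_neg hz]
    apply Finset.sum_eq_zero
    intro a _
    exact ind_neg (fun e => hz (Prod.mk.inj e).2)

theorem cH_eq (X : Ω → α) (Z : Ω → γ) :
    cH X Z = ex (fun ω => - Real.log (cond X Z (X ω) (Z ω))) := by
  unfold cH H cond
  rw [← ex_sub]
  apply ex_congr
  intro ω
  rw [Real.log_div (mass_pos (fun ω => (X ω, Z ω)) ω).ne' (mass_pos Z ω).ne']
  ring

/-- Conditional Gibbs inequality. -/
theorem cH_le_gibbs [Nonempty Ω] (X : Ω → α) (Z : Ω → γ) (T : Finset α) (hT : ∀ ω, X ω ∈ T)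
    (q : α → γ → ℝ) (hq0 : ∀ a z, 0 ≤ q a z) (hq : ∀ ω, 0 < q (X ω) (Z ω)) :
    cH X Z ≤ ex (fun ω => - Real.log (q (X ω) (Z ω))) + ex (fun ω => ∑ a ∈ T, q a (Z ω)) - 1 := by
  rw [cH_eq]
  have h1 : ex (fun ω => q (X ω) (Z ω) / cond X Z (X ω) (Z ω))
      ≤ ex (fun ω => ∑ a ∈ T, q a (Z ω)) := by
    rw [ex_cond X Z T hT (fun a z => q a z / cond X Z a z)]
    apply ex_mono
    intro ω
    apply Finset.sum_le_sum
    intro a _
    rcases (cond_nonneg X Z a (Z ω)).eq_or_lt with h | h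
    · rw [← h, zero_mul]; exact hq0 _ _
    · rw [mul_div_cancel₀ _ h.ne']
  have h2 : ex (fun ω => - Real.log (cond X Z (X ω) (Z ω)))
      ≤ ex (fun ω => - Real.log (q (X ω) (Z ω)) + q (X ω) (Z ω) / cond X Z (X ω) (Z ω) - 1) := by
    apply ex_mono
    intro ω
    have := Real.log_le_sub_one_of_pos (div_pos (hq ω) (cond_pos X Z ω))
    rw [Real.log_div (hq ω).ne' (cond_pos X Z ω).ne'] at this
    linarith
  rw [ex_sub, ex_add, ex_const] at h2
  linarith

theorem cH_congr {X : Ω → α} {X' : Ω → β} {Z : Ω → γ} {Z' : Ω → δ}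
    (h1 : Det X (fun ω => (X' ω, Z' ω))) (h2 : Det X' (fun ω => (X ω, Z ω)))
    (h3 : Det Z Z') (h4 : Det Z' Z) : cH X Z = cH X' Z' := by
  unfold cH
  rw [H_congr h3 h4]
  congr 1
  apply H_congr
  · intro ω ω' e
    have e2 := (Prod.mk.inj e).2
    exact Prod.ext (h1 ω ω' e) (h3 ω ω' e2)
  · intro ω ω' e
    have e2 := (Prod.mk.inj e).2
    exact Prod.ext (h2 ω ω' e) (h4 ω ω' e2)

theorem cH_nonneg (X : Ω → α) (Z : Ω → γ) : 0 ≤ cH X Z := by
  unfold cH
  have : H Z ≤ H (fun ω => (X ω, Z ω)) := H_mono (fun _ _ e => (Prod.mk.inj e).2)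
  linarith

theorem cH_mono_left {X : Ω → α} {X' : Ω → β} {Z : Ω → γ}
    (h : Det X (fun ω => (X' ω, Z ω))) : cH X Z ≤ cH X' Z := by
  unfold cH
  have : H (fun ω => (X ω, Z ω)) ≤ H (fun ω => (X' ω, Z ω)) := by
    apply H_mono
    intro ω ω' e
    exact Prod.ext (h ω ω' e) (Prod.mk.inj e).2
  linarith

/-- Conditioning on more information lowers the entropy. -/
theorem cH_mono_right [Nonempty Ω] {X : Ω → α} {Z : Ω → γ} {Z' : Ω → δ} (h : Det Z' Z) :
    cH X Z ≤ cH X Z' := by
  classical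
  let g : γ → δ := fun z => if hz : ∃ ω, Z ω = z then Z' hz.choose else Z' (Classical.arbitrary Ω)
  have hg : ∀ ω, g (Z ω) = Z' ω := by
    intro ω
    have hz : ∃ ω', Z ω' = Z ω := ⟨ω, rfl⟩
    simp only [g, dif_pos hz]
    exact h _ _ hz.choose_spec
  have := cH_le_gibbs X Z (Finset.univ.image X) (fun ω => Finset.mem_image_of_mem X
    (Finset.mem_univ ω)) (fun a z => cond X Z' a (g z)) (fun a z => cond_nonneg _ _ _ _)
    (fun ω => by rw [hg]; exact cond_pos X Z' ω)
  simp only [hg] at this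
  rw [ex_congr (fun ω => sum_cond X Z' _ (fun ω => Finset.mem_image_of_mem X
    (Finset.mem_univ ω)) ω), ex_const, ← cH_eq] at this
  linarith

theorem H_unit [Nonempty Ω] (c : γ) : H (fun _ : Ω => c) = 0 := by
  unfold H mass pr
  simp only [ind_pos, ex_const, Real.log_one, neg_zero]

theorem cH_unit [Nonempty Ω] (X : Ω → α) (c : γ) : cH X (fun _ => c) = H X := by
  unfold cH
  rw [H_unit, sub_zero]
  exact H_congr (fun _ _ e => by rw [e]) (fun _ _ e => (Prod.mk.inj e).1)

theorem cH_le_H [Nonempty Ω] (X : Ω → α) (Z : Ω → γ) : cH X Z ≤ H X := by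
  rw [← cH_unit X ()]
  exact cH_mono_right (fun _ _ _ => rfl)

theorem H_sub_le_cH (X : Ω → α) (Z : Ω → γ) : H X - H Z ≤ cH X Z := by
  unfold cH
  have : H X ≤ H (fun ω => (X ω, Z ω)) := H_mono (fun _ _ e => (Prod.mk.inj e).1)
  linarith

theorem cH_chain (X : Ω → α) (Y : Ω → β) (Z : Ω → γ) :
    cH (fun ω => (X ω, Y ω)) Z = cH X (fun ω => (Y ω, Z ω)) + cH Y Z := by
  unfold cH
  have : H (fun ω => ((X ω, Y ω), Z ω)) = H (fun ω => (X ω, (Y ω, Z ω))) := by
    apply H_congr
    · intro ω ω' e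
      simp only [Prod.mk.injEq] at e ⊢
      tauto
    · intro ω ω' e
      simp only [Prod.mk.injEq] at e ⊢
      tauto
  rw [this]; ring

theorem cH_pair_le [Nonempty Ω] (X : Ω → α) (Y : Ω → β) (Z : Ω → γ) :
    cH (fun ω => (X ω, Y ω)) Z ≤ cH X Z + cH Y Z := by
  rw [cH_chain]
  have : cH X (fun ω => (Y ω, Z ω)) ≤ cH X Z := cH_mono_right (fun _ _ e => (Prod.mk.inj e).2)
  linarith

theorem H_pair_le [Nonempty Ω] (X : Ω → α) (Y : Ω → β) :
    H (fun ω => (X ω, Y ω)) ≤ H X + H Y := by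
  have := cH_le_H X Y
  unfold cH at this
  linarith

theorem cH_le_log_card [Nonempty Ω] (X : Ω → α) (Z : Ω → γ) (F : γ → Finset α)
    (h : ∀ ω, X ω ∈ F (Z ω)) : cH X Z ≤ ex (fun ω => Real.log ((F (Z ω)).card)) := by
  classical
  have hpos : ∀ ω, (0 : ℝ) < (F (Z ω)).card := fun ω => by
    exact_mod_cast Finset.card_pos.mpr ⟨_, h ω⟩
  have := cH_le_gibbs X Z (Finset.univ.image X) (fun ω => Finset.mem_image_of_mem X
    (Finset.mem_univ ω)) (fun a z => ind (a ∈ F z) / (F z).card)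
    (fun a z => div_nonneg (ind_nonneg _) (Nat.cast_nonneg _))
    (fun ω => by rw [ind_pos (h ω)]; exact div_pos one_pos (hpos ω))
  have h2 : ex (fun ω => ∑ a ∈ Finset.univ.image X, ind (a ∈ F (Z ω)) / ((F (Z ω)).card : ℝ))
      ≤ 1 := by
    apply ex_le_const
    intro ω
    rw [← Finset.sum_div, div_le_one (hpos ω), sum_ind_card]
    exact_mod_cast Finset.card_le_card (fun a ha => (Finset.mem_filter.mp ha).2)
  have h3 : ex (fun ω => - Real.log (ind (X ω ∈ F (Z ω)) / ((F (Z ω)).card : ℝ)))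
      = ex (fun ω => Real.log ((F (Z ω)).card)) := by
    apply ex_congr
    intro ω
    rw [ind_pos (h ω), one_div, Real.log_inv, neg_neg]
  rw [h3] at this
  linarith

theorem H_le_log_card [Nonempty Ω] (X : Ω → α) (T : Finset α) (h : ∀ ω, X ω ∈ T) :
    H X ≤ Real.log T.card := by
  have := cH_le_log_card X (fun _ => ()) (fun _ => T) h
  rwa [cH_unit, ex_const] at this

theorem cH_fiber {Ω' : Type} [Fintype Ω'] [Nonempty Ω] [Nonempty Ω'] (X : Ω × Ω' → α) :
    cH X Prod.fst = ex (fun a => H (fun b => X (a, b))) := by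
  rw [cH_eq, ex_prod]
  apply ex_congr
  intro a
  unfold H
  apply ex_congr
  intro b
  congr 2
  have hc := card_pos' (Ω := Ω)
  have key : ∀ P : Ω × Ω' → Prop, pr (fun ω => P ω ∧ ω.1 = a)
      = pr (fun b' => P (a, b')) / (Fintype.card Ω : ℝ) := by
    intro P
    unfold pr
    rw [ex_prod]
    have : ∀ a' : Ω, ex (fun b' : Ω' => ind (P (a', b') ∧ (a', b').1 = a))
        = ind (a = a') * ex (fun b' => ind (P (a', b'))) := by
      intro a'
      rw [← ex_mul_left]
      apply ex_congr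
      intro b'
      rw [ind_and, mul_comm]
      congr 1
      exact ind_congr eq_comm
    rw [ex_congr this]
    unfold ex
    rw [sum_ind_eq Finset.univ a (Finset.mem_univ a)
      (fun a' => (∑ b', ind (P (a', b'))) / (Fintype.card Ω' : ℝ))]
  unfold cond mass
  have k1 := key (fun ω => X ω = X (a, b))
  have k2 := key (fun _ => True)
  have e1 : pr (fun ω : Ω × Ω' => (X ω, ω.1) = (X (a, b), (a, b).1))
      = pr (fun ω => X ω = X (a, b) ∧ ω.1 = a) :=
    pr_congr (fun ω => by simp only [Prod.mk.injEq])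
  have e2 : pr (fun ω : Ω × Ω' => ω.1 = (a, b).1) = pr (fun ω : Ω × Ω' => True ∧ ω.1 = a) :=
    pr_congr (fun ω => by simp)
  have e3 : pr (fun _ : Ω' => True) = 1 := by
    unfold pr; simp only [ind_pos]; exact ex_const 1
  rw [e1, e2, k1, k2, e3]
  field_simp

theorem ex_H_le_cH {Ω' : Type} [Fintype Ω'] [Nonempty Ω] [Nonempty Ω'] (X : Ω × Ω' → α)
    (Z : Ω → γ) : ex (fun a => H (fun b => X (a, b))) ≤ cH X (fun ω => Z ω.1) := by
  rw [← cH_fiber]
  exact cH_mono_right (fun _ _ e => by rw [e])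

theorem ex_H_le_H {Ω' : Type} [Fintype Ω'] [Nonempty Ω] [Nonempty Ω'] (X : Ω × Ω' → α) :
    ex (fun a => H (fun b => X (a, b))) ≤ H X := by
  rw [← cH_fiber]
  exact cH_le_H _ _

theorem ex_H_le_H' {Ω' : Type} [Fintype Ω'] [Nonempty Ω] [Nonempty Ω'] (X : Ω × Ω' → α) :
    ex (fun b => H (fun a => X (a, b))) ≤ H X := by
  have := ex_H_le_H (fun p : Ω' × Ω => X (p.2, p.1))
  have h2 := H_mp (MP_equiv (Equiv.prodComm Ω' Ω)) X
  exact this.trans (le_of_eq h2)

/-! ### Families of variables -/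

open Classical in
/-- The variables with index in `S`. -/
def res {ι : Type} {A : ι → Type} (Y : (i : ι) → Ω → A i) (S : Finset ι) (ω : Ω) :
    (i : ι) → Option (A i) := fun i => if i ∈ S then some (Y i ω) else none

omit [Fintype Ω] in
theorem res_eq_iff {ι : Type} {A : ι → Type} (Y : (i : ι) → Ω → A i) (S : Finset ι) (ω ω' : Ω) :
    res Y S ω = res Y S ω' ↔ ∀ i ∈ S, Y i ω = Y i ω' := by
  constructor
  · intro h i hi
    have := congrFun h i
    simp only [res, hi, if_true] at this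
    exact Option.some.inj this
  · intro h
    funext i
    by_cases hi : i ∈ S
    · simp only [res, hi, if_true, h i hi]
    · simp only [res, hi, if_false]

theorem cH_res_biUnion_le [Nonempty Ω] {ι κ : Type} [DecidableEq ι] {A : ι → Type}
    (Y : (i : ι) → Ω → A i) (Z : Ω → γ) (B : Finset κ) (S : κ → Finset ι) :
    cH (res Y (B.biUnion S)) Z ≤ ∑ b ∈ B, cH (res Y (S b)) Z := by
  classical
  induction B using Finset.induction_on with
  | empty =>
    rw [Finset.sum_empty]
    have : cH (res Y ((∅ : Finset κ).biUnion S)) Z ≤ cH (fun _ => ()) Z :=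
      cH_mono_left (fun ω ω' _ => (res_eq_iff _ _ _ _).mpr (by simp))
    have h2 := cH_le_H (fun _ : Ω => ()) Z
    rw [H_unit] at h2
    linarith
  | insert b B hb ih =>
    rw [Finset.sum_insert hb]
    have h1 : cH (res Y ((insert b B).biUnion S)) Z
        ≤ cH (fun ω => (res Y (S b) ω, res Y (B.biUnion S) ω)) Z := by
      apply cH_mono_left
      intro ω ω' e
      simp only [Prod.mk.injEq] at e
      rw [res_eq_iff]
      intro i hi
      rw [Finset.biUnion_insert, Finset.mem_union] at hi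
      rcases hi with hi | hi
      · exact (res_eq_iff _ _ _ _).mp e.1.1 i hi
      · exact (res_eq_iff _ _ _ _).mp e.1.2 i hi
    have h2 := cH_pair_le (res Y (S b)) (res Y (B.biUnion S)) Z
    linarith

theorem cH_res_single {ι : Type} {A : ι → Type} (Y : (i : ι) → Ω → A i) (Z : Ω → γ) (i : ι) :
    cH (res Y {i}) Z = cH (Y i) Z := by
  apply cH_congr
  · intro ω ω' e
    rw [res_eq_iff]
    intro j hj
    rw [Finset.mem_singleton.mp hj]
    exact (Prod.mk.inj e).1
  · intro ω ω' e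
    exact (res_eq_iff _ _ _ _).mp (Prod.mk.inj e).1 i (Finset.mem_singleton_self i)
  · exact fun _ _ e => e
  · exact fun _ _ e => e

theorem cH_res_le [Nonempty Ω] {ι : Type} {A : ι → Type}
    (Y : (i : ι) → Ω → A i) (Z : Ω → γ) (S : Finset ι) :
    cH (res Y S) Z ≤ ∑ i ∈ S, cH (Y i) Z := by
  classical
  have := cH_res_biUnion_le Y Z S (fun i => {i})
  rw [Finset.biUnion_singleton_eq_self] at this
  simpa only [cH_res_single] using this

theorem cH_pi_le [Nonempty Ω] {ι : Type} [Fintype ι] {A : ι → Type}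
    (Y : (i : ι) → Ω → A i) (Z : Ω → γ) :
    cH (fun ω i => Y i ω) Z ≤ ∑ i, cH (Y i) Z := by
  refine le_trans (cH_mono_left ?_) (cH_res_le Y Z Finset.univ)
  intro ω ω' e
  funext i
  exact (res_eq_iff _ _ _ _).mp (Prod.mk.inj e).1 i (Finset.mem_univ i)

theorem H_pi_le [Nonempty Ω] {ι : Type} [Fintype ι] {A : ι → Type}
    (Y : (i : ι) → Ω → A i) : H (fun ω i => Y i ω) ≤ ∑ i, H (Y i) := by
  have := cH_pi_le Y (fun _ => ())
  simpa only [cH_unit] using this

theorem cH_res_chain [Nonempty Ω] {ι : Type} [LinearOrder ι] {A : ι → Type}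
    (Y : (i : ι) → Ω → A i) (Z : Ω → γ) (S : Finset ι) :
    cH (res Y S) Z = ∑ i ∈ S, cH (Y i) (fun ω => (res Y (S.filter (· < i)) ω, Z ω)) := by
  induction S using Finset.induction_on_max with
  | empty =>
    rw [Finset.sum_empty]
    apply le_antisymm _ (cH_nonneg _ _)
    have := cH_res_le Y Z ∅
    rwa [Finset.sum_empty] at this
  | insert a S ha ih =>
    have haS : a ∉ S := fun h => lt_irrefl a (ha a h)
    rw [Finset.sum_insert haS]
    have h1 : (insert a S).filter (· < a) = S := by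
      ext i
      simp only [Finset.mem_filter, Finset.mem_insert]
      constructor
      · rintro ⟨h | h, h'⟩
        · exact absurd h' (h ▸ lt_irrefl _)
        · exact h
      · intro h; exact ⟨Or.inr h, ha i h⟩
    have h2 : ∀ i ∈ S, (insert a S).filter (· < i) = S.filter (· < i) := by
      intro i hi
      ext j
      simp only [Finset.mem_filter, Finset.mem_insert]
      constructor
      · rintro ⟨h | h, h'⟩
        · exact absurd (ha i hi) (h ▸ not_lt.mpr h'.le)
        · exact ⟨h, h'⟩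
      · rintro ⟨h, h'⟩; exact ⟨Or.inr h, h'⟩
    rw [h1, Finset.sum_congr rfl (fun i hi => by rw [h2 i hi]), ← ih, ← cH_chain]
    apply cH_congr
    · intro ω ω' e
      simp only [Prod.mk.injEq] at e
      rw [res_eq_iff]
      intro i hi
      rcases Finset.mem_insert.mp hi with hi | hi
      · rw [hi]; exact e.1.1
      · exact (res_eq_iff _ _ _ _).mp e.1.2 i hi
    · intro ω ω' e
      have := (res_eq_iff _ _ _ _).mp (Prod.mk.inj e).1
      exact Prod.ext (this a (Finset.mem_insert_self a S))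
        ((res_eq_iff Y S ω ω').mpr (fun i hi => this i (Finset.mem_insert_of_mem hi)))
    · exact fun _ _ e => e
    · exact fun _ _ e => e

end

end Vale.Agent.P015
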