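import Vale.Agent.P015.Enrich

/-! Random experiments which look at a pattern of points of the path. -/

namespace Vale.Agent.P015

open Finset

noncomputable section

/-- A random experiment started at a time. -/
structure Exp where
  Ξ : Type
  ι : Type
  Dat : Type
  Pat : Type
  fin : Fintype Ξ
  ne : Nonempty Ξ
  finι : Fintype ι
  neι : Nonempty ι
  time : ℕ → Ξ → ι → ℕ
  dat : ℕ → Ξ → Dat
  pat : ℕ → Ξ → Pat
  rel : Dat → Pat → ι → ℤ × ℤ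

instance (E : Exp) : Fintype E.Ξ := E.fin
instance (E : Exp) : Nonempty E.Ξ := E.ne
instance (E : Exp) : Fintype E.ι := E.finι
instance (E : Exp) : Nonempty E.ι := E.neι

/-- Move first, then run the experiment. -/
def Exp.pre (z : ℕ → ℤ × ℤ) (K : Ker) (E : Exp) : Exp where
  Ξ := K.Ξ × E.Ξ
  ι := E.ι
  Dat := (ℤ × ℤ) × E.Dat
  Pat := E.Pat
  fin := inferInstance
  ne := inferInstance
  finι := inferInstance
  neι := inferInstance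
  time := fun τ ξ i => E.time (K.κ τ ξ.1) ξ.2 i
  dat := fun τ ξ => (z (K.κ τ ξ.1) - z τ, E.dat (K.κ τ ξ.1) ξ.2)
  pat := fun τ ξ => E.pat (K.κ τ ξ.1) ξ.2
  rel := fun d π i => d.1 + E.rel d.2 π i

instance (e : ℕ) : Nonempty (Fin (2 ^ e)) := ⟨⟨0, Nat.two_pow_pos e⟩⟩

/-- Independent repetition. -/
def Exp.rep (e : ℕ) (E : Exp) : Exp where
  Ξ := Fin (2 ^ e) → E.Ξ
  ι := Fin (2 ^ e) × E.ι
  Dat := Fin (2 ^ e) → E.Dat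
  Pat := Fin (2 ^ e) → E.Pat
  fin := inferInstance
  ne := inferInstance
  finι := inferInstance
  neι := inferInstance
  time := fun τ ξ i => E.time τ (ξ i.1) i.2
  dat := fun τ ξ j => E.dat τ (ξ j)
  pat := fun τ ξ j => E.pat τ (ξ j)
  rel := fun d π i => E.rel (d i.1) (π i.1) i.2

/-- Jump to a random test point. -/
def Exp.sp (E : Exp) : Ker := ⟨E.Ξ × E.ι, inferInstance, inferInstance, fun τ ξ => E.time τ ξ.1 ξ.2⟩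

def Exp.Valid (E : Exp) (z : ℕ → ℤ × ℤ) : Prop :=
  ∀ τ ξ i, z (E.time τ ξ i) = z τ + E.rel (E.dat τ ξ) (E.pat τ ξ) i

def Exp.Span (E : Exp) (z : ℕ → ℤ × ℤ) (l : ℕ) : Prop :=
  ∀ τ ξ i, Bd l (z (E.time τ ξ i) - z τ)

def Exp.Cost (E : Exp) (c : ℝ) : Prop :=
  ∀ (Ω : Type) [Fintype Ω] [Nonempty Ω] (τ : Ω → ℕ),
    H (fun ω : Ω × E.Ξ => E.dat (τ ω.1) ω.2) ≤ c

def Exp.Atom (E : Exp) (δ : ℝ) : Prop := ∀ τ i t, pr (fun ξ => E.time τ ξ i = t) ≤ δ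

def Exp.Coll (E : Exp) (δ : ℝ) : Prop :=
  ∀ τ i j, i ≠ j → pr (fun ξ => E.time τ ξ i = E.time τ ξ j) ≤ δ

def Exp.miss (E : Exp) (τ : ℕ) (A : ℕ → Prop) : ℝ := pr (fun ξ => ∀ i, ¬ A (E.time τ ξ i))

def Exp.F (E : Exp) (z : ℕ → ℤ × ℤ) {G : Type} (ψ : ℤ × ℤ → G) {Ω : Type} [Fintype Ω]
    (τ : Ω → ℕ) : ℝ :=
  cH (fun ω : Ω × E.Ξ => E.pat (τ ω.1) ω.2) (fun ω => (ψ (z (τ ω.1)), E.dat (τ ω.1) ω.2))

def Shift {G : Type} (ψ : ℤ × ℤ → G) : Prop := ∀ w w' d, ψ w = ψ w' → ψ (w + d) = ψ (w' + d)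

def Small {G : Type} (ψ : ℤ × ℤ → G) (h : ℝ) : Prop :=
  ∀ (Ω : Type) [Fintype Ω] [Nonempty Ω] (W : Ω → ℤ × ℤ), H (fun ω => ψ (W ω)) ≤ h

def Exp.PP0 (E : Exp) (z : ℕ → ℤ × ℤ) (h F0 : ℝ) : Prop :=
  ∀ (Ω : Type) [Fintype Ω] [Nonempty Ω] (τ : Ω → ℕ),
    ∃ (G : Type) (ψ : ℤ × ℤ → G), Shift ψ ∧ Small ψ h ∧ E.F z ψ τ ≤ F0

def Exp.PP (E : Exp) (z : ℕ → ℤ × ℤ) (K : Ker) (h F0 : ℝ) : Prop :=
  ∀ (Ω : Type) [Fintype Ω] [Nonempty Ω] (τ : Ω → ℕ),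
    ∃ (G : Type) (ψ : ℤ × ℤ → G), Shift ψ ∧ Small ψ h ∧ E.F z ψ (K.ap τ) ≤ F0

variable {z : ℕ → ℤ × ℤ} {E : Exp} {K : Ker}

theorem Exp.card_pre : Fintype.card (E.pre z K).ι = Fintype.card E.ι := rfl

theorem Exp.card_rep (e : ℕ) : Fintype.card (E.rep e).ι = 2 ^ e * Fintype.card E.ι := by
  have : Fintype.card (E.rep e).ι = Fintype.card (Fin (2 ^ e) × E.ι) := rfl
  rw [this, Fintype.card_prod, Fintype.card_fin]

theorem Exp.Valid.pre (h : E.Valid z) (K : Ker) : (E.pre z K).Valid z := by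
  intro τ ξ i
  refine (h (K.κ τ ξ.1) ξ.2 i).trans ?_
  show _ = z τ + (z (K.κ τ ξ.1) - z τ
    + E.rel (E.dat (K.κ τ ξ.1) ξ.2) (E.pat (K.κ τ ξ.1) ξ.2) i)
  abel

theorem Exp.Valid.rep (h : E.Valid z) (e : ℕ) : (E.rep e).Valid z :=
  fun τ ξ i => h τ (ξ i.1) i.2

theorem Exp.Span.pre {l l' : ℕ} (h : E.Span z l) (hK : K.Disp z l') :
    (E.pre z K).Span z (l' + l) := fun τ ξ i => (hK τ ξ.1).trans (h _ ξ.2 i)

theorem Exp.Span.rep {l : ℕ} (h : E.Span z l) (e : ℕ) : (E.rep e).Span z l :=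
  fun τ ξ i => h τ (ξ i.1) i.2

theorem Exp.Span.mono {l l' : ℕ} (h : E.Span z l) (hl : l ≤ l') : E.Span z l' :=
  fun τ ξ i => (h τ ξ i).mono hl

theorem Exp.Cost.mono {c c' : ℝ} (h : E.Cost c) (hc : c ≤ c') : E.Cost c' :=
  fun Ω _ _ τ => (h Ω τ).trans hc

theorem Exp.Cost.pre {c : ℝ} {l : ℕ} (h : E.Cost c) (hK : K.Disp z l) :
    (E.pre z K).Cost (c + 2 * Real.log (2 * l + 1)) := by
  intro Ω _ _ τ
  have e1 := H_pair_le (fun ω : Ω × (K.Ξ × E.Ξ) => z (K.κ (τ ω.1) ω.2.1) - z (τ ω.1))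
    (fun ω => E.dat (K.κ (τ ω.1) ω.2.1) ω.2.2)
  have e2 := H_box (fun ω : Ω × (K.Ξ × E.Ξ) => z (K.κ (τ ω.1) ω.2.1) - z (τ ω.1)) l
    (fun ω => hK _ _)
  have e3 := h (Ω × K.Ξ) (K.ap τ)
  have e4 := H_mp (MP_equiv (Equiv.prodAssoc Ω K.Ξ E.Ξ))
    (fun ω => E.dat (K.κ (τ ω.1) ω.2.1) ω.2.2)
  have e5 : H (fun ω : (Ω × K.Ξ) × E.Ξ => E.dat (K.ap τ ω.1) ω.2)
    = H (fun ω : Ω × (K.Ξ × E.Ξ) => E.dat (K.κ (τ ω.1) ω.2.1) ω.2.2) := e4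
  have e6 : H (fun ω : Ω × (E.pre z K).Ξ => (E.pre z K).dat (τ ω.1) ω.2)
    = H (fun ω : Ω × (K.Ξ × E.Ξ) => (z (K.κ (τ ω.1) ω.2.1) - z (τ ω.1),
      E.dat (K.κ (τ ω.1) ω.2.1) ω.2.2)) := rfl
  linarith

theorem Exp.Cost.rep {c : ℝ} (h : E.Cost c) (e : ℕ) : (E.rep e).Cost (2 ^ e * c) := by
  intro Ω _ _ τ
  have e1 := H_pi_le (fun (j : Fin (2 ^ e)) (ω : Ω × (Fin (2 ^ e) → E.Ξ)) =>
    E.dat (τ ω.1) (ω.2 j))
  have e2 : ∀ j : Fin (2 ^ e), H (fun ω : Ω × (Fin (2 ^ e) → E.Ξ) => E.dat (τ ω.1) (ω.2 j))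
      ≤ c := fun j =>
    (H_mp (MP_prod_right (Λ := Ω) (MP_eval (Λ := E.Ξ) j))
      (fun ω : Ω × E.Ξ => E.dat (τ ω.1) ω.2)).le.trans (h Ω τ)
  have e3 := Finset.sum_le_sum (s := Finset.univ) (fun j _ => e2 j)
  rw [Finset.sum_const, Finset.card_univ, Fintype.card_fin, nsmul_eq_mul] at e3
  push_cast at e3
  exact e1.trans e3

theorem Exp.Atom.pre {δ : ℝ} (h : E.Atom δ) (K : Ker) : (E.pre z K).Atom δ := by
  intro τ i t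
  show ex (fun ξ : K.Ξ × E.Ξ => ind (E.time (K.κ τ ξ.1) ξ.2 i = t)) ≤ δ
  rw [ex_prod]
  exact ex_le_const (fun a => h (K.κ τ a) i t)

theorem Exp.Atom.rep {δ : ℝ} (h : E.Atom δ) (e : ℕ) : (E.rep e).Atom δ := by
  intro τ i t
  exact (ex_eval (Λ := E.Ξ) i.1 (fun ξ => ind (E.time τ ξ i.2 = t))).le.trans (h τ i.2 t)

theorem Exp.Coll.pre {δ : ℝ} (h : E.Coll δ) (K : Ker) : (E.pre z K).Coll δ := by
  intro τ i j hij
  show ex (fun ξ : K.Ξ × E.Ξ =>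
    ind (E.time (K.κ τ ξ.1) ξ.2 i = E.time (K.κ τ ξ.1) ξ.2 j)) ≤ δ
  rw [ex_prod]
  exact ex_le_const (fun a => h (K.κ τ a) i j hij)

theorem Exp.Coll.rep {δ : ℝ} (h : E.Coll δ) (h' : E.Atom δ) (e : ℕ) : (E.rep e).Coll δ := by
  rintro τ ⟨a, i⟩ ⟨b, j⟩ hij
  by_cases c : a = b
  · subst c
    exact (ex_eval (Λ := E.Ξ) a (fun ξ => ind (E.time τ ξ i = E.time τ ξ j))).le.trans
      (h τ i j (fun x => hij (by rw [x])))
  · refine (ex_eval_two (Λ := E.Ξ) a b c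
      (fun ξ ξ' => ind (E.time τ ξ i = E.time τ ξ' j))).le.trans ?_
    rw [ex_comm]
    exact ex_le_const (fun ξ' => h' τ i _)

theorem Exp.miss_rep (e τ : ℕ) (A : ℕ → Prop) :
    (E.rep e).miss τ A = E.miss τ A ^ (2 ^ e) := by
  have h := pr_pi (ι := Fin (2 ^ e)) (Λ := E.Ξ) (fun _ ξ => ∀ i, ¬ A (E.time τ ξ i))
  rw [Finset.prod_const, Finset.card_univ, Fintype.card_fin] at h
  refine Eq.trans (pr_congr ?_) h
  intro ξ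
  exact ⟨fun x j i => x (j, i), fun x i => x i.1 i.2⟩

variable {G : Type} {ψ : ℤ × ℤ → G} {Ω : Type} [Fintype Ω]

theorem Exp.F_nonneg (τ : Ω → ℕ) : 0 ≤ E.F z ψ τ := cH_nonneg _ _

theorem Exp.F_mp {Ω' : Type} [Fintype Ω'] {f : Ω → Ω'} (hf : MP f) (τ : Ω' → ℕ) :
    E.F z ψ (fun ω => τ (f ω)) = E.F z ψ τ :=
  cH_mp (MP_prod_left (Λ := E.Ξ) hf) (fun ω : Ω' × E.Ξ => E.pat (τ ω.1) ω.2)
    (fun ω => (ψ (z (τ ω.1)), E.dat (τ ω.1) ω.2))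

theorem Exp.F_comp (K' : Ker) (τ : Ω → ℕ) :
    E.F z ψ ((K.comp K').ap τ) = E.F z ψ (K'.ap (K.ap τ)) :=
  (Exp.F_mp (MP_equiv (Equiv.prodAssoc Ω K.Ξ K'.Ξ)) ((K.comp K').ap τ)).symm

theorem Exp.F_pre [Nonempty Ω] (hψ : Shift ψ) (τ : Ω → ℕ) :
    (E.pre z K).F z ψ τ ≤ E.F z ψ (K.ap τ) := by
  have e1 := cH_mp (MP_equiv (Equiv.prodAssoc Ω K.Ξ E.Ξ))
    (fun ω : Ω × (E.pre z K).Ξ => (E.pre z K).pat (τ ω.1) ω.2)
    (fun ω => (ψ (z (τ ω.1)), (E.pre z K).dat (τ ω.1) ω.2))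
  refine e1.symm.le.trans ?_
  apply cH_mono_right
  intro ω ω' e
  obtain ⟨e2, e3⟩ := Prod.mk.inj e
  obtain ⟨e4, e5⟩ := Prod.mk.inj e3
  refine Prod.ext ?_ e5
  have e6 : z (K.κ (τ ω.1.1) ω.1.2) - z (τ ω.1.1)
    = z (K.κ (τ ω'.1.1) ω'.1.2) - z (τ ω'.1.1) := e4
  have e7 := hψ _ _ (z (K.κ (τ ω.1.1) ω.1.2) - z (τ ω.1.1)) e2
  conv_rhs at e7 => rw [e6]
  simp only [Equiv.prodAssoc_apply, add_sub_cancel] at e7
  exact e7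

theorem Exp.F_rep [Nonempty Ω] (e : ℕ) (τ : Ω → ℕ) :
    (E.rep e).F z ψ τ ≤ 2 ^ e * E.F z ψ τ := by
  have e1 := cH_pi_le (fun (j : Fin (2 ^ e)) (ω : Ω × (Fin (2 ^ e) → E.Ξ)) =>
    E.pat (τ ω.1) (ω.2 j)) (fun ω => (ψ (z (τ ω.1)), fun j => E.dat (τ ω.1) (ω.2 j)))
  have e2 : ∀ j : Fin (2 ^ e), cH (fun ω : Ω × (Fin (2 ^ e) → E.Ξ) => E.pat (τ ω.1) (ω.2 j))
      (fun ω => (ψ (z (τ ω.1)), fun j => E.dat (τ ω.1) (ω.2 j))) ≤ E.F z ψ τ := by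
    intro j
    refine le_trans ?_ (cH_mp (MP_prod_right (Λ := Ω) (MP_eval (Λ := E.Ξ) j))
      (fun ω : Ω × E.Ξ => E.pat (τ ω.1) ω.2)
      (fun ω => (ψ (z (τ ω.1)), E.dat (τ ω.1) ω.2))).le
    apply cH_mono_right
    intro ω ω' x
    obtain ⟨x1, x2⟩ := Prod.mk.inj x
    exact Prod.ext x1 (congrFun x2 j)
  have e3 := Finset.sum_le_sum (s := Finset.univ) (fun j _ => e2 j)
  rw [Finset.sum_const, Finset.card_univ, Fintype.card_fin, nsmul_eq_mul] at e3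
  push_cast at e3
  exact e1.trans e3

theorem Small.mono {h h' : ℝ} (a : Small ψ h) (b : h ≤ h') : Small ψ h' :=
  fun Ω _ _ W => (a Ω W).trans b

theorem Exp.PP.mono {h h' F0 F1 : ℝ} (a : E.PP z K h F0) (b : h ≤ h') (c : F0 ≤ F1) :
    E.PP z K h' F1 := by
  intro Ω _ _ τ
  obtain ⟨G, ψ, x1, x2, x3⟩ := a Ω τ
  exact ⟨G, ψ, x1, x2.mono b, x3.trans c⟩

theorem Exp.PP.pre {h F0 : ℝ} (a : E.PP z K h F0) : (E.pre z K).PP0 z h F0 := by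
  intro Ω _ _ τ
  obtain ⟨G, ψ, x1, x2, x3⟩ := a Ω τ
  exact ⟨G, ψ, x1, x2, (Exp.F_pre x1 τ).trans x3⟩

theorem Exp.PP0.toPP {h F0 : ℝ} (a : E.PP0 z h F0) (K : Ker) : E.PP z K h F0 :=
  fun Ω _ _ τ => a (Ω × K.Ξ) (K.ap τ)

theorem Exp.PP.rep {h F0 : ℝ} (a : E.PP z K h F0) (e : ℕ) :
    (E.rep e).PP z K h (2 ^ e * F0) := by
  intro Ω _ _ τ
  obtain ⟨G, ψ, x1, x2, x3⟩ := a Ω τ
  exact ⟨G, ψ, x1, x2, (Exp.F_rep e _).trans (by gcongr)⟩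

theorem Exp.PP.nonneg {h F0 : ℝ} (a : E.PP z K h F0) : 0 ≤ F0 := by
  obtain ⟨G, ψ, -, -, x3⟩ := a Unit (fun _ => 0)
  exact (Exp.F_nonneg _).trans x3

/-- Uncertainty about the residues of the root after the experiment has been seen. -/
def Exp.unc (E : Exp) (z : ℕ → ℤ × ℤ) {ι : Type} (P : PS ι) (ε : ι → Bool) (i : ι)
    {Ω : Type} [Fintype Ω] (τ : Ω → ℕ) : ℝ :=
  cH (fun ω : Ω × E.Ξ => P.X ε i (z (τ ω.1))) (fun ω => (E.dat (τ ω.1) ω.2, E.pat (τ ω.1) ω.2))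

theorem Exp.decrement [Nonempty Ω] {ι : Type} (P : PS ι) (ε : ι → Bool) (S : Finset ι)
    {h c : ℝ} (hψ : Small ψ h) (hc : E.Cost c) (τ : Ω → ℕ) :
    E.F z (fun w => (P.XS ε id S w, ψ w)) τ
      ≤ E.F z ψ τ - (H (P.XS ε (fun ω => z (τ ω)) S) - ∑ i ∈ S, E.unc z P ε i τ) + h + c := by
  set A : Ω × E.Ξ → E.Pat := fun ω => E.pat (τ ω.1) ω.2 with hA
  set Z : Ω × E.Ξ → G × E.Dat := fun ω => (ψ (z (τ ω.1)), E.dat (τ ω.1) ω.2) with hZ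
  set Xs := P.XS ε (fun ω : Ω × E.Ξ => z (τ ω.1)) S with hXs
  have e1 := cH_chain A Xs Z
  have e2 := cH_chain Xs A Z
  have e3 : cH (fun ω => (A ω, Xs ω)) Z = cH (fun ω => (Xs ω, A ω)) Z := by
    apply cH_congr
    · intro ω ω' e
      obtain ⟨x1, x2⟩ := Prod.mk.inj (Prod.mk.inj e).1
      exact Prod.ext x2 x1
    · intro ω ω' e
      obtain ⟨x1, x2⟩ := Prod.mk.inj (Prod.mk.inj e).1
      exact Prod.ext x2 x1
    · exact fun _ _ e => e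
    · exact fun _ _ e => e
  have e4 : E.F z (fun w => (P.XS ε id S w, ψ w)) τ ≤ cH A (fun ω => (Xs ω, Z ω)) := by
    apply cH_mono_right
    intro ω ω' e
    obtain ⟨x1, x2⟩ := Prod.mk.inj e
    obtain ⟨x3, x4⟩ := Prod.mk.inj x1
    exact Prod.ext x3 (Prod.ext x4 x2)
  have e5 : E.F z ψ τ = cH A Z := rfl
  have e6 := H_sub_le_cH Xs Z
  have e7 : H Z ≤ h + c :=
    (H_pair_le _ _).trans (add_le_add (hψ _ (fun ω : Ω × E.Ξ => z (τ ω.1))) (hc Ω τ))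
  have e8 : H Xs = H (P.XS ε (fun ω => z (τ ω)) S) :=
    H_mp (MP_fst (Ω := Ω) (Ω' := E.Ξ)) (P.XS ε (fun ω => z (τ ω)) S)
  have e9 : cH Xs (fun ω => (A ω, Z ω))
      ≤ cH Xs (fun ω => (E.dat (τ ω.1) ω.2, E.pat (τ ω.1) ω.2)) := by
    apply cH_mono_right
    intro ω ω' e
    obtain ⟨x1, x2⟩ := Prod.mk.inj e
    exact Prod.ext (Prod.mk.inj x2).2 x1
  have e10 : cH Xs (fun ω => (E.dat (τ ω.1) ω.2, E.pat (τ ω.1) ω.2))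
      ≤ ∑ i ∈ S, E.unc z P ε i τ := cH_res_le _ _ S
  linarith

instance {ι : Type} (P : PS ι) (i : ι) : NeZero (P.p i) := ⟨(P.prime i).ne_zero⟩

theorem PS.H_X_le [Nonempty Ω] {ι : Type} (P : PS ι) (i : ι) (Y : Ω → ZMod (P.p i)) :
    H Y ≤ Real.log (P.p i) := by
  have := H_le_log_card Y Finset.univ (fun _ => Finset.mem_univ _)
  rwa [Finset.card_univ, ZMod.card] at this

theorem Exp.PP.batch {n : ℕ} (P : PS (Fin n)) {k Y l : ℕ} (hk : 0 < k) (hd : k ∣ n) (hn : 0 < n)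
    (hY : ∀ i, P.p i ≤ Y) (KB : Ker) (hK : K.Disp z l) {h F0 c g cv : ℝ} (a : E.PP z K h F0)
    (hc : E.Cost c)
    (hG : ∀ (Ω : Type) [Fintype Ω] [Nonempty Ω] (τ : Ω → ℕ),
      g ≤ P.Gam k (fun ω => z (KB.ap τ ω)))
    (hC : ∀ (Ω : Type) [Fintype Ω] [Nonempty Ω] (τ : Ω → ℕ),
      ex (fun ε => ∑ i, E.unc z P ε i τ) ≤ cv) :
    E.PP z (KB.comp K) (h + k * Real.log Y)
      (F0 - (g - cv) / (n / k : ℕ) + 2 * Real.log (2 * l + 1) + h + c) := by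
  intro Ω _ _ τ
  obtain ⟨G, ψ, x1, x2, x3⟩ := a (Ω × KB.Ξ) (KB.ap τ)
  set τ' := K.ap (KB.ap τ) with hτ'
  have hN : 0 < n / k := Nat.div_pos (Nat.le_of_dvd hn hd) hk
  have hN' : (0 : ℝ) < (n / k : ℕ) := by exact_mod_cast hN
  have e1 := hG Ω τ
  have e2 := P.Gam_le k (fun ω : (Ω × KB.Ξ) × K.Ξ => z (KB.ap τ ω.1)) (fun ω => z (τ' ω)) l
    (fun ω => hK _ _)
  have e3 : P.Gam k (fun ω : (Ω × KB.Ξ) × K.Ξ => z (KB.ap τ ω.1))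
      = P.Gam k (fun ω => z (KB.ap τ ω)) :=
    P.Gam_mp k (MP_fst (Ω := Ω × KB.Ξ) (Ω' := K.Ξ)) (fun ω => z (KB.ap τ ω))
  have e4 := hC _ τ'
  obtain ⟨ε, hε⟩ := exists_ex_le (fun ε : Fin n → Bool =>
    ∑ b ∈ Finset.range (n / k), (H (P.XS ε (fun ω => z (τ' ω)) (blk n k b))
      - ∑ i ∈ blk n k b, E.unc z P ε i τ'))
  have e5 : ex (fun ε : Fin n → Bool =>
      ∑ b ∈ Finset.range (n / k), (H (P.XS ε (fun ω => z (τ' ω)) (blk n k b))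
        - ∑ i ∈ blk n k b, E.unc z P ε i τ'))
      = P.Gam k (fun ω => z (τ' ω)) - ex (fun ε => ∑ i, E.unc z P ε i τ') := by
    unfold PS.Gam
    rw [← ex_sub]
    apply ex_congr
    intro ε
    rw [Finset.sum_sub_distrib, sum_blk hk hd]
  have e6 : ∃ b ∈ Finset.range (n / k), (g - cv) / (n / k : ℕ) - 2 * Real.log (2 * l + 1)
      ≤ H (P.XS ε (fun ω => z (τ' ω)) (blk n k b)) - ∑ i ∈ blk n k b, E.unc z P ε i τ' := by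
    apply Finset.exists_le_of_sum_le (Finset.nonempty_range_iff.mpr hN.ne')
    rw [Finset.sum_const, Finset.card_range, nsmul_eq_mul, mul_sub, mul_div_cancel₀ _ hN'.ne']
    linarith
  obtain ⟨b, hb, e7⟩ := e6
  refine ⟨_, fun w => (P.XS ε id (blk n k b) w, ψ w), ?_, ?_, ?_⟩
  · intro w w' d e
    obtain ⟨y1, y2⟩ := Prod.mk.inj e
    refine Prod.ext ?_ (x1 _ _ d y2)
    show P.XS ε id (blk n k b) (w + d) = P.XS ε id (blk n k b) (w' + d)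
    rw [PS.XS_eq_iff] at y1 ⊢
    intro i hi
    have := y1 i hi
    simp only [id] at this ⊢
    rw [PS.X_add, PS.X_add, this]
  · intro Ω' _ _ W
    have f1 := H_pair_le (P.XS ε W (blk n k b)) (fun ω => ψ (W ω))
    have f2 := x2 Ω' W
    have f3 := cH_res_le (fun i ω => P.X ε i (W ω)) (fun _ => ()) (blk n k b)
    simp only [cH_unit] at f3
    have f4 : ∑ i ∈ blk n k b, H (fun ω => P.X ε i (W ω)) ≤ ∑ _i ∈ blk n k b, Real.log Y := by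
      apply Finset.sum_le_sum
      intro i _
      refine (P.H_X_le i _).trans (Real.log_le_log ?_ ?_)
      · exact_mod_cast (P.prime i).pos
      · exact_mod_cast hY i
    rw [Finset.sum_const, card_blk hk (Finset.mem_range.mp hb), nsmul_eq_mul] at f4
    have f5 : H (fun ω => (P.XS ε id (blk n k b) (W ω), ψ (W ω)))
      = H (fun ω => (P.XS ε W (blk n k b) ω, ψ (W ω))) := rfl
    unfold PS.XS at f1 f5 ⊢
    linarith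
  · rw [Exp.F_comp]
    have := Exp.decrement (z := z) P ε (blk n k b) x2 hc τ'
    linarith

end

end Vale.Agent.P015
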