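import Vale.Agent.P015.Core
import Vale.Agent.P015.Defs

/-! From lattice paths to Gaussian primes. -/

namespace Vale.Agent.P015

open Finset

theorem konig {α : Type} (R : α → α → Prop) (hfin : ∀ a, {b | R a b}.Finite) (a0 : α)
    (hinf : {b | Relation.ReflTransGen R a0 b}.Infinite) :
    ∃ z : ℕ → α, Function.Injective z ∧ ∀ n, R (z n) (z (n + 1)) := by
  let Inv : Set α × α → Prop := fun q =>
    q.2 ∉ q.1 ∧ {b | Relation.ReflTransGen (fun x y => R x y ∧ y ∉ q.1) q.2 b}.Infinite
  have step : ∀ q : {q // Inv q}, ∃ q' : {q // Inv q},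
      R q.1.2 q'.1.2 ∧ q'.1.1 = insert q.1.2 q.1.1 := by
    rintro ⟨⟨F, v⟩, -, h2⟩
    by_contra c
    apply h2
    have hsub : {b | Relation.ReflTransGen (fun x y => R x y ∧ y ∉ F) v b} ⊆
        insert v (⋃ w ∈ {w | R v w ∧ w ∉ insert v F},
          {b | Relation.ReflTransGen (fun x y => R x y ∧ y ∉ insert v F) w b}) := by
      intro b hb
      induction hb with
      | refl => exact Set.mem_insert _ _
      | @tail x y _ hxy ih =>
        by_cases e : y = v
        · exact Or.inl e
        have hy : y ∉ insert v F := fun h => h.elim e hxy.2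
        right
        rcases ih with ih | ih
        · exact Set.mem_biUnion (x := y) ⟨ih ▸ hxy.1, hy⟩ Relation.ReflTransGen.refl
        · obtain ⟨w, hw, hx⟩ := Set.mem_iUnion₂.mp ih
          exact Set.mem_biUnion hw (Relation.ReflTransGen.tail hx ⟨hxy.1, hy⟩)
    refine Set.Finite.subset (Set.Finite.insert v (Set.Finite.biUnion
      ((hfin v).subset (fun w hw => hw.1)) (fun w hw => ?_))) hsub
    by_contra c'
    exact c ⟨⟨(insert v F, w), hw.2, c'⟩, hw.1, rfl⟩
  choose f hf1 hf2 using step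
  let q0 : {q // Inv q} := ⟨(∅, a0), by simp, by simpa using hinf⟩
  let q : ℕ → {q // Inv q} := fun n => f^[n] q0
  have hq : ∀ n, q (n + 1) = f (q n) := fun n => Function.iterate_succ_apply' f n q0
  have mem : ∀ n m, n < m → (q n).1.2 ∈ (q m).1.1 := by
    intro n m h
    induction m, h using Nat.le_induction with
    | base => rw [hq, hf2]; exact Set.mem_insert _ _
    | succ m _ ih => rw [hq, hf2]; exact Set.mem_insert_of_mem _ ih
  refine ⟨fun n => (q n).1.2, ?_, fun n => by beta_reduce; rw [hq]; exact hf1 _⟩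
  intro n m e
  have e' : (q n).1.2 = (q m).1.2 := e
  rcases lt_trichotomy n m with c | c | c
  · exact absurd (e' ▸ mem n m c) (q m).2.1
  · exact c
  · exact absurd (e' ▸ mem m n c) (q n).2.1

/-- The points which survive the sieve by the split primes up to `Q`. -/
def Sv (Q : ℕ) (w : ℤ × ℤ) : Prop :=
  ∀ p ≤ Q, p.Prime → ∀ r : ℤ, (p : ℤ) ∣ r ^ 2 + 1 → ¬ (p : ℤ) ∣ w.1 + r * w.2

/-- A short step to a surviving point. -/
def St (D Q : ℕ) (w w' : ℤ × ℤ) : Prop := Bd D (w' - w) ∧ Sv Q w'

theorem reach_bound (D : ℕ) : ∃ Q B : ℕ, ∀ v : ℤ × ℤ,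
    {b | Relation.ReflTransGen (St D Q) v b}.Finite ∧
      {b | Relation.ReflTransGen (St D Q) v b}.ncard ≤ B := by
  obtain ⟨Q, hQ⟩ := core D
  have fin : ∀ v : ℤ × ℤ, {b | Relation.ReflTransGen (St D Q) v b}.Finite := by
    intro v
    by_contra c
    obtain ⟨z, h1, h2⟩ := konig (St D Q) (fun a => by
      refine Set.Finite.subset ((box D).finite_toSet.image (fun d => a + d)) ?_
      intro b hb
      exact ⟨b - a, mem_box.mpr hb.1, add_sub_cancel _ _⟩) v c
    exact hQ (fun n => z (n + 1)) (fun a b e => by simpa using h1 e) (fun n => (h2 (n + 1)).1)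
      (fun p hp hp' r hr t => (h2 t).2 p hp hp' r hr)
  have shift : ∀ d : ℤ × ℤ, ((Q.factorial : ℤ) ∣ d.1 ∧ (Q.factorial : ℤ) ∣ d.2) → ∀ v b,
      Relation.ReflTransGen (St D Q) v b → Relation.ReflTransGen (St D Q) (v + d) (b + d) := by
    intro d hd v b h
    induction h with
    | refl => exact Relation.ReflTransGen.refl
    | @tail x y _ hxy ih =>
      refine ih.tail ⟨by rw [add_sub_add_right_eq_sub]; exact hxy.1, ?_⟩
      intro p hp hp' r hr e
      apply hxy.2 p hp hp' r hr
      have f : (p : ℤ) ∣ (Q.factorial : ℤ) := by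
        exact_mod_cast (hp'.dvd_factorial).mpr hp
      have g : (p : ℤ) ∣ d.1 + r * d.2 := dvd_add (f.trans hd.1) ((f.trans hd.2).mul_left r)
      have := dvd_sub e g
      simp only [Prod.fst_add, Prod.snd_add] at this
      rwa [show y.1 + d.1 + r * (y.2 + d.2) - (d.1 + r * d.2) = y.1 + r * y.2 by ring] at this
  refine ⟨Q, (box Q.factorial).sup (fun v => {b | Relation.ReflTransGen (St D Q) v b}.ncard),
    fun v => ⟨fin v, ?_⟩⟩
  have M0 : (0 : ℤ) < Q.factorial := by exact_mod_cast Q.factorial_pos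
  let v' : ℤ × ℤ := (v.1 % Q.factorial, v.2 % Q.factorial)
  have hv' : v' ∈ box Q.factorial := by
    rw [mem_box]
    exact ⟨(abs_of_nonneg (Int.emod_nonneg _ M0.ne')).le.trans (Int.emod_lt_of_pos _ M0).le,
      (abs_of_nonneg (Int.emod_nonneg _ M0.ne')).le.trans (Int.emod_lt_of_pos _ M0).le⟩
  refine le_trans ?_ (Finset.le_sup
    (f := fun v => {b | Relation.ReflTransGen (St D Q) v b}.ncard) hv')
  apply Set.ncard_le_ncard_of_injOn (fun b => b + (v' - v)) _ _ (fin v')
  · intro b hb
    have := shift (v' - v) ⟨by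
      simp only [v', Prod.fst_sub]; exact Int.dvd_emod_sub_self,
      by simp only [v', Prod.snd_sub]; exact Int.dvd_emod_sub_self⟩ v b hb
    rwa [add_sub_cancel] at this
  · intro a _ b _ e
    exact add_right_cancel e

theorem small_or_sv (Q : ℕ) (z : GaussianInt) (hz : Irreducible z) :
    Bd Q (z.re, z.im) ∨ Sv Q (z.re, z.im) := by
  by_contra c
  rw [not_or] at c
  apply c.2
  intro p hp hp' r hr e
  apply c.1
  have h1 : (p : ℤ) ∣ z.norm := by
    have : z.norm = (z.re + r * z.im) * (z.re - r * z.im) + (r ^ 2 + 1) * z.im ^ 2 := by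
      rw [Zsqrtd.norm_def]; ring
    rw [this]
    exact dvd_add (e.mul_right _) (hr.mul_right _)
  have h2 : (p : GaussianInt) ∣ z * star z := by
    rw [← Zsqrtd.norm_eq_mul_conj]
    exact_mod_cast Int.cast_dvd_cast (α := GaussianInt) _ _ h1
  have p2 : (2 : ℤ) ≤ p := by exact_mod_cast hp'.two_le
  have h3 : ¬ IsUnit (p : GaussianInt) := by
    intro u
    have := (Zsqrtd.norm_eq_one_iff' (by norm_num) _).mpr u
    rw [Zsqrtd.norm_natCast] at this
    nlinarith
  have h4 : (p : GaussianInt) ≠ 0 := by exact_mod_cast hp'.ne_zero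
  obtain ⟨π, hπ, hπ'⟩ := WfDvdMonoid.exists_irreducible_factor h3 h4
  have key : ∀ x : GaussianInt, Irreducible x → π ∣ x → x.norm ≤ p * p := by
    intro x hx h
    obtain ⟨t, ht⟩ := (hπ.dvd_symm hx h).trans hπ'
    have f := congrArg Zsqrtd.norm ht
    rw [Zsqrtd.norm_natCast, Zsqrtd.norm_mul] at f
    exact Int.le_of_dvd (by positivity) ⟨_, f⟩
  have h5 : z.norm ≤ p * p := by
    rcases hπ.prime.dvd_or_dvd (hπ'.trans h2) with h | h
    · exact key z hz h
    · rw [← Zsqrtd.norm_conj]
      exact key _ ((MulEquiv.irreducible_iff (starRingAut (R := GaussianInt))).mpr hz) h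
  rw [Zsqrtd.norm_def] at h5
  have pQ : (p : ℤ) ≤ Q := by exact_mod_cast hp
  constructor
  · apply abs_le_of_sq_le_sq _ (by positivity)
    nlinarith [mul_self_nonneg z.im]
  · apply abs_le_of_sq_le_sq _ (by positivity)
    nlinarith [mul_self_nonneg z.re]

theorem bd_of_gdist {D : ℝ} {z w : GaussianInt} (h : gdist z w ≤ D) :
    Bd ⌈D⌉₊ ((w.re, w.im) - (z.re, z.im)) := by
  have hD := h.trans (Nat.le_ceil D)
  unfold gdist at hD
  constructor
  · have : |((w.re : ℝ) - z.re)| ≤ (⌈D⌉₊ : ℝ) := by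
      refine le_trans (Real.abs_le_sqrt ?_) hD
      nlinarith [sq_nonneg ((z.im : ℝ) - w.im)]
    exact_mod_cast this
  · have : |((w.im : ℝ) - z.im)| ≤ (⌈D⌉₊ : ℝ) := by
      refine le_trans (Real.abs_le_sqrt ?_) hD
      nlinarith [sq_nonneg ((z.re : ℝ) - w.re)]
    exact_mod_cast this

theorem uniform_bound (D : ℝ) : ∃ B : ℕ, ∀ C : (moatGraph D).ConnectedComponent,
    C.supp.Finite ∧ C.supp.ncard ≤ B := by
  classical
  obtain ⟨Q, B, hB⟩ := reach_bound ⌈D⌉₊
  refine ⟨((box Q).card + 1) * B, fun C => ?_⟩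
  obtain ⟨z0, rfl⟩ := C.exists_rep
  let f : {z : GaussianInt // Irreducible z} → ℤ × ℤ := fun z => (z.1.re, z.1.im)
  have finj : Function.Injective f := by
    intro a b e
    exact Subtype.ext (Zsqrtd.ext (Prod.mk.inj e).1 (Prod.mk.inj e).2)
  let T : Finset (ℤ × ℤ) := (insert (f z0) (box Q)).biUnion (fun v => (hB v).1.toFinset)
  have hT : T.card ≤ ((box Q).card + 1) * B := by
    refine (Finset.card_biUnion_le_card_mul _ _ B (fun v _ => ?_)).trans
      (Nat.mul_le_mul_right _ (Finset.card_insert_le _ _))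
    rw [← Set.ncard_eq_toFinset_card _ (hB v).1]
    exact (hB v).2
  have hmem : ∀ x, Relation.ReflTransGen (moatGraph D).Adj z0 x → f x ∈ T := by
    intro x h
    induction h with
    | refl =>
      exact Finset.mem_biUnion.mpr ⟨_, Finset.mem_insert_self _ _,
        (Set.Finite.mem_toFinset _).mpr Relation.ReflTransGen.refl⟩
    | @tail x y _ hxy ih =>
      rcases small_or_sv Q y.1 y.2 with c | c
      · exact Finset.mem_biUnion.mpr ⟨_, Finset.mem_insert_of_mem (mem_box.mpr c),
          (Set.Finite.mem_toFinset _).mpr Relation.ReflTransGen.refl⟩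
      · obtain ⟨v, hv, hx⟩ := Finset.mem_biUnion.mp ih
        exact Finset.mem_biUnion.mpr ⟨v, hv, (Set.Finite.mem_toFinset _).mpr
          (Relation.ReflTransGen.tail ((Set.Finite.mem_toFinset _).mp hx)
            ⟨bd_of_gdist hxy.2, c⟩)⟩
  have hmaps : ∀ x ∈ (SimpleGraph.ConnectedComponent.supp
      (Quot.mk (moatGraph D).Reachable z0)), f x ∈ (T : Set (ℤ × ℤ)) := by
    intro x hx
    have : (moatGraph D).Reachable x z0 := SimpleGraph.ConnectedComponent.exact hx
    exact hmem x ((SimpleGraph.reachable_iff_reflTransGen _ _).mp this.symm)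
  refine ⟨Set.Finite.of_finite_image (T.finite_toSet.subset ?_) finj.injOn, ?_⟩
  · rintro _ ⟨x, hx, rfl⟩
    exact hmaps x hx
  · refine (Set.ncard_le_ncard_of_injOn f hmaps finj.injOn T.finite_toSet).trans ?_
    rw [Set.ncard_coe_finset]
    exact hT

theorem no_walk (D : ℝ) : ¬ ∃ z : ℕ → GaussianInt, Function.Injective z ∧
    (∀ n, Irreducible (z n)) ∧ ∀ n, gdist (z n) (z (n + 1)) ≤ D := by
  rintro ⟨z, h1, h2, h3⟩
  obtain ⟨B, hB⟩ := uniform_bound D
  let x : ℕ → {z : GaussianInt // Irreducible z} := fun n => ⟨z n, h2 n⟩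
  have hx : Function.Injective x := fun a b e => h1 (congrArg Subtype.val e)
  have hr : ∀ n, (moatGraph D).Reachable (x n) (x 0) := by
    intro n
    induction n with
    | zero => rfl
    | succ n ih =>
      have : (moatGraph D).Adj (x n) (x (n + 1)) := ⟨fun e => by simpa using hx e, h3 n⟩
      exact this.symm.reachable.trans ih
  exact Set.infinite_of_injective_forall_mem hx
    (fun n => (SimpleGraph.ConnectedComponent.mem_supp_iff _ _).mpr
      (SimpleGraph.ConnectedComponent.sound (hr n)))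
    (hB ((moatGraph D).connectedComponentMk (x 0))).1

end Vale.Agent.P015
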