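import Vale.Agent.P015.Cube

/-! Many primes congruent to one modulo four lie in some short interval. -/

namespace Vale.Agent.P015

open Finset

noncomputable section

/-- The nontrivial character modulo four. -/
def chi : ArithmeticFunction ℝ :=
  ⟨fun m => if m % 4 = 1 then 1 else if m % 4 = 3 then -1 else 0, by simp⟩

theorem chi_apply (m : ℕ) : chi m = if m % 4 = 1 then 1 else if m % 4 = 3 then -1 else 0 := rfl

theorem chi_mul (a b : ℕ) : chi (a * b) = chi a * chi b := by
  rw [chi_apply, chi_apply, chi_apply, Nat.mul_mod]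
  have ha : a % 4 < 4 := Nat.mod_lt _ (by norm_num)
  have hb : b % 4 < 4 := Nat.mod_lt _ (by norm_num)
  generalize a % 4 = x at ha
  generalize b % 4 = y at hb
  interval_cases x <;> interval_cases y <;> norm_num

theorem sum_chi (N : ℕ) :
    ∑ m ∈ Finset.Ioc 0 N, chi m = if N % 4 = 1 ∨ N % 4 = 2 then 1 else 0 := by
  induction N with
  | zero => simp
  | succ N ih =>
    rw [Finset.sum_Ioc_succ_top (Nat.zero_le N), ih, chi_apply, Nat.add_mod]
    have ha : N % 4 < 4 := Nat.mod_lt _ (by norm_num)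
    generalize N % 4 = x at ha
    interval_cases x <;> norm_num

theorem sum_chi_log (N : ℕ) : ∑ m ∈ Finset.Ioc 0 N, chi m * Real.log m
    = ∑ d ∈ Finset.Ioc 0 N, ArithmeticFunction.vonMangoldt d * chi d *
      ∑ m ∈ Finset.Ioc 0 (N / d), chi m := by
  have h := ArithmeticFunction.sum_Ioc_mul_eq_sum_sum
    (ArithmeticFunction.pmul ArithmeticFunction.vonMangoldt chi) chi N
  simp only [ArithmeticFunction.pmul_apply] at h
  rw [← h]
  apply Finset.sum_congr rfl
  intro m _
  rw [ArithmeticFunction.mul_apply, ← ArithmeticFunction.vonMangoldt_sum, Finset.mul_sum,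
    ← Nat.sum_divisorsAntidiagonal (fun x _ => chi m * ArithmeticFunction.vonMangoldt x)]
  apply Finset.sum_congr rfl
  intro x hx
  rw [ArithmeticFunction.pmul_apply, ← (Nat.mem_divisorsAntidiagonal.mp hx).1, chi_mul]
  ring

theorem sum_log_eq (N : ℕ) : ∑ m ∈ Finset.Ioc 0 N, Real.log m = Real.log (N.factorial) := by
  induction N with
  | zero => simp
  | succ N ih =>
    rw [Finset.sum_Ioc_succ_top (Nat.zero_le N), ih, Nat.factorial_succ, Nat.cast_mul,
      Real.log_mul (by positivity) (by positivity), add_comm]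

theorem log_fact (N M : ℕ) (h : N ≤ M) : Real.log (N.factorial)
    = ∑ d ∈ Finset.Ioc 0 M, ArithmeticFunction.vonMangoldt d * ((N / d : ℕ) : ℝ) := by
  have e := ArithmeticFunction.sum_Ioc_mul_zeta_eq_sum ArithmeticFunction.vonMangoldt N
  rw [ArithmeticFunction.vonMangoldt_mul_zeta] at e
  simp only [ArithmeticFunction.log_apply] at e
  rw [← sum_log_eq, e]
  apply Finset.sum_subset (Finset.Ioc_subset_Ioc_right h)
  intro x hx hx'
  rw [Finset.mem_Ioc] at hx hx'
  rw [Nat.div_eq_of_lt (by omega)]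
  simp

theorem chi_log_ge (n : ℕ) :
    - Real.log (4 * n + 1) ≤ ∑ m ∈ Finset.Ioc 0 (4 * n), chi m * Real.log m := by
  induction n with
  | zero => simp
  | succ n ih =>
    rw [show 4 * (n + 1) = 4 * n + 1 + 1 + 1 + 1 by ring, Finset.sum_Ioc_succ_top (by omega),
      Finset.sum_Ioc_succ_top (by omega), Finset.sum_Ioc_succ_top (by omega),
      Finset.sum_Ioc_succ_top (by omega)]
    have e1 : chi (4 * n + 1) = 1 := by rw [chi_apply, if_pos (by omega)]
    have e2 : chi (4 * n + 1 + 1) = 0 := by rw [chi_apply, if_neg (by omega), if_neg (by omega)]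
    have e3 : chi (4 * n + 1 + 1 + 1) = -1 := by
      rw [chi_apply, if_neg (by omega), if_pos (by omega)]
    have e4 : chi (4 * n + 1 + 1 + 1 + 1) = 0 := by
      rw [chi_apply, if_neg (by omega), if_neg (by omega)]
    rw [e1, e2, e3, e4]
    push_cast
    have : Real.log (4 * n + 2 + 1) ≤ Real.log (4 * (n + 1) + 1) :=
      Real.log_le_log (by positivity) (by linarith)
    linarith

theorem fact_ge (n : ℕ) (hn : 0 < n) : n * Real.log 4 - Real.log (4 * n)
    ≤ Real.log ((4 * n).factorial) - 3 * Real.log ((2 * n).factorial)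
      + 2 * Real.log (n.factorial) := by
  have c1 : ∀ m : ℕ, Real.log ((2 * m).factorial)
      = Real.log (m.centralBinom) + 2 * Real.log (m.factorial) := by
    intro m
    have := Nat.choose_mul_factorial_mul_factorial (show m ≤ 2 * m by omega)
    rw [show 2 * m - m = m by omega, ← Nat.centralBinom_eq_two_mul_choose] at this
    have p1 : (0 : ℝ) < m.centralBinom := by exact_mod_cast Nat.centralBinom_pos m
    rw [← this, Nat.cast_mul, Nat.cast_mul, Real.log_mul (by positivity) (by positivity),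
      Real.log_mul (by positivity) (by positivity)]
    ring
  have e1 := c1 (2 * n)
  rw [show 2 * (2 * n) = 4 * n by ring] at e1
  have e2 := c1 n
  have p1 : (0 : ℝ) < n.centralBinom := by exact_mod_cast Nat.centralBinom_pos n
  have p2 : (0 : ℝ) < (2 * n).centralBinom := by exact_mod_cast Nat.centralBinom_pos (2 * n)
  have hn' : (0 : ℝ) < n := by exact_mod_cast hn
  have e3 : Real.log (n.centralBinom) ≤ n * Real.log 4 := by
    have : (n.centralBinom : ℝ) ≤ 4 ^ n := by exact_mod_cast Nat.centralBinom_le_four_pow n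
    have := Real.log_le_log p1 this
    rwa [Real.log_pow] at this
  have e4 : 2 * n * Real.log 4 ≤ Real.log (4 * n) + Real.log ((2 * n).centralBinom) := by
    have : (4 : ℝ) ^ (2 * n) ≤ 2 * (2 * n : ℕ) * (2 * n).centralBinom := by
      exact_mod_cast Nat.four_pow_le_two_mul_self_mul_centralBinom (2 * n) (by omega)
    have := Real.log_le_log (by positivity) this
    rw [Real.log_pow, Real.log_mul (by positivity) (by positivity)] at this
    push_cast at this
    rwa [show (2 : ℝ) * (2 * n) = 4 * n by ring] at this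
  linarith

theorem theta_one_ge (n : ℕ) (hn : 0 < n) :
    n * Real.log 2 - Real.log (4 * n + 1) - Real.log 2
      - 2 * √(4 * n) * Real.log (4 * n)
      ≤ ∑ p ∈ (Finset.Ioc 0 (4 * n)).filter (fun p => p.Prime ∧ p % 4 = 1), Real.log p := by
  have hn' : (1 : ℝ) ≤ n := by exact_mod_cast hn
  have e1 := fact_ge n hn
  have e2 := chi_log_ge n
  rw [sum_chi_log] at e2
  rw [log_fact (4 * n) (4 * n) le_rfl, log_fact (2 * n) (4 * n) (by omega),
    log_fact n (4 * n) (by omega), Finset.mul_sum, Finset.mul_sum, ← Finset.sum_sub_distrib,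
    ← Finset.sum_add_distrib] at e1
  have e3 := add_le_add e1 e2
  rw [← Finset.sum_add_distrib] at e3
  have e4 := Chebyshev.psi_sub_theta_le (x := ((4 * n : ℕ) : ℝ)) (by push_cast; linarith)
  rw [Chebyshev.psi_sub_theta_eq_sum_not_prime, Nat.floor_natCast, Finset.sum_filter] at e4
  have e5 : ∑ d ∈ Finset.Ioc 0 (4 * n), (if d = 2 then Real.log 2 else 0) ≤ Real.log 2 := by
    rw [Finset.sum_ite_eq']
    split_ifs
    · rfl
    · exact Real.log_nonneg (by norm_num)
  rw [Finset.sum_filter]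
  have e6 : ∀ d ∈ Finset.Ioc 0 (4 * n),
      ArithmeticFunction.vonMangoldt d * ((4 * n / d : ℕ) : ℝ)
        - 3 * (ArithmeticFunction.vonMangoldt d * ((2 * n / d : ℕ) : ℝ))
        + 2 * (ArithmeticFunction.vonMangoldt d * ((n / d : ℕ) : ℝ))
        + ArithmeticFunction.vonMangoldt d * chi d * ∑ m ∈ Finset.Ioc 0 (4 * n / d), chi m
      ≤ 2 * (if d.Prime ∧ d % 4 = 1 then Real.log d else 0)
        + 2 * (if d = 2 then Real.log 2 else 0)
        + 2 * (if ¬ d.Prime then ArithmeticFunction.vonMangoldt d else 0) := by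
    intro d _
    have q2 : 2 * n / d = 4 * n / d / 2 := by
      rw [Nat.div_div_eq_div_mul, show 4 * n = 2 * n * 2 by ring,
        Nat.mul_div_mul_right _ _ (by norm_num)]
    have q4 : n / d = 4 * n / d / 4 := by
      rw [Nat.div_div_eq_div_mul, show 4 * n = n * 4 by ring,
        Nat.mul_div_mul_right _ _ (by norm_num)]
    rw [q2, q4, sum_chi]
    generalize 4 * n / d = q
    have L0 : 0 ≤ ArithmeticFunction.vonMangoldt d := ArithmeticFunction.vonMangoldt_nonneg
    set S : ℝ := if q % 4 = 1 ∨ q % 4 = 2 then 1 else 0 with hS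
    have S1 : S ≤ 1 := by rw [hS]; split_ifs <;> norm_num
    have S0 : 0 ≤ S := by rw [hS]; split_ifs <;> norm_num
    have T1 : (q : ℝ) - 3 * ((q / 2 : ℕ) : ℝ) + 2 * ((q / 4 : ℕ) : ℝ) ≤ S := by
      rw [hS]
      split_ifs with c
      · have : q + 2 * (q / 4) ≤ 3 * (q / 2) + 1 := by omega
        have : (q : ℝ) + 2 * ((q / 4 : ℕ) : ℝ) ≤ 3 * ((q / 2 : ℕ) : ℝ) + 1 := by
          exact_mod_cast this
        linarith
      · have : q + 2 * (q / 4) ≤ 3 * (q / 2) := by omega
        have : (q : ℝ) + 2 * ((q / 4 : ℕ) : ℝ) ≤ 3 * ((q / 2 : ℕ) : ℝ) := by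
          exact_mod_cast this
        linarith
    have X1 : chi d ≤ 1 := by rw [chi_apply]; split_ifs <;> norm_num
    have l2 : 0 ≤ Real.log 2 := Real.log_nonneg (by norm_num)
    have key : ArithmeticFunction.vonMangoldt d * (q : ℝ)
        - 3 * (ArithmeticFunction.vonMangoldt d * ((q / 2 : ℕ) : ℝ))
        + 2 * (ArithmeticFunction.vonMangoldt d * ((q / 4 : ℕ) : ℝ))
        + ArithmeticFunction.vonMangoldt d * chi d * S
        ≤ ArithmeticFunction.vonMangoldt d * ((1 + chi d) * S) := by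
      nlinarith [mul_le_mul_of_nonneg_left T1 L0]
    refine key.trans ?_
    have two : ArithmeticFunction.vonMangoldt d * ((1 + chi d) * S)
        ≤ 2 * ArithmeticFunction.vonMangoldt d := by
      have : (1 + chi d) * S ≤ 2 := by nlinarith
      nlinarith
    by_cases hp : d.Prime
    · rw [if_neg (not_not.mpr hp)]
      by_cases h1 : d % 4 = 1
      · rw [if_pos ⟨hp, h1⟩, if_neg (by omega), ← ArithmeticFunction.vonMangoldt_apply_prime hp]
        linarith
      · rw [if_neg (fun x => h1 x.2)]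
        by_cases h2 : d = 2
        · rw [if_pos h2]
          rw [ArithmeticFunction.vonMangoldt_apply_prime hp, h2] at two ⊢
          push_cast at two ⊢
          linarith
        · have := hp.eq_two_or_odd
          rw [if_neg h2, chi_apply, if_neg h1, if_pos (by omega)]
          simp
    · rw [if_neg (fun x => hp x.1), if_pos hp]
      have : 0 ≤ (if d = 2 then Real.log 2 else 0) := by split_ifs <;> linarith
      linarith
  have e7 := Finset.sum_le_sum e6
  rw [Finset.sum_add_distrib (s := Finset.Ioc 0 (4 * n))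
    (f := fun d : ℕ => 2 * (if d.Prime ∧ d % 4 = 1 then Real.log d else 0)
        + 2 * (if d = 2 then Real.log 2 else 0)), Finset.sum_add_distrib
    (f := fun d : ℕ => 2 * (if d.Prime ∧ d % 4 = 1 then Real.log d else 0)),
    ← Finset.mul_sum, ← Finset.mul_sum, ← Finset.mul_sum] at e7
  have e8 : Real.log 4 = 2 * Real.log 2 := by
    rw [show (4 : ℝ) = 2 ^ 2 by norm_num, Real.log_pow]; norm_num
  have e9 : Real.log (4 * n) ≤ Real.log (4 * n + 1) := Real.log_le_log (by positivity) (by linarith)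
  push_cast at e4
  rw [e8] at e3
  linarith

theorem lin_le_pow (i : ℕ) (hi : 12 ≤ i) : 64 * (2 * i + 4) ≤ 2 ^ i := by
  induction i, hi using Nat.le_induction with
  | base => norm_num
  | succ i _ ih => rw [pow_succ]; omega

theorem many_primes (i : ℕ) (hi : 12 ≤ i) :
    2 ^ (2 * i) ≤ ((Finset.Ioc (2 ^ (2 * i)) (2 ^ (2 * i + 4))).filter
      (fun p => p.Prime ∧ p % 4 = 1)).card * (2 * i) := by
  have e1 := theta_one_ge (2 ^ (2 * i + 2)) (by positivity)
  have e0 : 4 * 2 ^ (2 * i + 2) = 2 ^ (2 * i + 4) := by ring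
  rw [e0] at e1
  have e2 := Chebyshev.theta_le_log4_mul_x (x := ((2 ^ (2 * i) : ℕ) : ℝ)) (by positivity)
  rw [Chebyshev.theta, Nat.floor_natCast] at e2
  set T := (Finset.Ioc (2 ^ (2 * i)) (2 ^ (2 * i + 4))).filter (fun p => p.Prime ∧ p % 4 = 1)
    with hT
  have l0 : ∀ p : ℕ, 0 ≤ Real.log p := Real.log_natCast_nonneg
  have e3 : ∑ p ∈ (Finset.Ioc 0 (2 ^ (2 * i + 4))).filter (fun p : ℕ => p.Prime ∧ p % 4 = 1),
      Real.log p ≤ ∑ p ∈ (Finset.Ioc 0 (2 ^ (2 * i))).filter Nat.Prime, Real.log p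
        + ∑ p ∈ T, Real.log p := by
    rw [← Finset.sum_union]
    · apply Finset.sum_le_sum_of_subset_of_nonneg _ (fun p _ _ => l0 p)
      intro p hp
      simp only [hT, Finset.mem_union, Finset.mem_filter, Finset.mem_Ioc] at hp ⊢
      rcases le_or_gt p (2 ^ (2 * i)) with c | c
      · exact Or.inl ⟨⟨hp.1.1, c⟩, hp.2.1⟩
      · exact Or.inr ⟨⟨c, hp.1.2⟩, hp.2⟩
    · rw [Finset.disjoint_left]
      intro p hp hp'
      simp only [hT, Finset.mem_filter, Finset.mem_Ioc] at hp hp'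
      omega
  have l2 := Real.log_two_lt_d9
  have l2' := Real.log_two_gt_d9
  have hi' : (12 : ℝ) ≤ i := by exact_mod_cast hi
  have e4 : ∑ p ∈ T, Real.log p ≤ T.card * (2 * i) := by
    rw [← nsmul_eq_mul]
    apply Finset.sum_le_card_nsmul
    intro p hp
    simp only [hT, Finset.mem_filter, Finset.mem_Ioc] at hp
    have f1 : (p : ℝ) ≤ 2 ^ (2 * i + 4) := by exact_mod_cast hp.1.2
    have f2 := Real.log_le_log (by exact_mod_cast hp.2.1.pos) f1
    rw [Real.log_pow] at f2
    push_cast at f2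
    nlinarith
  have e5 : Real.log 4 = 2 * Real.log 2 := by
    rw [show (4 : ℝ) = 2 ^ 2 by norm_num, Real.log_pow]; norm_num
  have e6 : (64 : ℝ) * (2 * i + 4) ≤ 2 ^ i := by exact_mod_cast lin_le_pow i hi
  push_cast at e1 e2
  set x : ℝ := 2 ^ i with hx
  have x1 : (2 : ℝ) ^ (2 * i) = x ^ 2 := by rw [hx, ← pow_mul, mul_comm]
  have x2 : (2 : ℝ) ^ (2 * i + 2) = 4 * x ^ 2 := by rw [pow_add, x1]; ring
  have x3 : √(4 * 2 ^ (2 * i + 2)) = 4 * x := by
    rw [x2, show 4 * (4 * x ^ 2) = (4 * x) ^ 2 by ring, Real.sqrt_sq (by positivity)]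
  have x4 : Real.log (4 * 2 ^ (2 * i + 2)) ≤ 2 * i + 4 := by
    rw [show (4 : ℝ) * 2 ^ (2 * i + 2) = 2 ^ (2 * i + 4) by ring, Real.log_pow]
    push_cast
    nlinarith
  have x5 : Real.log (4 * 2 ^ (2 * i + 2) + 1) ≤ 2 * i + 5 := by
    have : (4 : ℝ) * 2 ^ (2 * i + 2) + 1 ≤ 2 ^ (2 * i + 5) := by
      have : (1 : ℝ) ≤ 2 ^ (2 * i + 2) := one_le_pow₀ (by norm_num)
      rw [show (2 : ℝ) ^ (2 * i + 5) = 8 * 2 ^ (2 * i + 2) by ring]
      linarith
    have := Real.log_le_log (by positivity) this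
    rw [Real.log_pow] at this
    push_cast at this
    nlinarith
  rw [x3] at e1
  have x6 : 2 * (4 * x) * Real.log (4 * 2 ^ (2 * i + 2)) ≤ 2 * (4 * x) * (2 * i + 4) := by gcongr
  rw [x2] at e1 x5 x6
  rw [x1, e5] at e2
  have x0 : 1 ≤ x := by linarith
  have x7 : x * (64 * (2 * i + 4)) ≤ x * x := by gcongr
  have x8 : x ^ 2 * 0.6931471803 ≤ x ^ 2 * Real.log 2 := by gcongr
  have : x ^ 2 ≤ T.card * (2 * i) := by nlinarith
  rw [← x1] at this
  exact_mod_cast this

theorem short_interval (i c : ℕ) (hi : 12 ≤ i) (hc : 2 ^ c * 2 ^ 15 * (2 * i) ≤ 2 ^ (2 * i)) :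
    ∃ y : ℕ, 2 ^ (2 * i) ≤ y ∧ y + 2 ^ (2 * i - 11) ≤ 2 ^ (2 * i + 4) ∧ ∃ T : Finset ℕ,
      2 ^ c ≤ T.card ∧ ∀ p ∈ T, p.Prime ∧ p % 4 = 1 ∧ y ≤ p ∧ p ≤ y + 2 ^ (2 * i - 11) := by
  have h := many_primes i hi
  set T := (Finset.Ioc (2 ^ (2 * i)) (2 ^ (2 * i + 4))).filter (fun p => p.Prime ∧ p % 4 = 1)
    with hT
  have h1 : 2 ^ c * 2 ^ 15 ≤ T.card := Nat.le_of_mul_le_mul_right (hc.trans h) (by omega)
  set w := 2 ^ (2 * i - 11) with hw
  have w0 : 0 < w := by positivity
  have w1 : 2 ^ (2 * i) = 2048 * w := by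
    rw [hw, show (2048 : ℕ) = 2 ^ 11 by norm_num, ← pow_add]; congr 1; omega
  have w2 : 2 ^ (2 * i + 4) = 32768 * w := by rw [pow_add, w1]; ring
  obtain ⟨l, hl, h2⟩ := Finset.exists_le_card_fiber_of_mul_le_card_of_maps_to
    (s := T) (t := Finset.range 30720) (f := fun p => (p - 1 - 2048 * w) / w) (n := 2 ^ c)
    (fun p hp => by
      simp only [hT, Finset.mem_filter, Finset.mem_Ioc] at hp
      rw [Finset.mem_range]
      apply Nat.div_lt_of_lt_mul
      omega)
    ⟨0, by simp⟩ (by rw [Finset.card_range]; omega)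
  rw [Finset.mem_range] at hl
  refine ⟨2048 * w + l * w, by omega, by nlinarith, _, h2, ?_⟩
  intro p hp
  simp only [hT, Finset.mem_filter, Finset.mem_Ioc] at hp
  obtain ⟨⟨⟨p1, p2⟩, p3, p4⟩, p5⟩ := hp
  have f1 := Nat.div_add_mod (p - 1 - 2048 * w) w
  have f2 := Nat.mod_lt (p - 1 - 2048 * w) w0
  rw [p5, mul_comm w l] at f1
  exact ⟨p3, p4, by omega, by omega⟩

theorem exists_PS (T : Finset ℕ) (hT : ∀ p ∈ T, p.Prime ∧ p % 4 = 1) (n : ℕ) (hn : n ≤ T.card) :
    ∃ P : PS (Fin n), ∀ i, P.p i ∈ T := by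
  obtain ⟨T', h1, h2⟩ := Finset.exists_subset_card_eq hn
  let e : Fin n ≃ T' := (Finset.equivFinOfCardEq h2).symm
  have hr : ∀ i : Fin n, ∃ r : ℤ, ((e i : ℕ) : ℤ) ∣ r ^ 2 + 1 := by
    intro i
    obtain ⟨a, b⟩ := hT _ (h1 (e i).2)
    have : Fact (Nat.Prime (e i : ℕ)) := ⟨a⟩
    obtain ⟨x, hx⟩ := (ZMod.exists_sq_eq_neg_one_iff (p := (e i : ℕ))).mpr (by omega)
    refine ⟨(x.val : ℤ), (ZMod.intCast_zmod_eq_zero_iff_dvd _ _).mp ?_⟩
    push_cast
    rw [ZMod.natCast_zmod_val, sq, ← hx]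
    ring
  choose r hr using hr
  refine ⟨⟨fun i => e i, r, fun i => (hT _ (h1 (e i).2)).1, fun i => ?_, ?_, hr⟩,
    fun i => h1 (e i).2⟩
  · have := (hT _ (h1 (e i).2)).2
    omega
  · intro i j h
    exact e.injective (Subtype.ext h)

end

end Vale.Agent.P015
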