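import Vale.Agent.P015.Cov
import Vale.Agent.P015.Primes

/-! Numerical choices for the enrichment programs. -/

namespace Vale.Agent.P015

open Finset

noncomputable section

variable {z : ℕ → ℤ × ℤ}

theorem log_two_le_one : Real.log 2 ≤ 1 := by linarith [Real.log_two_lt_d9]

theorem log_le_of_le_pow {a : ℝ} {x : ℕ} (h0 : 0 < a) (h : a ≤ 2 ^ x) : Real.log a ≤ x := by
  have := Real.log_le_log h0 h
  rw [Real.log_pow] at this
  have h2 := log_two_le_one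
  have : (0 : ℝ) ≤ x := by positivity
  nlinarith

theorem log_disp {l x : ℕ} (h : l ≤ 2 ^ x) : Real.log (2 * l + 1) ≤ x + 2 := by
  have h1 : 2 * l + 1 ≤ 2 ^ (x + 2) := by
    have := Nat.one_le_two_pow (n := x)
    rw [pow_add]; omega
  have h2 : 2 * (l : ℝ) + 1 ≤ 2 ^ (x + 2) := by exact_mod_cast h1
  have := log_le_of_le_pow (by positivity) h2
  push_cast at this
  exact this

theorem two_mul_le_two_pow (x : ℕ) : 2 * x ≤ 2 ^ x := by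
  induction x with
  | zero => simp
  | succ x ih =>
    have := Nat.one_le_two_pow (n := x)
    rcases Nat.eq_zero_or_pos x with c | c
    · subst c; simp
    · rw [pow_succ]; omega

theorem tower_add {a b c : ℕ} (ha : a < c) (hb : b < c) :
    2 ^ 2 ^ a + 2 ^ 2 ^ b ≤ 2 ^ 2 ^ c := by
  obtain ⟨c, rfl⟩ : ∃ c', c = c' + 1 := ⟨c - 1, by omega⟩
  have h1 : 2 ^ 2 ^ a ≤ 2 ^ 2 ^ c :=
    Nat.pow_le_pow_right (by norm_num) (Nat.pow_le_pow_right (by norm_num) (by omega))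
  have h2 : 2 ^ 2 ^ b ≤ 2 ^ 2 ^ c :=
    Nat.pow_le_pow_right (by norm_num) (Nat.pow_le_pow_right (by norm_num) (by omega))
  have h3 : 2 ^ (2 ^ c + 1) ≤ 2 ^ 2 ^ (c + 1) := by
    apply Nat.pow_le_pow_right (by norm_num)
    have := Nat.one_le_two_pow (n := c)
    rw [pow_succ]; omega
  rw [pow_succ] at h3
  omega

theorem exists_progA (D : ℕ) (hz : Function.Injective z) (hs : ∀ n, Bd D (z (n + 1) - z n))
    (s u e : ℕ) (h1 : (s + 21) ^ 2 + 100 ≤ u) (h2 : 16 * CD D ≤ 2 ^ u) (h3 : 1 ≤ e) :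
    ∃ K : Ker, K.Disp z (2 ^ 2 ^ (e + u)) ∧
      K.Prog z (CD D) (2 ^ 2 ^ e) (2 ^ (s + 21)) (s + 17) := by
  obtain ⟨K, k1, k2⟩ := exists_prog D z hz hs (2 ^ 2 ^ e) (2 ^ (s + 21)) (s + 17)
    (by positivity) (by positivity)
  refine ⟨K, k1.mono ?_, k2⟩
  obtain ⟨v, rfl⟩ : ∃ v, u = v + 1 := ⟨u - 1, by omega⟩
  have a1 : s + 17 ≤ 2 ^ (v + 1) := by
    have := Nat.lt_two_pow_self (n := v + 1)
    nlinarith
  have a2 : CD D ≤ 2 ^ (v + 1) := by omega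
  have a3 : (2 ^ 2 ^ e) ^ (2 ^ (s + 21)) ^ (s + 17) ≤ 2 ^ 2 ^ (e + v) := by
    rw [← pow_mul, ← pow_mul, ← pow_add]
    apply Nat.pow_le_pow_right (by norm_num) (Nat.pow_le_pow_right (by norm_num) _)
    nlinarith
  refine (Nat.mul_le_mul a1 (Nat.mul_le_mul a2 a3)).trans ?_
  rw [← pow_add, ← pow_add]
  apply Nat.pow_le_pow_right (by norm_num)
  have a4 := two_mul_le_two_pow (v + 1)
  have a5 : 2 ^ (v + 1) ≤ 2 ^ (e + v) := Nat.pow_le_pow_right (by norm_num) (by omega)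
  rw [← add_assoc e v 1, pow_succ 2 (e + v)]
  omega

theorem stageA_nat {C s u e j y : ℕ} (hu : u = 2 ^ s)
    (h1 : (s + 21) ^ 2 + 100 ≤ u) (h2 : 16 * C ≤ 2 ^ u) (he : 2 * u ≤ e)
    (hj1 : 16 * u ≤ j) (hj2 : j ≤ 32 * u) (hy1 : 2 ^ j ≤ y) (hy2 : y ≤ 2 ^ (j + 4)) :
    ∃ W r0 : ℕ, W + 2 = 2 ^ (s + 21) ∧ (W + 2) ^ 2 ≤ r0 ∧ 3 * (W + 2) ≤ r0 ∧
      y ^ (W * r0) ≤ 2 ^ 2 ^ e ∧ 16 * (C * 2 ^ 2 ^ e) < y ^ ((W + 1) * r0) ∧
      (W + 2) * r0 ≤ 2 ^ e ∧ 2 ^ e ≤ (W + 2) * r0 * (64 * u) := by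
  have hs0 : 4 * s + 69 ≤ 2 * u := by nlinarith [Nat.zero_le s]
  have R1 : 2 ^ (s + 21) = u * 2 ^ 21 := by rw [hu, pow_add]
  obtain ⟨W, hW⟩ : ∃ W, W + 2 = 2 ^ (s + 21) := ⟨2 ^ (s + 21) - 2, by omega⟩
  have W2 : 2 ≤ W := by omega
  have y2 : 2 ≤ y := le_trans (Nat.le_self_pow (by omega) 2) hy1
  have yW : 1 < y ^ W := Nat.one_lt_pow (by omega) (by omega)
  have j4 : j + 4 ≤ 64 * u := by omega
  have y3 : y ≤ 2 ^ (64 * u) := hy2.trans (Nat.pow_le_pow_right (by norm_num) j4)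
  obtain ⟨r0, lo, hi, r1⟩ : ∃ r0, y ^ (W * r0) ≤ 2 ^ 2 ^ e ∧ 2 ^ 2 ^ e < y ^ (W * (r0 + 1)) ∧
      (W + 2) ^ 2 ≤ r0 := by
    refine ⟨Nat.log (y ^ W) (2 ^ 2 ^ e), ?_, ?_, ?_⟩
    · rw [pow_mul]; exact Nat.pow_log_le_self _ (by positivity)
    · rw [pow_mul]; exact Nat.lt_pow_succ_log_self yW _
    apply Nat.le_log_of_pow_le yW
    have f1 : (y ^ W) ^ (W + 2) ^ 2 ≤ ((2 ^ (64 * u)) ^ (W + 2)) ^ (W + 2) ^ 2 := by
      apply Nat.pow_le_pow_left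
      exact (Nat.pow_le_pow_left y3 W).trans (Nat.pow_le_pow_right (by positivity) (by omega))
    refine f1.trans ?_
    rw [← pow_mul, ← pow_mul]
    apply Nat.pow_le_pow_right (by norm_num)
    have f2 : 64 * u * ((W + 2) * (W + 2) ^ 2) = 2 ^ (4 * s + 69) := by rw [hW, hu]; ring
    rw [f2]
    exact Nat.pow_le_pow_right (by norm_num) (by omega)
  have r2 : 3 * (W + 2) ≤ r0 := by
    refine le_trans ?_ r1
    rw [sq]; exact Nat.mul_le_mul_right _ (by omega)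
  have m1 : (W + 1) * r0 = W * r0 + r0 := by ring
  have m2 : (W + 2) * r0 = W * r0 + 2 * r0 := by ring
  have m3 : W * (r0 + 1) = W * r0 + W := by ring
  have m4 : 2 * r0 ≤ W * r0 := Nat.mul_le_mul_right _ W2
  refine ⟨W, r0, hW, r1, r2, lo, ?_, ?_, ?_⟩
  · have f1 : 16 * C ≤ y := h2.trans (le_trans (Nat.pow_le_pow_right (by norm_num) (by omega)) hy1)
    have f2 : y * y ^ (W * (r0 + 1)) ≤ y ^ ((W + 1) * r0) := by
      rw [← pow_succ']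
      exact Nat.pow_le_pow_right (by omega) (by omega)
    have f3 : y * 2 ^ 2 ^ e < y * y ^ (W * (r0 + 1)) := Nat.mul_lt_mul_of_pos_left hi (by omega)
    have f4 := Nat.mul_le_mul_right (2 ^ 2 ^ e) f1
    rw [← mul_assoc]
    omega
  · have f1 : (2 ^ 2) ^ (W * r0) ≤ 2 ^ 2 ^ e := by
      refine le_trans (Nat.pow_le_pow_left ?_ _) lo
      exact le_trans (Nat.pow_le_pow_right (by norm_num) (by omega)) hy1
    rw [← pow_mul, Nat.pow_le_pow_iff_right (by norm_num)] at f1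
    omega
  · have f1 : 2 ^ 2 ^ e < (2 ^ (64 * u)) ^ (W * (r0 + 1)) := hi.trans_le (Nat.pow_le_pow_left y3 _)
    rw [← pow_mul, Nat.pow_lt_pow_iff_right (by norm_num)] at f1
    have f2 : W * (r0 + 1) ≤ (W + 2) * r0 := by omega
    have := Nat.mul_le_mul_left (64 * u) f2
    rw [mul_comm]
    omega

theorem stageA_real {L u r0 : ℝ} (u' : 1 ≤ u) (L0 : 0 ≤ L) (L1 : L ≤ 33 * u)
    (c4 : (u * 2 ^ 21) ^ 2 ≤ r0) :
    L - 1 / 2048 ≤ L * (1 - (1 / (u * 2 ^ 17)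
      + (2 / (u * 2 ^ 21) + 3 * (u * 2 ^ 21) / r0 + 4 / (u * 2 ^ 21)))) := by
  have c5 : 3 * (u * 2 ^ 21) / r0 ≤ 3 / (u * 2 ^ 21) := by
    rw [div_le_div_iff₀ (lt_of_lt_of_le (by positivity) c4) (by positivity)]
    linarith
  have c6 : 1 / (u * 2 ^ 17) + (2 / (u * 2 ^ 21) + 3 / (u * 2 ^ 21) + 4 / (u * 2 ^ 21))
      = 25 / 2 ^ 21 / u := by field_simp; ring
  have c7 : L * (25 / 2 ^ 21 / u) ≤ 1 / 2048 := by
    refine le_trans (mul_le_mul_of_nonneg_right L1 (by positivity)) ?_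
    rw [show (33 : ℝ) * u * (25 / 2 ^ 21 / u) = 33 * 25 / 2 ^ 21 by field_simp]
    norm_num
  have c8 := mul_le_mul_of_nonneg_left c5 L0
  rw [← c6] at c7
  linarith

theorem stageA {C s u e j y : ℕ} {K : Ker}
    (hK : K.Prog z C (2 ^ 2 ^ e) (2 ^ (s + 21)) (s + 17)) (hu : u = 2 ^ s)
    (h1 : (s + 21) ^ 2 + 100 ≤ u) (h2 : 16 * C ≤ 2 ^ u) (he : 2 * u ≤ e)
    (hj1 : 16 * u ≤ j) (hj2 : j ≤ 32 * u) (hy1 : 2 ^ j ≤ y) (hy2 : y ≤ 2 ^ (j + 4)) :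
    ∃ k : ℕ, 0 < k ∧ k ≤ 2 ^ e ∧ 2 ^ e ≤ k * (64 * u) ∧
      ∀ (n : ℕ) (P : PS (Fin n)), (∀ i, y ≤ P.p i) → k * (2 ^ (s + 21)) ^ (s + 17) ∣ n →
        ∀ τ : ℕ, n * (Real.log y - 1 / 2048) ≤ P.Gam k (fun ξ => z (K.κ τ ξ)) := by
  obtain ⟨W, r0, hW, r1, r2, lo, hhi, k1, k2⟩ := stageA_nat hu h1 h2 he hj1 hj2 hy1 hy2
  have y1 : 1 ≤ y := le_trans Nat.one_le_two_pow hy1
  have hu0 : 100 ≤ u := by omega
  refine ⟨(W + 2) * r0, Nat.mul_pos (by omega) (by omega), k1, k2, ?_⟩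
  intro n P hy hd τ
  have b := hK.bound n P y W r0 y1 hy (by omega) r2 lo hhi hd Unit (fun _ => τ)
  have b2 : P.Gam ((W + 2) * r0) (fun ω => z (K.ap (fun _ : Unit => τ) ω))
      = P.Gam ((W + 2) * r0) (fun ξ => z (K.κ τ ξ)) :=
    P.Gam_mp _ (MP_snd (Ω := Unit) (Ω' := K.Ξ)) (fun ξ => z (K.κ τ ξ))
  rw [b2] at b
  refine le_trans ?_ b
  rw [mul_assoc]
  apply mul_le_mul_of_nonneg_left _ (Nat.cast_nonneg _)
  have u' : (100 : ℝ) ≤ u := by exact_mod_cast hu0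
  have L1 : Real.log y ≤ 33 * u := by
    have := log_le_of_le_pow (a := y) (x := j + 4) (by exact_mod_cast y1) (by exact_mod_cast hy2)
    have f : j + 4 ≤ 33 * u := by omega
    have : ((j + 4 : ℕ) : ℝ) ≤ 33 * u := by exact_mod_cast f
    linarith
  have L0 : 0 ≤ Real.log y := Real.log_natCast_nonneg y
  have R1 : 2 ^ (s + 21) = u * 2 ^ 21 := by rw [hu, pow_add]
  have c1 : (W : ℝ) + 2 = u * 2 ^ 21 := by exact_mod_cast hW.trans R1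
  have c2 : ((2 ^ (s + 21) : ℕ) : ℝ) = u * 2 ^ 21 := by exact_mod_cast R1
  have c3 : (2 : ℝ) ^ (s + 17) = u * 2 ^ 17 := by rw [hu, pow_add]; push_cast; ring
  have c4 : ((u : ℝ) * 2 ^ 21) ^ 2 ≤ r0 := by rw [← c1]; exact_mod_cast r1
  rw [c1, c2, c3]
  exact stageA_real (by linarith) L0 L1 c4

theorem stageB (D : ℕ) (hz : Function.Injective z) (hs : ∀ n, Bd D (z (n + 1) - z n))
    {r0 y x : ℕ} (hr : 2 ^ 20 ≤ r0) (hy : 16 * CD D < y) (hx : y ^ (2 ^ 50 * r0) ≤ 2 ^ x)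
    (hx' : 16 * CD D ≤ 2 ^ x) :
    ∃ K : Ker, K.Disp z (2 ^ (2 * x)) ∧ ∀ (P : PS (Fin (2 ^ 50 * r0))), (∀ i, y ≤ P.p i) →
      ∀ (Ω : Type) [Fintype Ω] [Nonempty Ω] (τ : Ω → ℕ),
        (2 ^ 50 * r0 : ℕ) * Real.log y * (1 - 73 / 1024)
          ≤ P.Gam (1024 * r0) (fun ω => z (K.ap τ ω)) := by
  have y1 : 1 ≤ y := by omega
  obtain ⟨K, k1, k2⟩ := exists_prog D z hz hs (y ^ (1022 * r0)) 1024 4
    (by positivity) (by positivity)
  refine ⟨K, k1.mono ?_, ?_⟩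
  · have f1 : (y ^ (1022 * r0)) ^ 1024 ^ 4 ≤ 2 ^ x := by
      refine le_trans ?_ hx
      rw [← pow_mul]
      exact Nat.pow_le_pow_right y1 (by omega)
    have f2 : 4 * CD D ≤ 2 ^ x := by omega
    rw [← mul_assoc, two_mul, pow_add]
    exact Nat.mul_le_mul f2 f1
  intro P hP Ω _ _ τ
  have b := k2.bound (2 ^ 50 * r0) P y 1022 r0 y1 hP (by omega) (by omega) le_rfl
    (by
      have f1 : y ≤ y ^ r0 := Nat.le_self_pow (by omega) y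
      have f2 : 16 * CD D * y ^ (1022 * r0) < y ^ r0 * y ^ (1022 * r0) :=
        Nat.mul_lt_mul_of_pos_right (by omega) (by positivity)
      rw [← pow_add] at f2
      rw [← mul_assoc, show (1022 + 1) * r0 = r0 + 1022 * r0 by ring]
      exact f2)
    (Dvd.intro 1 (by ring)) Ω τ
  refine le_trans ?_ b
  have L0 : 0 ≤ Real.log y := Real.log_natCast_nonneg y
  apply mul_le_mul_of_nonneg_left _ (by positivity)
  have r' : (2 : ℝ) ^ 20 ≤ r0 := by exact_mod_cast hr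
  have : 3 * (((1022 : ℕ) : ℝ) + 2) / r0 ≤ 3 / 1024 := by
    rw [div_le_div_iff₀ (by positivity) (by positivity)]
    push_cast
    linarith
  push_cast at this ⊢
  norm_num at this ⊢
  linarith

end

end Vale.Agent.P015
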